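import Vale.Agent.P042U.Basic

/-! The smooth weight. -/

namespace Vale.Agent.P042U

open Polynomial Finset

variable {H : ℕ → ℤ} {M : ℕ}

theorem Cvx.monoR (hH : Cvx H) {a b : ℕ} (h : a ≤ b) : (H a : ℝ) ≤ H b := by
  exact_mod_cast monotone_nat_of_le_succ hH.mono h

theorem Cvx.nonnegR (hH : Cvx H) (a : ℕ) : (0 : ℝ) ≤ H a :=
  le_trans (by exact_mod_cast hH.nonneg) (hH.monoR (Nat.zero_le a))

theorem Cvx.step_mono (hH : Cvx H) {a b : ℕ} (h : a ≤ b) :
    (H a : ℝ) - H (a - 1) ≤ (H b : ℝ) - H (b - 1) := by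
  refine monotone_nat_of_le_succ (f := fun a => (H a : ℝ) - H (a - 1)) (fun n => ?_) h
  cases n with
  | zero =>
    have := hH.monoR (Nat.zero_le 1)
    simp only [Nat.zero_add, Nat.sub_self, Nat.zero_sub]
    linarith
  | succ n =>
    have := hH.cvx n
    simp only [Nat.add_sub_cancel]
    exact_mod_cast this

theorem Cvx.step_nonneg (hH : Cvx H) (a : ℕ) : 0 ≤ (H a : ℝ) - H (a - 1) :=
  sub_nonneg.2 (hH.monoR (Nat.sub_le _ _))

theorem Cvx.fac_nonneg (hH : Cvx H) (hX : 0 < H M) {m : ℕ} (hm : m ≤ M) :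
    0 ≤ 1 - (H m : ℝ) / H M := by
  have hX' : (0 : ℝ) < H M := by exact_mod_cast hX
  rw [sub_nonneg, div_le_one hX']
  exact hH.monoR hm

theorem Cvx.fac_le_one (hH : Cvx H) (M m : ℕ) : 1 - (H m : ℝ) / H M ≤ 1 := by
  have := div_nonneg (hH.nonnegR m) (hH.nonnegR M)
  linarith

theorem phi_zero (H : ℕ → ℤ) (M : ℕ) : phi H M 0 = 0 := by
  simp [phi]

theorem phi_top (hX : 0 < H M) : phi H M M = 0 := by
  have hX' : (H M : ℝ) ≠ 0 := by exact_mod_cast hX.ne'
  rw [phi, div_self hX', sub_self, mul_zero]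

theorem phi_nonneg (hH : Cvx H) (hX : 0 < H M) {m : ℕ} (hm : m ≤ M) : 0 ≤ phi H M m :=
  mul_nonneg (hH.step_nonneg m) (hH.fac_nonneg hX hm)

theorem phi_le_step (hH : Cvx H) (M m : ℕ) : phi H M m ≤ (H m : ℝ) - H (m - 1) :=
  mul_le_of_le_one_right (hH.step_nonneg m) (hH.fac_le_one M m)

theorem sum_phi_shift {E : Type} [AddCommGroup E] (f : ℕ → E) (h0 : f 0 = 0) (hM : f M = 0) :
    ∑ m ∈ range M, f m = ∑ m ∈ range M, f (m + 1) := by
  have h1 := sum_range_succ f M
  have h2 := sum_range_succ' f M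
  rw [hM, add_zero] at h1
  rw [h0, add_zero] at h2
  rw [← h1, h2]

theorem sum_phi_le (hH : Cvx H) (hX : 0 < H M) : ∑ m ∈ range M, phi H M m ≤ H M := by
  rw [sum_phi_shift _ (phi_zero H M) (phi_top hX)]
  refine (sum_le_sum fun m _ => phi_le_step hH M (m + 1)).trans ?_
  simp only [Nat.add_sub_cancel]
  rw [sum_range_sub fun m => (H m : ℝ)]
  linarith [hH.nonnegR 0]

theorem phi_var (hH : Cvx H) (hX : 0 < H M) (L : ℝ) (hL : (H M : ℝ) - H (M - 1) ≤ L) (β : ℝ) :
    ∑ m ∈ range M, ‖(phi H M (m + 1) : ℂ) * e (β * H (m + 1)) - (phi H M m : ℂ) * e (β * H m)‖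
      ≤ L * (2 + 2 * Real.pi * |β| * H M) := by
  have hX' : (0 : ℝ) < H M := by exact_mod_cast hX
  have hL0 : 0 ≤ L := (hH.step_nonneg M).trans hL
  have hb : 0 ≤ 2 * Real.pi * |β| := by positivity
  have key : ∀ m ∈ range M,
      ‖(phi H M (m + 1) : ℂ) * e (β * H (m + 1)) - (phi H M m : ℂ) * e (β * H m)‖ ≤
        (((H (m + 1) : ℝ) - H (m + 1 - 1)) - ((H m : ℝ) - H (m - 1))) +
          L * ((H (m + 1) : ℝ) / H M - (H m : ℝ) / H M) +
          L * (2 * Real.pi * |β|) * ((H (m + 1) : ℝ) - H m) := by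
    intro m hm
    have hm' : m + 1 ≤ M := mem_range.1 hm
    have e1 : (phi H M (m + 1) : ℂ) * e (β * H (m + 1)) - (phi H M m : ℂ) * e (β * H m) =
        ((phi H M (m + 1) - phi H M m : ℝ) : ℂ) * e (β * H (m + 1)) +
          (phi H M m : ℂ) * (e (β * H (m + 1)) - e (β * H m)) := by
      push_cast; ring
    have hd : 0 ≤ (H (m + 1) : ℝ) - H m := sub_nonneg.2 (hH.monoR (Nat.le_succ m))
    have h1 : ‖e (β * H (m + 1)) - e (β * H m)‖ ≤ 2 * Real.pi * |β| * ((H (m + 1) : ℝ) - H m) := by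
      refine (norm_e_sub_e_le _ _).trans (le_of_eq ?_)
      rw [← mul_sub, abs_mul, abs_of_nonneg hd]; ring
    have hl : (H m : ℝ) - H (m - 1) ≤ L := (hH.step_mono (by omega)).trans hL
    have hp : phi H M m ≤ L := (phi_le_step hH M m).trans hl
    have hp0 : 0 ≤ phi H M m := phi_nonneg hH hX (by omega)
    have h2 : |phi H M (m + 1) - phi H M m| ≤
        (((H (m + 1) : ℝ) - H (m + 1 - 1)) - ((H m : ℝ) - H (m - 1))) +
          L * ((H (m + 1) : ℝ) / H M - (H m : ℝ) / H M) := by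
      have a1 := hH.step_mono (Nat.le_succ m)
      have a2 := hH.step_nonneg m
      have a3 := hH.fac_nonneg hX hm'
      have a4 := hH.fac_le_one M (m + 1)
      have a5 : 0 ≤ (H (m + 1) : ℝ) / H M - (H m : ℝ) / H M := by
        rw [← sub_div]; positivity
      simp only [Nat.succ_eq_add_one] at a1
      unfold phi
      generalize (H (m + 1) : ℝ) - H (m + 1 - 1) = l1 at *
      generalize (H m : ℝ) - H (m - 1) = l0 at *
      generalize (H (m + 1) : ℝ) / H M = f1 at *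
      generalize (H m : ℝ) / H M = f0 at *
      have b1 : 0 ≤ (l1 - l0) * (1 - f1) := mul_nonneg (by linarith) a3
      have b2 : (l1 - l0) * (1 - f1) ≤ l1 - l0 := mul_le_of_le_one_right (by linarith) a4
      have b3 : 0 ≤ l0 * (f1 - f0) := mul_nonneg a2 a5
      have b4 : l0 * (f1 - f0) ≤ L * (f1 - f0) := mul_le_mul_of_nonneg_right hl a5
      rw [abs_le]
      constructor <;> nlinarith
    rw [e1]
    refine (norm_add_le _ _).trans (add_le_add ?_ ?_)
    · rw [norm_mul, norm_e, mul_one, Complex.norm_real, Real.norm_eq_abs]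
      exact h2
    · rw [norm_mul, Complex.norm_real, Real.norm_eq_abs, abs_of_nonneg hp0, mul_assoc]
      exact mul_le_mul hp h1 (norm_nonneg _) hL0
  refine (sum_le_sum key).trans ?_
  rw [sum_add_distrib, sum_add_distrib, ← mul_sum, ← mul_sum,
    sum_range_sub fun m => (H m : ℝ) - H (m - 1), sum_range_sub fun m => (H m : ℝ) / H M,
    sum_range_sub fun m => (H m : ℝ), div_self hX'.ne']
  have a1 := mul_le_mul_of_nonneg_left (hH.fac_le_one M 0) hL0
  have a2 := mul_nonneg (mul_nonneg hL0 hb) (hH.nonnegR 0)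
  simp only [Nat.zero_sub, sub_self, sub_zero]
  nlinarith

theorem sum_Icc_one (f : ℕ → ℝ) (X : ℕ) : ∑ u ∈ Icc 1 X, f u = ∑ u ∈ range X, f (u + 1) := by
  induction X with
  | zero => simp
  | succ X ih => rw [sum_Icc_succ_top (by omega), ih, sum_range_succ]

theorem fejer_sq (β : ℝ) (X : ℕ) :
    Complex.normSq (∑ u ∈ range X, e (β * u)) =
      X + 2 * ∑ u ∈ range X, ((X : ℝ) - (u + 1)) * Real.cos (2 * Real.pi * (β * (u + 1))) := by
  induction X with
  | zero => simp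
  | succ X ih =>
    have e1 : ∑ u ∈ range (X + 1), e (β * u) = e β * ∑ u ∈ range X, e (β * u) + 1 := by
      rw [sum_range_succ', mul_sum]
      congr 1
      · refine sum_congr rfl fun u _ => ?_
        rw [← e_add]; congr 1; push_cast; ring
      · simp [e_zero]
    have e2 : (e β * ∑ u ∈ range X, e (β * u)).re =
        ∑ u ∈ range X, Real.cos (2 * Real.pi * (β * (u + 1))) := by
      rw [mul_sum, Complex.re_sum]
      refine sum_congr rfl fun u _ => ?_
      rw [← e_add, e_re]; congr 2; ring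
    have e3 : Complex.normSq (e β) = 1 := by
      rw [Complex.normSq_eq_norm_sq, norm_e]; norm_num
    rw [e1, Complex.normSq_add, map_mul, e3, ih, map_one, map_one, mul_one, e2, sum_range_succ]
    push_cast
    have e4 : ∑ u ∈ range X, ((X : ℝ) + 1 - (u + 1)) * Real.cos (2 * Real.pi * (β * (u + 1))) =
        ∑ u ∈ range X, ((X : ℝ) - (u + 1)) * Real.cos (2 * Real.pi * (β * (u + 1))) +
          ∑ u ∈ range X, Real.cos (2 * Real.pi * (β * (u + 1))) := by
      rw [← sum_add_distrib]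
      exact sum_congr rfl fun u _ => by ring
    rw [e4]; ring

theorem fejer (X : ℕ) (hX : 1 ≤ X) (β : ℝ) :
    -(1 / 2 : ℝ) ≤ ∑ u ∈ Icc 1 X, (1 - (u : ℝ) / X) * Real.cos (2 * Real.pi * (β * u)) := by
  have hX' : (0 : ℝ) < X := by exact_mod_cast hX
  have h1 := Complex.normSq_nonneg (∑ u ∈ range X, e (β * u))
  rw [fejer_sq] at h1
  rw [sum_Icc_one]
  have e1 : ∑ u ∈ range X, ((X : ℝ) - (u + 1)) * Real.cos (2 * Real.pi * (β * (u + 1))) =
      X * ∑ u ∈ range X, (1 - ((u + 1 : ℕ) : ℝ) / X) *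
        Real.cos (2 * Real.pi * (β * (u + 1 : ℕ))) := by
    rw [mul_sum]
    refine sum_congr rfl fun u _ => ?_
    push_cast
    field_simp
  rw [e1] at h1
  by_contra hc
  have := mul_lt_mul_of_pos_left (not_le.1 hc) hX'
  linarith

theorem arch_lip (X β x y : ℝ) (hX : 0 < X) (hy0 : 0 ≤ y) (hxy : x ≤ y) (hy : y ≤ X) :
    (1 - x / X) * Real.cos (2 * Real.pi * (β * x)) ≤
      (1 - y / X) * Real.cos (2 * Real.pi * (β * y)) +
        (1 / X + 2 * Real.pi * |β|) * (y - x) := by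
  have h1 := Real.abs_cos_sub_cos_le (2 * Real.pi * (β * x)) (2 * Real.pi * (β * y))
  have h2 : |2 * Real.pi * (β * x) - 2 * Real.pi * (β * y)| = 2 * Real.pi * |β| * (y - x) := by
    rw [abs_sub_comm, ← mul_sub, ← mul_sub, abs_mul, abs_mul β, abs_of_nonneg (sub_nonneg.2 hxy),
      abs_of_pos (by positivity : (0 : ℝ) < 2 * Real.pi)]
    ring
  rw [h2] at h1
  have h3 : 0 ≤ 1 - y / X := by rw [sub_nonneg, div_le_one hX]; exact hy
  have h4 : 1 - y / X ≤ 1 := by have := div_nonneg hy0 hX.le; linarith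
  have h5 : 0 ≤ (y - x) / X := div_nonneg (sub_nonneg.2 hxy) hX.le
  have h6 := mul_le_mul_of_nonneg_left (Real.cos_le_one (2 * Real.pi * (β * x))) h5
  have h7 := mul_le_mul_of_nonneg_left ((le_abs_self _).trans h1) h3
  have h8 : 0 ≤ 2 * Real.pi * |β| * (y - x) := (abs_nonneg _).trans h1
  have h9 := mul_le_mul_of_nonneg_right h4 h8
  have e1 : 1 - x / X = 1 - y / X + (y - x) / X := by ring
  have e2 : (1 / X + 2 * Real.pi * |β|) * (y - x) = (y - x) / X + 2 * Real.pi * |β| * (y - x) := by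
    ring
  rw [e1, e2]
  nlinarith

theorem phi_cmp (hH : Cvx H) (hX : 0 < H M) (L : ℝ) (hL : (H M : ℝ) - H (M - 1) ≤ L) (β : ℝ) :
    ∑ u ∈ Icc 1 (H M).toNat, (1 - (u : ℝ) / (H M).toNat) * Real.cos (2 * Real.pi * (β * u)) -
      (H 0 + L * (1 + 2 * Real.pi * |β| * H M)) ≤
      (∑ m ∈ range M, (phi H M m : ℂ) * e (β * H m)).re := by
  have hX' : (0 : ℝ) < H M := by exact_mod_cast hX
  have hL0 : 0 ≤ L := (hH.step_nonneg M).trans hL
  have hc : ∀ m, (((H m).toNat : ℕ) : ℝ) = H m := fun m => by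
    have : 0 ≤ H m := by exact_mod_cast hH.nonnegR m
    exact_mod_cast Int.toNat_of_nonneg this
  set G : ℝ → ℝ := fun u => (1 - u / H M) * Real.cos (2 * Real.pi * (β * u)) with hG
  set K : ℝ := 1 / (H M : ℝ) + 2 * Real.pi * |β| with hK
  have hK0 : 0 ≤ K := by positivity
  set T : ℕ → ℝ := fun n => ∑ u ∈ range n, G ((u + 1 : ℕ) : ℝ) with hT
  have e1 : (∑ m ∈ range M, (phi H M m : ℂ) * e (β * H m)).re =
      ∑ m ∈ range M, ((H (m + 1) : ℝ) - H m) * G (H (m + 1)) := by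
    rw [sum_phi_shift _ (by simp [phi_zero]) (by simp [phi_top hX]), Complex.re_sum]
    refine sum_congr rfl fun m _ => ?_
    rw [Complex.re_ofReal_mul, e_re, phi, Nat.add_sub_cancel, mul_assoc]
  have key : ∀ m ∈ range M, T (H (m + 1)).toNat - T (H m).toNat ≤
      ((H (m + 1) : ℝ) - H m) * G (H (m + 1)) + K * L * ((H (m + 1) : ℝ) - H m) := by
    intro m hm
    have hm' : m + 1 ≤ M := mem_range.1 hm
    have hab : (H m).toNat ≤ (H (m + 1)).toNat := Int.toNat_le_toNat (hH.mono m)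
    have hl : (H (m + 1) : ℝ) - H m ≤ L := by
      have := (hH.step_mono hm').trans hL
      rwa [Nat.add_sub_cancel] at this
    simp only [hT]
    rw [← sum_Ico_eq_sub _ hab]
    have h1 := sum_le_card_nsmul (Ico (H m).toNat (H (m + 1)).toNat)
      (fun u => G ((u + 1 : ℕ) : ℝ)) (G (H (m + 1)) + K * L) fun u hu => by
        have hu' := mem_Ico.1 hu
        have a1 : ((u + 1 : ℕ) : ℝ) ≤ H (m + 1) := by
          rw [← hc]; exact_mod_cast hu'.2
        have a2 : (H m : ℝ) ≤ ((u + 1 : ℕ) : ℝ) := by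
          rw [← hc]; exact_mod_cast hu'.1.trans (Nat.le_succ u)
        refine (arch_lip (H M) β _ _ hX' (hH.nonnegR _) a1 (hH.monoR hm')).trans ?_
        exact add_le_add_right (mul_le_mul_of_nonneg_left (by linarith) hK0) _
    rw [Nat.card_Ico, nsmul_eq_mul, Nat.cast_sub hab, hc, hc] at h1
    linarith
  have h2 := sum_le_sum key
  rw [sum_range_sub fun m => T (H m).toNat, sum_add_distrib, ← mul_sum,
    sum_range_sub fun m => (H m : ℝ)] at h2
  have h3 : T (H 0).toNat ≤ H 0 := by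
    have := sum_le_card_nsmul (range (H 0).toNat) (fun u => G ((u + 1 : ℕ) : ℝ)) 1 fun u hu => by
      have a1 : ((u + 1 : ℕ) : ℝ) ≤ H M := by
        refine le_trans ?_ (hH.monoR (Nat.zero_le M))
        rw [← hc]; exact_mod_cast mem_range.1 hu
      have a2 : 0 ≤ 1 - ((u + 1 : ℕ) : ℝ) / H M := by rw [sub_nonneg, div_le_one hX']; exact a1
      have a3 : 1 - ((u + 1 : ℕ) : ℝ) / H M ≤ 1 := by
        have : 0 ≤ ((u + 1 : ℕ) : ℝ) / H M := by positivity
        linarith
      exact (mul_le_of_le_one_right a2 (Real.cos_le_one _)).trans a3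
    rwa [card_range, nsmul_eq_mul, mul_one, hc] at this
  have h4 : K * L * ((H M : ℝ) - H 0) ≤ L * (1 + 2 * Real.pi * |β| * H M) := by
    have a1 : K * L * (H M : ℝ) = L * (1 + 2 * Real.pi * |β| * H M) := by
      rw [hK]; field_simp
    have a2 := mul_nonneg (mul_nonneg hK0 hL0) (hH.nonnegR 0)
    linarith
  rw [e1, sum_Icc_one, hc]
  change T (H M).toNat - _ ≤ _
  linarith

theorem phi_fejer (hH : Cvx H) (hX : 0 < H M) (L : ℝ) (hL : (H M : ℝ) - H (M - 1) ≤ L) (β : ℝ) :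
    -(1 + H 0 + L * (1 + 2 * Real.pi * |β| * H M)) ≤
      (∑ m ∈ range M, (phi H M m : ℂ) * e (β * H m)).re := by
  have h1 := phi_cmp hH hX L hL β
  have h2 := fejer (H M).toNat (by omega) β
  linarith

theorem sum_phi_ge (hH : Cvx H) (hX : 0 < H M) (L : ℝ) (hL : (H M : ℝ) - H (M - 1) ≤ L) :
    (H M : ℝ) / 2 - 1 - H 0 - L ≤ ∑ m ∈ range M, phi H M m := by
  have h1 := phi_cmp hH hX L hL 0
  have hc : (((H M).toNat : ℕ) : ℝ) = H M := by exact_mod_cast Int.toNat_of_nonneg hX.le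
  have hX' : (0 : ℝ) < H M := by exact_mod_cast hX
  have h2 : ∀ n : ℕ, ∑ u ∈ Icc 1 n, (1 - (u : ℝ) / H M) = n - n * (n + 1) / (2 * H M) := by
    intro n
    induction n with
    | zero => simp
    | succ n ih =>
      rw [sum_Icc_succ_top (by omega), ih]
      push_cast
      field_simp
      ring
  simp only [zero_mul, mul_zero, Real.cos_zero, mul_one, e_zero, abs_zero, add_zero, hc, h2,
    Complex.re_sum, Complex.ofReal_re] at h1
  have e1 : (H M : ℝ) * (H M + 1) / (2 * H M) = (H M + 1) / 2 := by field_simp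
  rw [e1] at h1
  linarith

end Vale.Agent.P042U
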