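import Vale.Agent.P042U.Basic

/-! Means of periodic functions. -/

namespace Vale.Agent.P042U

open Polynomial Finset

namespace Avx

theorem per_dvd {D : ℕ} {F : ℤ → ℂ} (hF : Function.Periodic F (D : ℤ)) {x y : ℤ}
    (h : (D : ℤ) ∣ x - y) : F x = F y := by
  obtain ⟨k, hk⟩ := h
  have := hF.int_mul k y
  rw [← this]
  congr 1
  push_cast
  linarith

theorem sum_mul_range (D₁ D₂ : ℕ) (F : ℤ → ℂ) :
    ∑ y ∈ range D₂, ∑ r ∈ range D₁, F (D₁ * (y : ℤ) + (r : ℤ)) = ∑ m ∈ range (D₁ * D₂), F m := by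
  induction D₂ with
  | zero => simp
  | succ n ih =>
    rw [sum_range_succ, ih, Nat.mul_succ, sum_range_add]
    push_cast
    rfl

theorem comp {D : ℕ} {F : ℤ → ℂ} (hF : Function.Periodic F (D : ℤ)) (P : ℤ → ℤ)
    (hP : ∀ x y, (D : ℤ) ∣ P x - P y ↔ (D : ℤ) ∣ x - y) : av D (fun m => F (P m)) = av D F := by
  rcases Nat.eq_zero_or_pos D with rfl | hD
  · simp [av]
  have hD' : (0 : ℤ) < D := by exact_mod_cast hD
  have e1 : ∀ m : ℤ, (((P m % D).toNat : ℕ) : ℤ) = P m % D := fun m =>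
    Int.toNat_of_nonneg (Int.emod_nonneg _ hD'.ne')
  have hm : ∀ m ∈ range D, (P m % D).toNat ∈ range D := fun m _ => by
    have := Int.emod_lt_of_pos (P m) hD'
    rw [← e1] at this
    exact mem_range.2 (by exact_mod_cast this)
  have hi : ∀ a ∈ range D, ∀ b ∈ range D, (P a % D).toNat = (P b % D).toNat → a = b := by
    intro a ha b hb h
    have h1 : P a % D = P b % D := by rw [← e1 a, ← e1 b, h]
    have h2 := (hP b a).1 (Int.ModEq.dvd h1)
    exact Nat.ModEq.eq_of_lt_of_lt (Nat.modEq_iff_dvd.2 h2) (mem_range.1 ha) (mem_range.1 hb)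
  unfold av
  congr 1
  refine sum_bij (fun m _ => (P m % D).toNat) hm (fun a ha b hb h => hi a ha b hb h)
    (fun b hb => ?_) fun m _ => ?_
  · obtain ⟨a, ha, h⟩ := surj_on_of_inj_on_of_card_le (s := range D) (t := range D)
      (fun m _ => (P m % D).toNat) hm (fun a b ha hb h => hi a ha b hb h) le_rfl b hb
    exact ⟨a, ha, h.symm⟩
  · rw [e1]
    exact per_dvd hF (Int.dvd_self_sub_emod)

end Avx

theorem av_const (D : ℕ) (hD : 1 ≤ D) (c : ℂ) : av D (fun _ => c) = c := by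
  have : (D : ℂ) ≠ 0 := by exact_mod_cast (by omega : D ≠ 0)
  simp only [av, sum_const, card_range, nsmul_eq_mul]
  field_simp

theorem av_add (D : ℕ) (F G : ℤ → ℂ) : av D (fun m => F m + G m) = av D F + av D G := by
  simp only [av, sum_add_distrib, add_div]

theorem av_sub (D : ℕ) (F G : ℤ → ℂ) : av D (fun m => F m - G m) = av D F - av D G := by
  simp only [av, sum_sub_distrib, sub_div]

theorem av_smul (D : ℕ) (c : ℂ) (F : ℤ → ℂ) : av D (fun m => c * F m) = c * av D F := by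
  simp only [av, ← mul_sum, mul_div_assoc]

theorem av_sum {ι : Type*} (s : Finset ι) (D : ℕ) (F : ι → ℤ → ℂ) :
    av D (fun m => ∑ i ∈ s, F i m) = ∑ i ∈ s, av D (F i) := by
  simp only [av]
  rw [sum_comm, sum_div]

theorem norm_av_le (D : ℕ) (F : ℤ → ℂ) (B : ℝ) (hB0 : 0 ≤ B) (hB : ∀ m, ‖F m‖ ≤ B) :
    ‖av D F‖ ≤ B := by
  unfold av
  rw [norm_div, Complex.norm_natCast]
  refine div_le_of_le_mul₀ (Nat.cast_nonneg _) hB0 ((norm_sum_le _ _).trans ?_)
  refine (sum_le_card_nsmul _ (fun m : ℕ => ‖F m‖) B fun m _ => hB m).trans (le_of_eq ?_)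
  rw [card_range, nsmul_eq_mul, mul_comm]

theorem av_split (D₁ D₂ : ℕ) (F : ℤ → ℂ) :
    av (D₁ * D₂) F = av D₁ (fun r => av D₂ (fun y => F (D₁ * y + r))) := by
  simp only [av]
  rw [← sum_div, div_div, sum_comm, Avx.sum_mul_range]
  push_cast
  rw [mul_comm (D₂ : ℂ)]

theorem av_mul_of_per {D : ℕ} {F : ℤ → ℂ} (hF : Function.Periodic F (D : ℤ)) (T : ℕ)
    (hT : 1 ≤ T) : av (D * T) F = av D F := by
  rw [av_split]
  congr 1
  funext r
  have : (fun y : ℤ => F (D * y + r)) = fun _ => F r :=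
    funext fun y => Avx.per_dvd hF ⟨y, by ring⟩
  rw [this, av_const T hT]

theorem av_shift {D : ℕ} {F : ℤ → ℂ} (hF : Function.Periodic F (D : ℤ)) (c : ℤ) :
    av D (fun m => F (m + c)) = av D F :=
  Avx.comp hF (fun m => m + c) fun x y => by rw [add_sub_add_right_eq_sub]

theorem av_affine {D : ℕ} {F : ℤ → ℂ} (hF : Function.Periodic F (D : ℤ)) (u c : ℤ)
    (hu : IsCoprime u (D : ℤ)) : av D (fun m => F (u * m + c)) = av D F :=
  Avx.comp hF (fun m => u * m + c) fun x y => by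
    rw [add_sub_add_right_eq_sub, ← mul_sub]
    exact ⟨fun h => hu.symm.dvd_of_dvd_mul_left h, fun h => h.mul_left u⟩

/-- a map that is compatible with congruences and injective modulo `D` preserves the mean -/
theorem av_comp {D : ℕ} {F : ℤ → ℂ} (hF : Function.Periodic F (D : ℤ)) (P : ℤ → ℤ)
    (hP : ∀ x y, (D : ℤ) ∣ P x - P y ↔ (D : ℤ) ∣ x - y) : av D (fun m => F (P m)) = av D F :=
  Avx.comp hF P hP

theorem av_crt {D₁ D₂ : ℕ} {F G : ℤ → ℂ} (hF : Function.Periodic F (D₁ : ℤ))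
    (hG : Function.Periodic G (D₂ : ℤ)) (hc : Nat.Coprime D₁ D₂) :
    av (D₁ * D₂) (fun m => F m * G m) = av D₁ F * av D₂ G := by
  rw [av_split, mul_comm (av D₁ F), ← av_smul]
  congr 1
  funext r
  have : (fun y : ℤ => F (D₁ * y + r) * G (D₁ * y + r)) = fun y => F r * G (D₁ * y + r) :=
    funext fun y => by rw [Avx.per_dvd hF (y := r) ⟨y, by ring⟩]
  rw [this, av_smul, av_affine hG _ _ (Nat.isCoprime_iff_coprime.2 hc), mul_comm]

theorem av_lin (q : ℕ) (hq : 1 ≤ q) (a : ℤ) :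
    av q (fun m => e ((a * m : ℤ) / (q : ℝ))) = if (q : ℤ) ∣ a then 1 else 0 := by
  have hq' : (q : ℝ) ≠ 0 := by exact_mod_cast (by omega : q ≠ 0)
  split_ifs with h
  · obtain ⟨b, rfl⟩ := h
    rw [← av_const q hq 1]
    congr 1
    funext m
    rw [← e_int (b * m)]
    congr 1
    push_cast
    field_simp
  · have h1 : ∀ m ∈ range q, e ((a * (m : ℤ) : ℤ) / (q : ℝ)) = e (a / q) ^ m := fun m _ => by
      rw [← e_nat_mul]
      congr 1
      push_cast
      ring
    have h2 : e (a / q) ^ q = 1 := by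
      rw [← e_nat_mul, ← e_int a]
      congr 1
      field_simp
    have h3 : e (a / q) ≠ 1 := by
      intro c
      obtain ⟨n, hn⟩ := Complex.exp_eq_one_iff.1 c
      have h4 := congrArg Complex.im hn
      simp only [Complex.mul_im, Complex.ofReal_re, Complex.I_im, Complex.ofReal_im, Complex.I_re,
        Complex.mul_re, Complex.intCast_re, Complex.intCast_im, Complex.re_ofNat,
        Complex.im_ofNat] at h4
      have h5 : (a : ℝ) = q * n := by
        have hp := Real.pi_pos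
        field_simp at h4
        nlinarith
      exact h ⟨n, by exact_mod_cast h5⟩
    unfold av
    rw [sum_congr rfl h1, geom_sum_eq h3, h2]
    simp

theorem per_e (f : ℤ[X]) (q : ℕ) :
    Function.Periodic (fun m : ℤ => e ((f.eval m : ℤ) / (q : ℝ))) (q : ℤ) := by
  intro m
  rcases Nat.eq_zero_or_pos q with rfl | hq
  · simp
  · have hq' : (q : ℝ) ≠ 0 := by exact_mod_cast hq.ne'
    obtain ⟨k, hk⟩ := (Dvd.intro_left 1 (by ring) : (q : ℤ) ∣ m + q - m).trans
      (sub_dvd_eval_sub (m + q) m f)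
    beta_reduce
    rw [sub_eq_iff_eq_add'.1 hk, ← e_add_int ((f.eval m : ℤ) / (q : ℝ)) k]
    congr 1
    push_cast
    field_simp

theorem per_e' (h : ℤ[X]) (q : ℕ) (a : ℤ) :
    Function.Periodic (fun m : ℤ => e ((a * h.eval m : ℤ) / (q : ℝ))) (q : ℤ) := by
  simpa only [eval_mul, eval_C] using per_e (C a * h) q

theorem sum_sub_av_le {D : ℕ} (hD : 1 ≤ D) {F : ℤ → ℂ} (hF : Function.Periodic F (D : ℤ))
    (B : ℝ) (hB : ∀ m, ‖F m‖ ≤ B) (t : ℕ) :
    ‖∑ m ∈ range t, (F m - av D F)‖ ≤ 2 * D * B := by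
  have hB0 : 0 ≤ B := (norm_nonneg _).trans (hB 0)
  have hD' : (D : ℂ) ≠ 0 := by exact_mod_cast (by omega : D ≠ 0)
  induction t using Nat.strong_induction_on with
  | _ t ih =>
    rcases lt_or_ge t D with c | c
    · refine (norm_sum_le _ _).trans ((sum_le_card_nsmul _ _ (2 * B) fun m _ => ?_).trans ?_)
      · linarith [norm_sub_le (F m) (av D F), hB m, norm_av_le D F B hB0 hB]
      · rw [card_range, nsmul_eq_mul]
        have : (t : ℝ) ≤ D := by exact_mod_cast c.le
        nlinarith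
    · obtain ⟨u, rfl⟩ := Nat.exists_eq_add_of_le c
      have h0 : ∑ m ∈ range D, (F m - av D F) = 0 := by
        rw [sum_sub_distrib, sum_const, card_range, nsmul_eq_mul, av]
        field_simp
        ring
      rw [sum_range_add, h0, zero_add]
      have h1 : ∀ m ∈ range u, F ((D + m : ℕ) : ℤ) - av D F = F m - av D F := fun m _ => by
        rw [Avx.per_dvd hF (y := m) ⟨1, by push_cast; ring⟩]
      rw [sum_congr rfl h1]
      exact ih u (by omega)

end Vale.Agent.P042U
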