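import Vale.Agent.P042.Defs

/-! Basic definitions for the power saving upper bound. -/

namespace Vale.Agent.P042U

open Polynomial Finset

/-- `e x = exp (2 π i x)` -/
noncomputable def e (x : ℝ) : ℂ := Complex.exp (((2 * Real.pi * x : ℝ) : ℂ) * Complex.I)

theorem e_add (x y : ℝ) : e (x + y) = e x * e y := by
  unfold e; rw [← Complex.exp_add]; congr 1; push_cast; ring

theorem norm_e (x : ℝ) : ‖e x‖ = 1 := by
  unfold e; exact Complex.norm_exp_ofReal_mul_I _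

theorem e_zero : e 0 = 1 := by unfold e; simp

theorem e_int (n : ℤ) : e n = 1 := by
  unfold e
  have := Complex.exp_int_mul_two_pi_mul_I n
  rw [← this]; congr 1; push_cast; ring

theorem e_add_int (x : ℝ) (n : ℤ) : e (x + n) = e x := by rw [e_add, e_int, mul_one]

theorem e_neg (x : ℝ) : e (-x) = (starRingEnd ℂ) (e x) := by
  unfold e; rw [← Complex.exp_conj]; congr 1
  rw [map_mul, Complex.conj_ofReal, Complex.conj_I]; push_cast; ring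

theorem e_sub (x y : ℝ) : e (x - y) = e x * (starRingEnd ℂ) (e y) := by
  rw [sub_eq_add_neg, e_add, e_neg]

theorem e_re (x : ℝ) : (e x).re = Real.cos (2 * Real.pi * x) := by
  unfold e; exact Complex.exp_ofReal_mul_I_re _

theorem e_nat_mul (n : ℕ) (x : ℝ) : e (n * x) = e x ^ n := by
  induction n with
  | zero => simp [e_zero]
  | succ n ih => rw [pow_succ, ← ih, ← e_add]; congr 1; push_cast; ring

theorem norm_e_sub_one_le (x : ℝ) : ‖e x - 1‖ ≤ 2 * Real.pi * |x| := by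
  unfold e
  have := Real.norm_exp_I_mul_ofReal_sub_one_le (x := 2 * Real.pi * x)
  rw [mul_comm Complex.I] at this
  refine this.trans (le_of_eq ?_)
  rw [Real.norm_eq_abs, abs_mul, abs_of_pos (by positivity : (0 : ℝ) < 2 * Real.pi)]

theorem norm_e_sub_e_le (x y : ℝ) : ‖e x - e y‖ ≤ 2 * Real.pi * |x - y| := by
  have h : e x - e y = e y * (e (x - y) - 1) := by
    rw [mul_sub, ← e_add, mul_one]; congr 2; ring
  rw [h, norm_mul, norm_e, one_mul]; exact norm_e_sub_one_le _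

/-- the mean of `F` over `0, …, D - 1` -/
noncomputable def av (D : ℕ) (F : ℤ → ℂ) : ℂ := (∑ m ∈ range D, F m) / D

/-- the mean of `g m * e (a h(m) / q)` over a common period `d q` -/
noncomputable def Del (h : ℤ[X]) (g : ℤ → ℝ) (d q : ℕ) (a : ℤ) : ℂ :=
  av (d * q) (fun m => (g m : ℂ) * e ((a * h.eval m : ℤ) / (q : ℝ)))

/-- the complete exponential sum, normalised -/
noncomputable def th (f : ℤ[X]) (q : ℕ) : ℂ := av q (fun m => e ((f.eval m : ℤ) / (q : ℝ)))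

/-- power saving for `h` -/
def PS (h : ℤ[X]) : Prop :=
  ∃ c : ℝ, 0 < c ∧ ∃ C : ℝ, ∀ N : ℕ, (P042.r h N : ℝ) ≤ C * (N : ℝ) ^ (1 - c)

/-- a family of periodic weights whose truncated multipliers are almost nonnegative -/
structure Good (h : ℤ[X]) (g : ℕ → ℤ → ℝ) : Prop where
  one : ∀ m, g 1 m = 1
  per : ∀ d : ℕ, Function.Periodic (g d) (d : ℤ)
  bd : ∀ d : ℕ, 1 ≤ d → ∀ m, |g d m| ≤ (d : ℝ) ^ 2
  mean : ∀ d : ℕ, 2 ≤ d → Del h (g d) d 1 0 = 0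
  pos : ∃ σ : ℝ, 0 < σ ∧ ∀ ε : ℝ, 0 < ε → ∃ C : ℝ, 0 ≤ C ∧ ∀ q : ℕ, 1 ≤ q → ∀ a : ℤ, ∀ Q : ℕ, 1 ≤ Q →
    ∃ lam : ℝ, 0 ≤ lam ∧
      ‖∑ d ∈ Icc 1 Q, Del h (g d) d q a - (lam : ℂ)‖ ≤ C * (q : ℝ) ^ ε * (Q : ℝ) ^ (-σ)

/-- the local conditions at the prime `p` for weights `γ j` of period `p ^ j` -/
structure LocAt (h : ℤ[X]) (σ : ℝ) (p : ℕ) (γ : ℕ → ℤ → ℝ) : Prop where
  zero : ∀ m, γ 0 m = 1
  per : ∀ j : ℕ, Function.Periodic (γ j) ((p ^ j : ℕ) : ℤ)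
  bd : ∀ j m, |γ j m| ≤ ((p ^ j : ℕ) : ℝ) ^ 2
  van : ∀ s j : ℕ, ∀ a : ℤ, s < j → Del h (γ j) (p ^ j) (p ^ s) a = 0
  sm : ∀ s j : ℕ, ∀ a : ℤ, 1 ≤ j →
    ‖Del h (γ j) (p ^ j) (p ^ s) a‖ ≤ 2 * ((p ^ j : ℕ) : ℝ) ^ (-σ)
  pos : ∀ s : ℕ, ∀ a : ℤ, ∃ lam : ℝ, 0 ≤ lam ∧
    ∑ j ∈ range (s + 1), Del h (γ j) (p ^ j) (p ^ s) a = (lam : ℂ)

/-- the multiplicative weight built from local weights -/
noncomputable def gl (γ : ℕ → ℕ → ℤ → ℝ) (d : ℕ) (m : ℤ) : ℝ :=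
  ∏ p ∈ d.primeFactors, γ p (d.factorization p) m

/-- the truncated weight -/
noncomputable def wt (g : ℕ → ℤ → ℝ) (Q : ℕ) (m : ℤ) : ℝ := ∑ d ∈ Icc 1 Q, g d m

/-- the smooth weight attached to an increasing sequence `H` -/
noncomputable def phi (H : ℕ → ℤ) (M m : ℕ) : ℝ :=
  ((H m : ℝ) - H (m - 1)) * (1 - (H m : ℝ) / H M)

/-- `H` is nonnegative, increasing and convex -/
structure Cvx (H : ℕ → ℤ) : Prop where
  nonneg : 0 ≤ H 0
  mono : ∀ m, H m ≤ H (m + 1)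
  cvx : ∀ m, H (m + 1) - H m ≤ H (m + 2) - H (m + 1)

/-- `h = p ^ t * F` where `F` is linear modulo `p` with a unit slope -/
def Unif (h : ℤ[X]) (p : ℕ) : Prop :=
  ∃ t : ℕ, ∃ F : ℤ[X], h = C ((p : ℤ) ^ t) * F ∧ ¬ (p : ℤ) ∣ F.coeff 1 ∧
    ∀ l, 2 ≤ l → (p : ℤ) ∣ F.coeff l

/-- a weight `G` modulo `p` off the critical points of `h` with mean one and with real and small
multipliers -/
structure Sym (h : ℤ[X]) (η : ℝ) (p : ℕ) (G : ℤ → ℝ) : Prop where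
  per : Function.Periodic G (p : ℤ)
  bd : ∀ m, |G m| ≤ p
  supp : ∀ m, G m ≠ 0 → ¬ (p : ℤ) ∣ h.derivative.eval m
  mean : av p (fun m => (G m : ℂ)) = 1
  real : ∀ a : ℤ, (av p (fun m => (G m : ℂ) * e ((a * h.eval m : ℤ) / (p : ℝ)))).im = 0
  small : ∀ a : ℤ, ¬ (p : ℤ) ∣ a →
    ‖av p (fun m => (G m : ℂ) * e ((a * h.eval m : ℤ) / (p : ℝ)))‖ ≤ (p : ℝ) ^ (-η)

end Vale.Agent.P042U
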