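import Vale.Agent.P042U.Weyl

/-! Major or minor arc. -/

namespace Vale.Agent.P042U

open Polynomial Finset

theorem dich_split (F : ℕ → ℂ) (t d : ℕ) (hd : 1 ≤ d) :
    ∑ m ∈ range t, F m = ∑ r ∈ range d, ∑ j ∈ range ((t + d - 1 - r) / d), F (d * j + r) := by
  rw [← Finset.sum_fiberwise_of_maps_to (s := range t) (t := range d) (g := fun m => m % d)
    (fun m _ => mem_range.2 (Nat.mod_lt _ hd))]
  refine Finset.sum_congr rfl fun r hr => ?_
  have hr' := mem_range.1 hr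
  refine Finset.sum_nbij' (fun m => m / d) (fun j => d * j + r) ?_ ?_ ?_ ?_ ?_
  · intro m hm
    obtain ⟨h1, h2⟩ := mem_filter.1 hm
    have h3 := mem_range.1 h1
    have h4 := Nat.div_add_mod m d
    rw [mem_range, Nat.lt_iff_add_one_le, Nat.le_div_iff_mul_le hd, add_mul, mul_comm (m / d)]
    omega
  · intro j hj
    rw [mem_range, Nat.lt_iff_add_one_le, Nat.le_div_iff_mul_le hd, add_mul, mul_comm j] at hj
    refine mem_filter.2 ⟨mem_range.2 (by omega), ?_⟩
    rw [Nat.mul_add_mod, Nat.mod_eq_of_lt hr']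
  · intro m hm
    have h2 := (mem_filter.1 hm).2
    have h4 := Nat.div_add_mod m d
    omega
  · intro j _
    rw [Nat.mul_add_div hd, Nat.div_eq_of_lt hr', add_zero]
  · intro m hm
    have h2 := (mem_filter.1 hm).2
    have h4 := Nat.div_add_mod m d
    congr 1
    omega

theorem dich (h : ℤ[X]) (hk : 1 ≤ h.natDegree) (hl : 0 < h.leadingCoeff) (g : ℕ → ℤ → ℝ)
    (hper : ∀ d : ℕ, Function.Periodic (g d) (d : ℤ))
    (hbd : ∀ d : ℕ, 1 ≤ d → ∀ m, |g d m| ≤ (d : ℝ) ^ 2) :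
    ∃ K : ℕ, ∀ Q : ℕ, 2 ≤ Q → ∀ M : ℕ, 1 ≤ M → ∀ α : ℝ,
      (∀ t, t ≤ M → ‖∑ m ∈ range t, (wt g Q m : ℂ) * e (α * (h.eval (m : ℤ) : ℤ))‖ ≤ (M : ℝ) / Q) ∨
      ∃ q : ℕ, 1 ≤ q ∧ q ≤ Q ^ K ∧ ∃ a : ℤ,
        |α - a / q| * (M : ℝ) ^ h.natDegree ≤ (Q : ℝ) ^ K := by
  obtain ⟨K₀, hK₀⟩ := weyl_inv h.natDegree hk
  set k := h.natDegree with hkd
  obtain ⟨c, hc⟩ : ∃ c : ℕ, h.leadingCoeff = c := ⟨h.leadingCoeff.toNat, (Int.toNat_of_nonneg hl.le).symm⟩
  have hc1 : 1 ≤ c := by omega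
  refine ⟨5 * K₀ + c + 5 * k, fun Q hQ M hM α => ?_⟩
  have hQr : (2 : ℝ) ≤ Q := by exact_mod_cast hQ
  have hQp : (0 : ℝ) < Q := by linarith
  by_cases hall : ∀ t ≤ M, ∀ d ∈ Icc 1 Q, ∀ r < d,
      ‖∑ j ∈ range ((t + d - 1 - r) / d), e (α * (h.eval ((d * j + r : ℕ) : ℤ) : ℤ))‖
        ≤ (M : ℝ) / Q ^ 5
  · left
    intro t ht
    have e1 : ∑ m ∈ range t, (wt g Q m : ℂ) * e (α * (h.eval (m : ℤ) : ℤ)) =
        ∑ d ∈ Icc 1 Q, ∑ m ∈ range t, (g d m : ℂ) * e (α * (h.eval (m : ℤ) : ℤ)) := by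
      rw [Finset.sum_comm]
      refine Finset.sum_congr rfl fun m _ => ?_
      rw [wt, Complex.ofReal_sum, Finset.sum_mul]
    rw [e1]
    refine (norm_sum_le _ _).trans ((Finset.sum_le_card_nsmul _ _ ((M : ℝ) / Q ^ 2)
      fun d hd => ?_).trans (le_of_eq ?_))
    · obtain ⟨hd1, hd2⟩ := mem_Icc.1 hd
      have hdQ : (d : ℝ) ≤ Q := by exact_mod_cast hd2
      rw [dich_split _ t d hd1]
      refine (norm_sum_le _ _).trans ((Finset.sum_le_card_nsmul _ _ ((M : ℝ) / Q ^ 3)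
        fun r hr => ?_).trans ?_)
      · have e2 : ∑ j ∈ range ((t + d - 1 - r) / d), (g d ((d * j + r : ℕ) : ℤ) : ℂ) *
            e (α * (h.eval ((d * j + r : ℕ) : ℤ) : ℤ)) = (g d r : ℂ) *
              ∑ j ∈ range ((t + d - 1 - r) / d), e (α * (h.eval ((d * j + r : ℕ) : ℤ) : ℤ)) := by
          rw [Finset.mul_sum]
          refine Finset.sum_congr rfl fun j _ => ?_
          have := (hper d).int_mul j r
          rw [← this]
          congr 3
          push_cast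
          ring
        rw [e2, norm_mul, Complex.norm_real, Real.norm_eq_abs]
        calc _ ≤ (Q : ℝ) ^ 2 * ((M : ℝ) / Q ^ 5) :=
              mul_le_mul ((hbd d hd1 r).trans (by gcongr)) (hall t ht d hd r (mem_range.1 hr))
                (norm_nonneg _) (by positivity)
          _ = _ := by field_simp
      · rw [card_range, nsmul_eq_mul]
        calc (d : ℝ) * ((M : ℝ) / Q ^ 3) ≤ Q * ((M : ℝ) / Q ^ 3) := by gcongr
          _ = _ := by field_simp
    · rw [Nat.card_Icc, nsmul_eq_mul]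
      simp only [Nat.add_sub_cancel]
      field_simp
  · right
    push Not at hall
    obtain ⟨t, ht, d, hd, r, hr, hS⟩ := hall
    obtain ⟨hd1, hd2⟩ := mem_Icc.1 hd
    set H := (t + d - 1 - r) / d with hH
    have hHM : H ≤ M := by
      refine le_trans ?_ ht
      rw [hH, ← Nat.lt_add_one_iff, Nat.div_lt_iff_lt_mul hd1, add_mul]
      have : t ≤ t * d := Nat.le_mul_of_pos_right _ hd1
      omega
    have hd0 : (d : ℤ) ≠ 0 := by omega
    set P : ℤ[X] := h.comp (C (d : ℤ) * X + C (r : ℤ)) with hP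
    have hPd : P.natDegree = k := by
      rw [hP, natDegree_comp, natDegree_linear hd0, mul_one]
    have hPc : P.coeff k = c * d ^ k := by
      rw [← hPd, coeff_natDegree, hPd, hP, leadingCoeff_comp (by rw [natDegree_linear hd0]; simp),
        leadingCoeff_linear hd0, hc]
    set f : ℝ[X] := C α * P.map (Int.castRingHom ℝ) with hf
    have hfd : f.natDegree ≤ k :=
      (natDegree_C_mul_le _ _).trans (natDegree_map_le.trans hPd.le)
    have hfc : f.coeff k = α * (c * d ^ k) := by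
      rw [hf, coeff_C_mul, coeff_map, hPc]; simp
    have hfe : ∀ j : ℕ, f.eval (j : ℝ) = α * (h.eval ((d * j + r : ℕ) : ℤ) : ℤ) := by
      intro j
      rw [hf, eval_mul, eval_C, ← Int.cast_natCast (R := ℝ) j, eval_intCast_map, hP, eval_comp]
      simp
    rw [div_lt_iff₀ (by positivity)] at hS
    have hSH : ‖∑ j ∈ range H, e (α * (h.eval ((d * j + r : ℕ) : ℤ) : ℤ))‖ ≤ H := by
      refine (norm_sum_le _ _).trans ?_
      simp [norm_e]
    have hY : (2 : ℝ) ≤ (Q : ℝ) ^ 5 :=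
      hQr.trans (le_self_pow₀ (by linarith) (by norm_num))
    obtain ⟨q, hq1, hq2, a, ha⟩ := hK₀ f hfd H ((Q : ℝ) ^ 5) hY (by
      simp only [hfe]
      have : (H : ℝ) ≤ M := by exact_mod_cast hHM
      linarith)
    have hq2' : q ≤ Q ^ (5 * K₀) := by
      rw [← pow_mul] at hq2
      exact_mod_cast hq2
    have hpos : 1 ≤ q * c * d ^ k := Nat.succ_le_of_lt (by positivity)
    refine ⟨q * c * d ^ k, hpos, ?_, a, ?_⟩
    · rw [pow_add, pow_add]
      have a1 : c ≤ Q ^ c := (Nat.lt_pow_self (by omega)).le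
      have a2 : d ^ k ≤ Q ^ (5 * k) :=
        (Nat.pow_le_pow_left hd2 k).trans (Nat.pow_le_pow_right (by omega) (by omega))
      gcongr
    · have hpr : (1 : ℝ) ≤ ((q * c * d ^ k : ℕ) : ℝ) := by exact_mod_cast hpos
      have b1 : |α - a / ((q * c * d ^ k : ℕ) : ℝ)| ≤ |q * f.coeff k - a| := by
        have e3 : α - a / ((q * c * d ^ k : ℕ) : ℝ) =
            (q * f.coeff k - a) / ((q * c * d ^ k : ℕ) : ℝ) := by
          rw [hfc, eq_div_iff (by linarith), sub_mul, div_mul_cancel₀ _ (by linarith)]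
          push_cast
          ring
        rw [e3, abs_div, abs_of_pos (by linarith : (0 : ℝ) < ((q * c * d ^ k : ℕ) : ℝ))]
        exact div_le_self (abs_nonneg _) hpr
      have b2 : (M : ℝ) ≤ H * Q ^ 5 := by
        refine hS.le.trans ?_
        gcongr
      calc _ ≤ |q * f.coeff k - a| * (H * (Q : ℝ) ^ 5) ^ k := by gcongr
        _ = (|q * f.coeff k - a| * (H : ℝ) ^ k) * (Q : ℝ) ^ (5 * k) := by
            rw [mul_pow, ← pow_mul]; ring
        _ ≤ ((Q : ℝ) ^ 5) ^ K₀ * (Q : ℝ) ^ (5 * k) := by gcongr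
        _ = (Q : ℝ) ^ (5 * K₀ + 5 * k) := by rw [← pow_mul, ← pow_add]
        _ ≤ _ := pow_le_pow_right₀ (by linarith) (by omega)

end Vale.Agent.P042U
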