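import Vale.Agent.P042U.Basic

/-! The divisor bound and a real inequality. -/

namespace Vale.Agent.P042U

open Polynomial Finset

theorem div_big {ε : ℝ} {p : ℝ} (hp : 0 ≤ p) (h2 : 2 ≤ p ^ ε) (v : ℕ) :
    ((v + 1 : ℕ) : ℝ) ≤ (p ^ v) ^ ε := by
  rw [← Real.rpow_natCast, ← Real.rpow_mul hp, mul_comm, Real.rpow_mul hp, Real.rpow_natCast]
  have h1 : v + 1 ≤ 2 ^ v := Nat.lt_two_pow_self
  calc ((v + 1 : ℕ) : ℝ) ≤ ((2 ^ v : ℕ) : ℝ) := by exact_mod_cast h1
    _ = 2 ^ v := by push_cast; ring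
    _ ≤ _ := pow_le_pow_left₀ (by norm_num) h2 v

theorem div_small {ε : ℝ} (hε : 0 < ε) {p : ℝ} (hp : 2 ≤ p) (v : ℕ) :
    ((v + 1 : ℕ) : ℝ) ≤ (1 + 1 / (ε * Real.log 2)) * (p ^ v) ^ ε := by
  have hl : 0 < Real.log 2 := Real.log_pos (by norm_num)
  have hc : 0 < ε * Real.log 2 := mul_pos hε hl
  have h1 : ((2 : ℝ) ^ v) ^ ε ≤ (p ^ v) ^ ε :=
    Real.rpow_le_rpow (by positivity) (pow_le_pow_left₀ (by norm_num) hp v) hε.le
  have h2 : ((2 : ℝ) ^ v) ^ ε = Real.exp (v * (ε * Real.log 2)) := by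
    rw [Real.rpow_def_of_pos (by positivity), Real.log_pow]; congr 1; ring
  have h3 : v * (ε * Real.log 2) + 1 ≤ Real.exp (v * (ε * Real.log 2)) := Real.add_one_le_exp _
  have h4 : (v * (ε * Real.log 2) + 1) ≤ (p ^ v) ^ ε := by linarith
  have hv : (0 : ℝ) ≤ v := Nat.cast_nonneg v
  have h5 : (1 + 1 / (ε * Real.log 2)) * (v * (ε * Real.log 2) + 1) =
      v + 1 + (v * (ε * Real.log 2) + 1 / (ε * Real.log 2)) := by
    field_simp; ring
  have h6 : 0 ≤ v * (ε * Real.log 2) + 1 / (ε * Real.log 2) := by positivity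
  calc ((v + 1 : ℕ) : ℝ) = v + 1 := by push_cast; ring
    _ ≤ (1 + 1 / (ε * Real.log 2)) * (v * (ε * Real.log 2) + 1) := by rw [h5]; linarith
    _ ≤ _ := mul_le_mul_of_nonneg_left h4 (by positivity)

theorem divisor_bound (ε : ℝ) (hε : 0 < ε) : ∃ C : ℝ, 0 ≤ C ∧ ∀ n : ℕ,
    (n.divisors.card : ℝ) ≤ C * (n : ℝ) ^ ε := by
  classical
  have hl : 0 < Real.log 2 := Real.log_pos (by norm_num)
  set K : ℝ := 1 + 1 / (ε * Real.log 2) with hK
  have hK1 : 1 ≤ K := by
    have : 0 ≤ 1 / (ε * Real.log 2) := by positivity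
    linarith
  obtain ⟨N, hN⟩ := exists_nat_ge ((2 : ℝ) ^ ε⁻¹)
  refine ⟨K ^ N, by positivity, fun n => ?_⟩
  rcases Nat.eq_zero_or_pos n with rfl | hn
  · simp only [Nat.divisors_zero, card_empty, Nat.cast_zero]; positivity
  rw [Nat.card_divisors hn.ne']
  have e1 : (n : ℝ) = ∏ p ∈ n.primeFactors, ((p : ℝ) ^ n.factorization p) := by
    have := Nat.prod_primeFactors_pow_factorization (n := n) (by omega)
    conv_lhs => rw [this]
    push_cast; rfl
  have e2 : (n : ℝ) ^ ε = ∏ p ∈ n.primeFactors, ((p : ℝ) ^ n.factorization p) ^ ε := by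
    conv_lhs => rw [e1]
    rw [Real.finsetProd_rpow _ _ (fun p _ => by positivity)]
  rw [e2, Nat.cast_prod]
  have h1 : ∏ p ∈ n.primeFactors, ((n.factorization p + 1 : ℕ) : ℝ) ≤
      ∏ p ∈ n.primeFactors, ((if p < N then K else 1) * ((p : ℝ) ^ n.factorization p) ^ ε) := by
    refine prod_le_prod (fun p _ => by positivity) fun p hp => ?_
    have hpp : p.Prime := Nat.prime_of_mem_primeFactors hp
    have hp2 : (2 : ℝ) ≤ p := by exact_mod_cast hpp.two_le
    split_ifs with hlt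
    · exact div_small hε hp2 _
    · rw [one_mul]
      refine div_big (by positivity) ?_ _
      have h3 : (2 : ℝ) ^ ε⁻¹ ≤ p := hN.trans (by exact_mod_cast not_lt.1 hlt)
      have h4 := Real.rpow_le_rpow (by positivity) h3 hε.le
      rwa [Real.rpow_inv_rpow (by norm_num) hε.ne'] at h4
  refine h1.trans ?_
  rw [prod_mul_distrib]
  refine mul_le_mul_of_nonneg_right ?_ (prod_nonneg fun p _ => by positivity)
  rw [prod_ite, prod_const_one, mul_one, prod_const]
  refine pow_le_pow_right₀ hK1 ?_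
  calc #(filter (fun p => p < N) n.primeFactors) ≤ #(range N) :=
        card_le_card fun p hp => mem_range.2 (mem_filter.1 hp).2
    _ = N := card_range N

theorem two_pow_omega_le (n : ℕ) (hn : 1 ≤ n) : 2 ^ n.primeFactors.card ≤ n.divisors.card := by
  rw [Nat.card_divisors (by omega), ← prod_const]
  refine prod_le_prod' fun p hp => ?_
  have hpp : p.Prime := Nat.prime_of_mem_primeFactors hp
  have := hpp.factorization_pos_of_dvd (by omega) (Nat.dvd_of_mem_primeFactors hp)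
  omega

theorem div_geom {y : ℝ} (h0 : 0 ≤ y) (J : ℕ) :
    (1 - y) * ∑ j ∈ range J, y ^ (J - j) ≤ y := by
  induction J with
  | zero => simpa using h0
  | succ J ih =>
    rw [sum_range_succ]
    have e1 : ∑ j ∈ range J, y ^ (J + 1 - j) = y * ∑ j ∈ range J, y ^ (J - j) := by
      rw [mul_sum]
      refine sum_congr rfl fun j hj => ?_
      have : J + 1 - j = (J - j) + 1 := by have := mem_range.1 hj; omega
      rw [this, pow_succ]; ring
    rw [e1, Nat.add_sub_cancel_left, pow_one]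
    nlinarith [mul_le_mul_of_nonneg_left ih h0]

/-- choice of the exponent `σ` -/
theorem exists_sigma (η : ℝ) (hη : 0 < η) : ∃ σ : ℝ, 0 < σ ∧ ∀ p : ℝ, 2 ≤ p → ∀ J : ℕ,
    (1 - p ^ (-σ)) * ∑ j ∈ range J, (p ^ (-σ)) ^ j * (2 * (p ^ (-η)) ^ (J - j)) ≤ (p ^ (-σ)) ^ J := by
  set y0 : ℝ := (2 : ℝ) ^ (-(η / 2)) with hy0
  have hy01 : y0 < 1 := Real.rpow_lt_one_of_one_lt_of_neg (by norm_num) (by linarith)
  have hy00 : 0 < y0 := by positivity
  refine ⟨min (η / 2) ((1 - y0) * η / 8), lt_min (by linarith) (by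
    have : 0 < 1 - y0 := by linarith
    positivity), fun p hp J => ?_⟩
  set σ : ℝ := min (η / 2) ((1 - y0) * η / 8) with hσ
  have hσ1 : σ ≤ η / 2 := min_le_left _ _
  have hσ2 : σ ≤ (1 - y0) * η / 8 := min_le_right _ _
  have hσ0 : 0 < σ := lt_min (by linarith) (by
    have : 0 < 1 - y0 := by linarith
    positivity)
  have hp0 : 0 < p := by linarith
  have hp1 : 1 ≤ p := by linarith
  set τ : ℝ := p ^ (-σ) with hτ
  set y : ℝ := p ^ (-(η - σ)) with hy
  have hτ0 : 0 < τ := by positivity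
  have hτ1 : τ ≤ 1 := Real.rpow_le_one_of_one_le_of_nonpos hp1 (by linarith)
  have hypos : 0 < y := by positivity
  have hx : p ^ (-η) = τ * y := by
    rw [hτ, hy, ← Real.rpow_add hp0]; congr 1; ring
  have hy1 : y ≤ p ^ (-(η / 2)) := Real.rpow_le_rpow_of_exponent_le hp1 (by linarith)
  have hy2 : p ^ (-(η / 2)) ≤ y0 :=
    Real.rpow_le_rpow_of_nonpos (by norm_num) hp (by linarith)
  have hyy : y ≤ y0 := hy1.trans hy2
  have e1 : ∑ j ∈ range J, τ ^ j * (2 * (p ^ (-η)) ^ (J - j)) =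
      τ ^ J * (2 * ∑ j ∈ range J, y ^ (J - j)) := by
    rw [mul_sum, mul_sum]
    refine sum_congr rfl fun j hj => ?_
    have : J = j + (J - j) := by have := mem_range.1 hj; omega
    rw [hx, mul_pow]
    conv_rhs => rw [this, pow_add]
    rw [← this]; ring
  rw [e1]
  set S : ℝ := ∑ j ∈ range J, y ^ (J - j) with hS
  have hS0 : 0 ≤ S := sum_nonneg fun j _ => by positivity
  have hg : (1 - y) * S ≤ y := div_geom hypos.le J
  have key : (1 - τ) * (2 * S) ≤ 1 := by
    by_cases h3 : y ≤ 1 / 3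
    · nlinarith
    · have h4 : 1 / 3 < p ^ (-(η / 2)) := by linarith [not_le.1 h3]
      have h5 : Real.log (1 / 3) < Real.log (p ^ (-(η / 2))) :=
        Real.log_lt_log (by norm_num) h4
      rw [Real.log_rpow hp0, one_div, Real.log_inv] at h5
      have h6 : Real.log 3 ≤ 2 := by
        have := Real.log_le_sub_one_of_pos (by norm_num : (0 : ℝ) < 3)
        linarith
      have hlp : 0 ≤ Real.log p := Real.log_nonneg hp1
      have h7 : η * Real.log p ≤ 4 := by linarith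
      have h8 : 1 - τ ≤ σ * Real.log p := by
        rw [hτ, Real.rpow_def_of_pos hp0]
        have := Real.add_one_le_exp (Real.log p * -σ)
        linarith
      have h9 : σ * Real.log p ≤ (1 - y0) / 2 := by
        have h10 : σ * Real.log p ≤ (1 - y0) * η / 8 * Real.log p :=
          mul_le_mul_of_nonneg_right hσ2 hlp
        have h11 : (1 - y0) * (η * Real.log p) ≤ (1 - y0) * 4 :=
          mul_le_mul_of_nonneg_left h7 (by linarith)
        nlinarith
      have h12 : 1 - τ ≤ (1 - y) / 2 := by linarith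
      have h13 : (1 - τ) * (2 * S) ≤ (1 - y) / 2 * (2 * S) :=
        mul_le_mul_of_nonneg_right h12 (by positivity)
      nlinarith
  have hJ : 0 ≤ τ ^ J := by positivity
  calc (1 - τ) * (τ ^ J * (2 * S)) = τ ^ J * ((1 - τ) * (2 * S)) := by ring
    _ ≤ τ ^ J * 1 := mul_le_mul_of_nonneg_left key hJ
    _ = τ ^ J := mul_one _

end Vale.Agent.P042U
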