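import Vale.Agent.P042U.Low

/-! Power saving from a good family of weights. -/

namespace Vale.Agent.P042U

open Polynomial Finset

theorem glob_nonneg {h : ℤ[X]} {g : ℕ → ℤ → ℝ} (hg : Good h g) (hk : 2 ≤ h.natDegree)
    (hc : ∀ l, 0 ≤ h.coeff l) : PS h := by
  obtain ⟨D, hD, c, hc0, C, hC0, Q₀, hlow⟩ := low hg hk hc
  have h0 : h ≠ 0 := by
    rintro rfl
    simp at hk
  set k := h.natDegree with hkdef
  have hS1 : 1 ≤ h.eval 1 := by
    have := (eval_bounds h hc h0 1 le_rfl).1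
    simpa using this
  obtain ⟨S, hS⟩ : ∃ S : ℕ, (S : ℤ) = h.eval 1 := ⟨(h.eval 1).toNat, Int.toNat_of_nonneg (by omega)⟩
  have hS1' : 1 ≤ S := by omega
  set n := D * k with hn
  have hn1 : 1 ≤ n := Nat.mul_pos hD (by omega)
  have hnR : (0 : ℝ) < n := by exact_mod_cast hn1
  set Q₁ := max Q₀ 1 with hQ₁
  set c' := c / n with hc'
  have hc'0 : 0 < c' := div_pos hc0 hnR
  refine ⟨c', hc'0, ((S * Q₁ ^ n : ℕ) : ℝ) ^ c' + 8 * C * ((S : ℝ) ^ c' * 2 ^ c), fun N => ?_⟩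
  rcases Nat.eq_zero_or_pos N with rfl | hN
  · have := r_le h 0
    rw [Nat.le_zero.1 this, Nat.cast_zero]
    positivity
  have hNR : (0 : ℝ) < N := by exact_mod_cast hN
  have hsplit : (N : ℝ) = (N : ℝ) ^ c' * (N : ℝ) ^ (1 - c') := by
    rw [← Real.rpow_add hNR]; simp
  have hp : 0 < (N : ℝ) ^ (1 - c') := by positivity
  by_cases hsmall : N < S * Q₁ ^ n
  · have h1 : (P042.r h N : ℝ) ≤ N := by exact_mod_cast r_le h N
    have h2 : (N : ℝ) ^ c' ≤ ((S * Q₁ ^ n : ℕ) : ℝ) ^ c' :=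
      Real.rpow_le_rpow hNR.le (by exact_mod_cast hsmall.le) hc'0.le
    have h3 : 0 ≤ 8 * C * ((S : ℝ) ^ c' * 2 ^ c) := by positivity
    calc (P042.r h N : ℝ) ≤ N := h1
      _ = (N : ℝ) ^ c' * (N : ℝ) ^ (1 - c') := hsplit
      _ ≤ _ := mul_le_mul_of_nonneg_right (by linarith) hp.le
  push Not at hsmall
  have hex : ∃ Q : ℕ, N < S * (Q + 1) ^ n := by
    refine ⟨N, ?_⟩
    calc N < N + 1 := Nat.lt_succ_self N
      _ ≤ (N + 1) ^ n := Nat.le_self_pow (by omega) _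
      _ ≤ S * (N + 1) ^ n := Nat.le_mul_of_pos_left _ hS1'
  obtain ⟨Q, hQ1, hQle, hQlt⟩ : ∃ Q : ℕ, Q₁ ≤ Q ∧ S * Q ^ n ≤ N ∧ N < S * (Q + 1) ^ n := by
    refine ⟨Nat.find hex, ?_, ?_, Nat.find_spec hex⟩
    · by_contra hlt
      push Not at hlt
      have h1 := Nat.find_spec hex
      have h2 : S * (Nat.find hex + 1) ^ n ≤ S * Q₁ ^ n :=
        Nat.mul_le_mul_left _ (Nat.pow_le_pow_left hlt _)
      omega
    · rcases Nat.eq_zero_or_pos (Nat.find hex) with h0' | hpos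
      · rw [h0', zero_pow (by omega), mul_zero]; exact Nat.zero_le _
      · have h1 := Nat.find_min hex (Nat.sub_lt hpos one_pos)
        rw [show Nat.find hex - 1 + 1 = Nat.find hex by omega] at h1
        omega
  have hQ0 : Q₀ ≤ Q := le_trans (le_max_left _ _) hQ1
  have hQone : 1 ≤ Q := le_trans (le_max_right _ _) hQ1
  have hQR : (0 : ℝ) < Q := by exact_mod_cast hQone
  set M := Q ^ D with hM
  have hM1 : 1 ≤ M := Nat.one_le_pow _ _ hQone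
  obtain ⟨hmass, hre⟩ := hlow Q hQ0 M le_rfl
  have hSM : S * M ^ k ≤ N := by rw [hM, ← pow_mul]; exact hQle
  have hv : ∀ m : ℕ, 1 ≤ m → m ≤ M → 1 ≤ h.eval (m : ℤ) ∧ h.eval (m : ℤ) ≤ N := by
    intro m hm1 hmM
    obtain ⟨b1, b2, -, -⟩ := eval_bounds h hc h0 m hm1
    constructor
    · exact le_trans (one_le_pow₀ (by exact_mod_cast hm1)) b1
    · rw [← hS] at b2
      have h1 : S * m ^ k ≤ N := le_trans (Nat.mul_le_mul_left _ (Nat.pow_le_pow_left hmM _)) hSM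
      have h2 : ((S * m ^ k : ℕ) : ℤ) ≤ N := by exact_mod_cast h1
      push_cast at h2
      exact b2.trans h2
  obtain ⟨A, hA, hcard, hAd⟩ := r_spec h N
  have hX : (0 : ℝ) < ((h.eval (M : ℤ) : ℤ) : ℝ) := by
    have := (hv M hM1 le_rfl).1
    exact_mod_cast (by omega : (0 : ℤ) < h.eval (M : ℤ))
  have hrange : range M = insert 0 (Ico 1 M) := by
    ext m; simp only [mem_range, mem_insert, mem_Ico]; omega
  have h0n : 0 ∉ Ico 1 M := by simp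
  rw [hrange, sum_insert h0n, phi_zero, mul_zero, zero_add] at hmass
  have hE0 : 0 ≤ C * (Q : ℝ) ^ (-c) * (h.eval (M : ℤ) : ℤ) := by positivity
  have key := vdc A N hA (Ico 1 M) (fun m => h.eval (m : ℤ))
    (fun m => wt g Q m * phi (fun m : ℕ => h.eval (m : ℤ)) M m)
    (fun m hm => hv m (mem_Ico.1 hm).1 (mem_Ico.1 hm).2.le)
    (fun a ha b hb m hm hab => by
      have h1 := hAd a ha b hb m (mem_Ico.1 hm).1 hab
      have h2 := (hv m (mem_Ico.1 hm).1 (mem_Ico.1 hm).2.le).1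
      omega)
    _ hE0 (fun α => by
      have h1 := hre α
      rw [hrange, sum_insert h0n, phi_zero] at h1
      simpa using h1)
  rw [hcard] at key
  have hr0 : (0 : ℝ) ≤ P042.r h N := Nat.cast_nonneg _
  have h8 : (P042.r h N : ℝ) ≤ 8 * C * (N * (Q : ℝ) ^ (-c)) := by
    have h1 : (P042.r h N : ℝ) * (((h.eval (M : ℤ) : ℤ) : ℝ) / 4) ≤
        2 * N * (C * (Q : ℝ) ^ (-c) * (h.eval (M : ℤ) : ℤ)) :=
      le_trans (mul_le_mul_of_nonneg_left (by linarith) hr0) key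
    refine le_of_mul_le_mul_right ?_ (show 0 < ((h.eval (M : ℤ) : ℤ) : ℝ) / 4 by positivity)
    calc _ ≤ _ := h1
      _ = _ := by ring
  have hNc : (N : ℝ) ^ c' ≤ (S : ℝ) ^ c' * 2 ^ c * (Q : ℝ) ^ c := by
    have h1 : N ≤ S * (2 * Q) ^ n :=
      le_trans hQlt.le (Nat.mul_le_mul_left _ (Nat.pow_le_pow_left (by omega) _))
    have h2 : (N : ℝ) ≤ S * (2 * Q : ℝ) ^ n := by exact_mod_cast h1
    calc (N : ℝ) ^ c' ≤ (S * (2 * Q : ℝ) ^ n) ^ c' := Real.rpow_le_rpow hNR.le h2 hc'0.le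
      _ = (S : ℝ) ^ c' * ((2 * Q : ℝ) ^ n) ^ c' := Real.mul_rpow (by positivity) (by positivity)
      _ = (S : ℝ) ^ c' * (2 * Q : ℝ) ^ c := by
          rw [← Real.rpow_natCast, ← Real.rpow_mul (by positivity), hc', mul_div_cancel₀ _ hnR.ne']
      _ = _ := by rw [Real.mul_rpow (by norm_num) hQR.le, mul_assoc]
  have hfin : (N : ℝ) * (Q : ℝ) ^ (-c) ≤ (S : ℝ) ^ c' * 2 ^ c * (N : ℝ) ^ (1 - c') := by
    have hQc : 0 < (Q : ℝ) ^ c := by positivity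
    rw [Real.rpow_neg hQR.le, ← div_eq_mul_inv, div_le_iff₀ hQc]
    calc (N : ℝ) = (N : ℝ) ^ c' * (N : ℝ) ^ (1 - c') := hsplit
      _ ≤ (S : ℝ) ^ c' * 2 ^ c * (Q : ℝ) ^ c * (N : ℝ) ^ (1 - c') :=
          mul_le_mul_of_nonneg_right hNc hp.le
      _ = _ := by ring
  have h9 : 0 ≤ ((S * Q₁ ^ n : ℕ) : ℝ) ^ c' * (N : ℝ) ^ (1 - c') := by positivity
  calc (P042.r h N : ℝ) ≤ 8 * C * (N * (Q : ℝ) ^ (-c)) := h8
    _ ≤ 8 * C * ((S : ℝ) ^ c' * 2 ^ c * (N : ℝ) ^ (1 - c')) :=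
        mul_le_mul_of_nonneg_left hfin (by positivity)
    _ ≤ _ := by nlinarith

theorem glob {h : ℤ[X]} (hk : 2 ≤ h.natDegree) (hl : 0 < h.leadingCoeff) (W : ℕ) (hW : 1 ≤ W)
    (ρ : ℤ) {g : ℕ → ℤ → ℝ} (hg : Good (h.comp (C (W : ℤ) * X + C ρ)) g) : PS h := by
  have hW0 : (W : ℤ) ≠ 0 := by omega
  have hd1 : (C (W : ℤ) * X + C ρ : ℤ[X]).natDegree = 1 := natDegree_linear hW0
  have hlc : (C (W : ℤ) * X + C ρ : ℤ[X]).leadingCoeff = W := leadingCoeff_linear hW0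
  have hl1 : 0 < (h.comp (C (W : ℤ) * X + C ρ)).leadingCoeff := by
    rw [leadingCoeff_comp (by rw [hd1]; exact one_ne_zero), hlc]
    exact mul_pos hl (pow_pos (by omega) _)
  obtain ⟨m₀, hm₀⟩ := exists_shift_nonneg _ hl1
  set m := max m₀ ρ.natAbs with hm
  have hm1 : ρ.natAbs ≤ m := le_max_right _ _
  have hρ : 0 ≤ (W : ℤ) * m + ρ := by
    have h1 : (m : ℤ) ≤ W * m := le_mul_of_one_le_left (by positivity) (by exact_mod_cast hW)
    omega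
  obtain ⟨ρ', hρ'⟩ : ∃ ρ' : ℕ, (ρ' : ℤ) = (W : ℤ) * m + ρ := ⟨_, Int.toNat_of_nonneg hρ⟩
  have heq : (h.comp (C (W : ℤ) * X + C ρ)).comp (X + C (m : ℤ)) =
      h.comp (C (W : ℤ) * X + C (ρ' : ℤ)) := by
    rw [comp_assoc, hρ']
    congr 1
    simp only [add_comp, mul_comp, C_comp, X_comp, map_add, map_mul]
    ring
  have hg2 := hg.shift (m : ℤ)
  have hc2 := hm₀ m (le_max_left _ _)
  rw [heq] at hg2 hc2
  have hk2 : 2 ≤ (h.comp (C (W : ℤ) * X + C (ρ' : ℤ))).natDegree := by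
    rw [natDegree_comp, natDegree_linear hW0, mul_one]; exact hk
  obtain ⟨c, hc0, K, hK⟩ := glob_nonneg hg2 hk2 hc2
  refine ⟨c, hc0, K, fun N => le_trans ?_ (hK N)⟩
  exact_mod_cast r_comp_le h W ρ' hW N

end Vale.Agent.P042U
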