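import Vale.Agent.P042U.Weyl
import Vale.Agent.P042U.Av

/-! Complete exponential sums. -/

namespace Vale.Agent.P042U

open Polynomial Finset

theorem hua_ex (D : ℕ) (hD : 1 ≤ D) (G : ℤ → ℂ) : ∃ r : ℤ, ‖av D G‖ ≤ ‖G r‖ := by
  obtain ⟨r, -, hr⟩ := exists_max_image (range D) (fun m : ℕ => ‖G m‖) ⟨0, mem_range.2 hD⟩
  refine ⟨r, ?_⟩
  have hp : (0 : ℝ) < D := by exact_mod_cast hD
  rw [av, norm_div, Complex.norm_natCast, div_le_iff₀ hp]
  refine (norm_sum_le _ _).trans ((sum_le_card_nsmul _ _ _ hr).trans (le_of_eq ?_))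
  rw [card_range, nsmul_eq_mul, mul_comm]

theorem hua_top (k : ℕ) : ∃ K : ℕ, ∀ f : ℤ[X], f.natDegree ≤ k + 1 → ∀ q : ℕ, 1 ≤ q → ∀ Y : ℝ,
    2 ≤ Y → 1 ≤ Y * ‖th f q‖ →
    ∃ q' : ℕ, 1 ≤ q' ∧ (q' : ℝ) ≤ Y ^ K ∧ (q : ℤ) ∣ q' * f.coeff (k + 1) := by
  obtain ⟨K, hK⟩ := weyl_inv (k + 1) (by omega)
  refine ⟨K, fun f hf q hq Y hY hth => ?_⟩
  have hqp : (0 : ℝ) < q := by exact_mod_cast hq
  set T := ⌊Y ^ K⌋₊ + 1 with hT
  have hT1 : 1 ≤ T := by omega
  have hT2 : Y ^ K < T := by rw [hT]; push_cast; exact Nat.lt_floor_add_one _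
  have hTp : (0 : ℝ) < T := by exact_mod_cast hT1
  have hH : ((q * T : ℕ) : ℂ) ≠ 0 := by
    have : q * T ≠ 0 := by positivity
    exact_mod_cast this
  have h1 : ∑ n ∈ range (q * T), e ((C (1 / (q : ℝ)) * f.map (Int.castRingHom ℝ)).eval (n : ℝ)) =
      ((q * T : ℕ) : ℂ) * th f q := by
    rw [th, ← av_mul_of_per (per_e f q) T hT1, av, mul_div_cancel₀ _ hH]
    refine sum_congr rfl fun n _ => ?_
    congr 1
    have := eval_intCast_map (Int.castRingHom ℝ) f (n : ℤ)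
    simp only [Int.cast_natCast, eq_intCast, Int.cast_id] at this
    rw [eval_mul, eval_C, this]
    ring
  obtain ⟨q', h2, h3, a, h4⟩ := hK (C (1 / (q : ℝ)) * f.map (Int.castRingHom ℝ))
    ((natDegree_C_mul_le _ _).trans (natDegree_map_le.trans hf)) (q * T) Y hY (by
      rw [h1, norm_mul, Complex.norm_natCast, mul_left_comm]
      exact le_mul_of_one_le_right (Nat.cast_nonneg _) hth)
  refine ⟨q', h2, h3, a, ?_⟩
  rw [coeff_C_mul, coeff_map, eq_intCast] at h4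
  have h5 : ((q * T : ℕ) : ℝ) ≤ ((q * T : ℕ) : ℝ) ^ (k + 1) :=
    le_self_pow₀ (by exact_mod_cast Nat.mul_pos hq hT1) (by omega)
  have h6 := ((mul_le_mul_of_nonneg_left h5 (abs_nonneg _)).trans h4).trans_lt hT2
  have h7 : |((q' * f.coeff (k + 1) - q * a : ℤ) : ℝ)| < 1 := by
    have e1 : ((q' * f.coeff (k + 1) - q * a : ℤ) : ℝ) =
        (q' * (1 / (q : ℝ) * f.coeff (k + 1)) - a) * q := by
      push_cast
      field_simp
    rw [e1, abs_mul, abs_of_pos hqp]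
    push_cast at h6
    nlinarith
  have h8 : |(q' * f.coeff (k + 1) - q * a : ℤ)| < 1 := by exact_mod_cast h7
  exact sub_eq_zero.1 (Int.abs_lt_one_iff.1 h8)

theorem hua (k : ℕ) : ∃ K : ℕ, 1 ≤ K ∧ ∀ f : ℤ[X], f.natDegree ≤ k → ∀ q : ℕ, 1 ≤ q → ∀ Y : ℝ,
    2 ≤ Y → 1 ≤ Y * ‖th f q‖ →
    ∃ q' : ℕ, 1 ≤ q' ∧ (q' : ℝ) ≤ Y ^ K ∧ ∀ l, 1 ≤ l → (q : ℤ) ∣ q' * f.coeff l := by
  induction k with
  | zero =>
    refine ⟨1, le_rfl, fun f hf q _ Y hY _ => ⟨1, le_rfl, by simp; linarith, fun l hl => ?_⟩⟩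
    rw [coeff_eq_zero_of_natDegree_lt (by omega), mul_zero]
    exact dvd_zero _
  | succ k ih =>
    obtain ⟨K₀, hK₀, ih⟩ := ih
    obtain ⟨K₁, h1⟩ := hua_top k
    refine ⟨K₀ + K₁ * (k + 1), by omega, fun f hf q hq Y hY hth => ?_⟩
    obtain ⟨q₁, a1, a2, a3⟩ := h1 f hf q hq Y hY hth
    have hq0 : (q : ℝ) ≠ 0 := by positivity
    set c := f.coeff (k + 1) with hc
    set f₀ := f - C c * X ^ (k + 1) with hf₀
    have d0 : f₀.natDegree ≤ k := natDegree_le_iff_coeff_eq_zero.2 fun N hN => by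
      rw [hf₀, coeff_sub, coeff_C_mul_X_pow]
      split_ifs with h
      · rw [h, hc, sub_self]
      · rw [coeff_eq_zero_of_natDegree_lt (by omega), sub_zero]
    obtain ⟨r, hr⟩ := hua_ex q₁ a1 fun r => av q fun y => e ((f.eval (q₁ * y + r) : ℤ) / (q : ℝ))
    rw [← av_split q₁ q fun m => e ((f.eval m : ℤ) / (q : ℝ)), mul_comm q₁ q,
      av_mul_of_per (per_e f q) q₁ a1] at hr
    set G := taylor r f₀ with hG
    have dG : G.natDegree ≤ k := by rwa [hG, natDegree_taylor]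
    set F := G.comp (C (q₁ : ℤ) * X) + C (c * r ^ (k + 1)) with hF
    have cF : ∀ l, 1 ≤ l → F.coeff l = G.coeff l * (q₁ : ℤ) ^ l := fun l hl => by
      rw [hF, coeff_add, comp_C_mul_X_coeff, coeff_C_of_ne_zero (by omega), add_zero]
    have dF : F.natDegree ≤ k := natDegree_le_iff_coeff_eq_zero.2 fun N hN => by
      rw [cF N (by omega), coeff_eq_zero_of_natDegree_lt (by omega), zero_mul]
    have e1 : (av q fun y => e ((f.eval (q₁ * y + r) : ℤ) / (q : ℝ))) = th F q := by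
      unfold th
      congr 1
      funext y
      have b1 : (q₁ : ℤ) ∣ (q₁ * y + r) ^ (k + 1) - r ^ (k + 1) :=
        (Dvd.intro y (by ring)).trans (sub_dvd_pow_sub_pow _ _ _)
      obtain ⟨t, ht⟩ : (q : ℤ) ∣ c * ((q₁ * y + r) ^ (k + 1) - r ^ (k + 1)) :=
        a3.trans (by rw [mul_comm]; exact mul_dvd_mul_left c b1)
      have b2 : f.eval (q₁ * y + r) = F.eval y + q * t := by
        rw [← ht, hF, eval_add, eval_comp, hG, taylor_eval, hf₀]
        simp only [eval_mul, eval_C, eval_X, eval_sub, eval_pow]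
        ring
      rw [b2, ← e_add_int ((F.eval y : ℤ) / (q : ℝ)) t]
      congr 1
      push_cast
      field_simp
    rw [e1] at hr
    obtain ⟨q₂, b1, b2, b3⟩ := ih F dF q hq Y hY
      (hth.trans (mul_le_mul_of_nonneg_left hr (by linarith)))
    set M : ℤ := q₂ * q₁ ^ k with hM
    have g1 : ∀ l, 1 ≤ l → (q : ℤ) ∣ M * G.coeff l := fun l hl => by
      rcases le_or_gt l k with h | h
      · obtain ⟨j, rfl⟩ := Nat.exists_eq_add_of_le h
        refine (b3 l hl).trans ⟨(q₁ : ℤ) ^ j, ?_⟩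
        rw [cF l hl, hM]
        ring
      · rw [coeff_eq_zero_of_natDegree_lt (by omega), mul_zero]
        exact dvd_zero _
    obtain ⟨P, hP⟩ : C (q : ℤ) ∣ C M * G - C (M * G.coeff 0) :=
      (C_dvd_iff_dvd_coeff _ _).2 fun l => by
        rw [coeff_sub, coeff_C_mul]
        rcases Nat.eq_zero_or_pos l with h | h
        · rw [h, coeff_C_zero, sub_self]
          exact dvd_zero _
        · rw [coeff_C_of_ne_zero h.ne', sub_zero]
          exact g1 l h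
    have g2 : C M * f₀ - C (M * G.coeff 0) = C (q : ℤ) * taylor (-r) P := by
      have := congrArg (taylor (-r)) hP
      rwa [map_sub, taylor_mul, taylor_mul, taylor_C, taylor_C, taylor_C, hG, taylor_taylor,
        neg_add_cancel, taylor_zero] at this
    refine ⟨q₂ * q₁ ^ (k + 1), Nat.mul_pos b1 (Nat.pow_pos a1), ?_, fun l hl => ?_⟩
    · push_cast
      rw [pow_add Y, pow_mul]
      exact mul_le_mul b2 (pow_le_pow_left₀ (Nat.cast_nonneg _) a2 _) (by positivity)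
        (by positivity)
    · have g3 := congrArg (fun p => coeff p l) g2
      simp only [coeff_sub, coeff_C_mul, coeff_C_of_ne_zero (show l ≠ 0 by omega), sub_zero] at g3
      have g4 : f.coeff l = f₀.coeff l + (if l = k + 1 then c else 0) := by
        rw [hf₀, coeff_sub, coeff_C_mul_X_pow]
        ring
      rw [g4, mul_add]
      refine dvd_add (Dvd.dvd.trans ⟨_, g3⟩ ⟨q₁, ?_⟩) ?_
      · rw [hM]
        push_cast
        ring
      · split_ifs
        · refine a3.trans ⟨q₂ * q₁ ^ k, ?_⟩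
          push_cast
          ring
        · simp

/-- prime power form: if `p ^ s` does not divide `p ^ i * c` for some nonconstant coefficient `c`
then the sum is at most `2 p ^ (-(i+1) η)` -/
theorem hua_pp (k : ℕ) : ∃ η : ℝ, 0 < η ∧ ∀ f : ℤ[X], f.natDegree ≤ k → ∀ p : ℕ, p.Prime →
    ∀ s i l : ℕ, 1 ≤ l → ¬ ((p : ℤ) ^ s ∣ (p : ℤ) ^ i * f.coeff l) →
    ‖th f (p ^ s)‖ ≤ 2 * ((p : ℝ) ^ (-η)) ^ (i + 1) := by
  obtain ⟨K, hK, h⟩ := hua k
  have hKp : (0 : ℝ) < K := by exact_mod_cast hK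
  refine ⟨1 / K, by positivity, fun f hf p hp s i l hl hnd => ?_⟩
  have hp0 : (0 : ℝ) < p := by exact_mod_cast hp.pos
  set x := ((p : ℝ) ^ (-(1 / (K : ℝ)))) ^ (i + 1) with hx
  have hx0 : 0 < x := by positivity
  have ht1 : ‖th f (p ^ s)‖ ≤ 1 := norm_av_le _ _ 1 zero_le_one fun m => (norm_e _).le
  set t := ‖th f (p ^ s)‖ with ht
  rcases eq_or_lt_of_le (norm_nonneg (th f (p ^ s))) with h0 | h0
  · rw [ht, ← h0]
    positivity
  rw [← ht] at h0
  set Y := max 2 (1 / t) with hY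
  have y1 : 1 ≤ Y * t := (div_le_iff₀ h0).1 (le_max_right _ _)
  have y2 : Y * t ≤ 2 := by
    rcases le_total 2 (1 / t) with c | c
    · rw [hY, max_eq_right c, one_div_mul_cancel h0.ne']
      norm_num
    · rw [hY, max_eq_left c]
      linarith
  have y0 : 2 ≤ Y := le_max_left _ _
  obtain ⟨q, q1, q2, q3⟩ := h f hf (p ^ s) (Nat.pow_pos hp.pos) Y y0 y1
  obtain ⟨j, u, hu, rfl⟩ := Nat.exists_eq_pow_mul_and_not_dvd (n := q) (by omega) p hp.ne_one
  have hj : i + 1 ≤ j := by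
    by_contra hj
    obtain ⟨m, rfl⟩ := Nat.exists_eq_add_of_le (show j ≤ i by omega)
    have a1 := q3 l hl
    have a2 : IsCoprime ((p : ℤ) ^ s) (u : ℤ) :=
      (Nat.isCoprime_iff_coprime.2 ((Nat.Prime.coprime_iff_not_dvd hp).2 hu)).pow_left
    have a3 : (p : ℤ) ^ s ∣ (p : ℤ) ^ j * f.coeff l := a2.dvd_of_dvd_mul_left (by
      push_cast at a1
      rwa [mul_left_comm, ← mul_assoc])
    exact hnd (a3.trans ⟨(p : ℤ) ^ m, by ring⟩)
  have hu1 : 1 ≤ u := Nat.pos_of_ne_zero fun h => hu (h ▸ dvd_zero p)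
  have z1 : (p : ℝ) ^ (i + 1) ≤ Y ^ K := by
    refine le_trans ?_ q2
    have : p ^ (i + 1) ≤ p ^ j * u :=
      (Nat.pow_le_pow_right hp.pos hj).trans (Nat.le_mul_of_pos_right _ hu1)
    exact_mod_cast this
  have z2 : x ^ K * (p : ℝ) ^ (i + 1) = 1 := by
    rw [hx, ← pow_mul, mul_comm (i + 1), pow_mul, ← mul_pow, ← Real.rpow_natCast _ K,
      ← Real.rpow_mul hp0.le, neg_mul, one_div_mul_cancel hKp.ne', Real.rpow_neg_one,
      inv_mul_cancel₀ hp0.ne', one_pow]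
  have z3 : 1 ≤ (x * Y) ^ K := by
    rw [mul_pow, ← z2]
    exact mul_le_mul_of_nonneg_left z1 (by positivity)
  have z4 : 1 ≤ x * Y := (one_le_pow_iff_of_nonneg (by positivity) (by omega)).1 z3
  nlinarith

end Vale.Agent.P042U
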