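import Vale.Agent.P042U.Basic

/-! The elementary bound for Kloosterman sums. -/

namespace Vale.Agent.P042U

open Polynomial Finset

lemma kl_sum_char (p : ℕ) [Fact p.Prime] (u : ZMod p) :
    ∑ c : ZMod p, ZMod.stdAddChar (c * u) = if u = 0 then (p : ℂ) else 0 := by
  rw [AddChar.sum_mulShift u (ZMod.isPrimitive_stdAddChar p), ZMod.card]
  split_ifs <;> simp

lemma kl_conj (p : ℕ) [Fact p.Prime] (u : ZMod p) :
    (starRingEnd ℂ) (ZMod.stdAddChar u) = ZMod.stdAddChar (-u) := by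
  rw [ZMod.stdAddChar_apply, ZMod.stdAddChar_apply, AddChar.map_neg_eq_inv, Circle.coe_inv_eq_conj]

lemma kl_parseval (p : ℕ) [Fact p.Prime] {ι : Type*} [Fintype ι] (f g : ι → ZMod p) :
    ∑ c : ZMod p, ∑ d : ZMod p, ‖∑ i, ZMod.stdAddChar (c * f i + d * g i)‖ ^ 2 =
      (p : ℝ) ^ 2 * ∑ i, ((univ.filter fun j => f i = f j ∧ g i = g j).card : ℝ) := by
  have key : ∀ c d : ZMod p, ((‖∑ i, ZMod.stdAddChar (c * f i + d * g i)‖ ^ 2 : ℝ) : ℂ) =
      ∑ i, ∑ j, ZMod.stdAddChar (c * (f i - f j)) * ZMod.stdAddChar (d * (g i - g j)) := by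
    intro c d
    rw [← Complex.normSq_eq_norm_sq, ← Complex.mul_conj, map_sum, Finset.sum_mul_sum]
    refine Finset.sum_congr rfl fun i _ => Finset.sum_congr rfl fun j _ => ?_
    rw [kl_conj, ← AddChar.map_add_eq_mul, ← AddChar.map_add_eq_mul]
    congr 1; ring
  apply Complex.ofReal_injective
  rw [Complex.ofReal_sum]
  simp only [Complex.ofReal_sum, key]
  calc ∑ c : ZMod p, ∑ d : ZMod p, ∑ i, ∑ j,
        ZMod.stdAddChar (c * (f i - f j)) * ZMod.stdAddChar (d * (g i - g j))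
      = ∑ i, ∑ j, (∑ c : ZMod p, ZMod.stdAddChar (c * (f i - f j))) *
          ∑ d : ZMod p, ZMod.stdAddChar (d * (g i - g j)) := by
        simp only [Finset.sum_mul_sum]
        rw [Finset.sum_congr rfl fun c _ => Finset.sum_comm, Finset.sum_comm]
        refine Finset.sum_congr rfl fun i _ => ?_
        rw [Finset.sum_congr rfl fun c _ => Finset.sum_comm, Finset.sum_comm]
    _ = _ := by
        push_cast
        rw [Finset.mul_sum]
        refine Finset.sum_congr rfl fun i _ => ?_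
        rw [Finset.card_filter]
        push_cast
        rw [Finset.mul_sum]
        refine Finset.sum_congr rfl fun j _ => ?_
        rw [kl_sum_char, kl_sum_char]
        simp only [sub_eq_zero]
        by_cases h1 : f i = f j <;> by_cases h2 : g i = g j <;> simp [h1, h2, sq]

lemma kl_count (p : ℕ) [Fact p.Prime] :
    ∑ z : (ZMod p)ˣ × (ZMod p)ˣ, ((univ.filter fun w : (ZMod p)ˣ × (ZMod p)ˣ =>
      (z.1 : ZMod p) + z.2 = w.1 + w.2 ∧
      ((z.1⁻¹ : (ZMod p)ˣ) : ZMod p) + ((z.2⁻¹ : (ZMod p)ˣ) : ZMod p) =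
        ((w.1⁻¹ : (ZMod p)ˣ) : ZMod p) + ((w.2⁻¹ : (ZMod p)ˣ) : ZMod p)).card : ℝ) ≤
      3 * (Fintype.card (ZMod p)ˣ : ℝ) ^ 2 := by
  classical
  set n := Fintype.card (ZMod p)ˣ with hn
  have h0 : (univ.filter fun w : (ZMod p)ˣ × (ZMod p)ˣ => (w.1 : ZMod p) + w.2 = 0).card ≤ n := by
    rw [hn, ← Finset.card_univ]
    refine Finset.card_le_card_of_injOn Prod.fst (fun _ _ => by simp) ?_
    intro w hw w' hw' h
    simp only [Finset.coe_filter, Finset.mem_univ, true_and, Set.mem_ofPred_eq] at hw hw'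
    refine Prod.ext h (Units.ext ?_)
    rw [h] at hw
    exact add_left_cancel (hw.trans hw'.symm)
  have h1 : ∀ z : (ZMod p)ˣ × (ZMod p)ˣ, ((univ.filter fun w : (ZMod p)ˣ × (ZMod p)ˣ =>
      (z.1 : ZMod p) + z.2 = w.1 + w.2 ∧
      ((z.1⁻¹ : (ZMod p)ˣ) : ZMod p) + ((z.2⁻¹ : (ZMod p)ˣ) : ZMod p) =
        ((w.1⁻¹ : (ZMod p)ˣ) : ZMod p) + ((w.2⁻¹ : (ZMod p)ˣ) : ZMod p)).card : ℝ) ≤
      2 + if (z.1 : ZMod p) + z.2 = 0 then (n : ℝ) else 0 := by
    intro z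
    split_ifs with hz
    · refine le_trans ?_ (le_add_of_nonneg_left (by norm_num))
      refine Nat.cast_le.2 (le_trans (Finset.card_le_card fun w hw => ?_) h0)
      simp only [Finset.mem_filter, Finset.mem_univ, true_and] at hw ⊢
      rw [← hw.1, hz]
    · rw [add_zero]
      have : ((({z, z.swap} : Finset _).card : ℕ) : ℝ) ≤ 2 := by
        exact_mod_cast Finset.card_le_two
      refine le_trans (Nat.cast_le.2 (Finset.card_le_card fun w hw => ?_)) this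
      simp only [Finset.mem_filter, Finset.mem_univ, true_and, Units.val_inv_eq_inv_val] at hw
      obtain ⟨x1, x2⟩ := z
      obtain ⟨y1, y2⟩ := w
      obtain ⟨e1, e2⟩ := hw
      simp only at e1 e2 hz
      have a1 := x1.ne_zero
      have a2 := x2.ne_zero
      have a3 := y1.ne_zero
      have a4 := y2.ne_zero
      have e3 : (x1 : ZMod p) * x2 = y1 * y2 := by
        field_simp at e2
        apply mul_left_cancel₀ hz
        linear_combination -e2 + (x1 * x2 : ZMod p) * e1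
      have e4 : ((y1 : ZMod p) - x1) * (y1 - x2) = 0 := by
        linear_combination -(y1 : ZMod p) * e1 + e3
      simp only [Finset.mem_insert, Finset.mem_singleton, Prod.swap, Prod.mk.injEq]
      rcases mul_eq_zero.1 e4 with h | h
      · left
        have h' : (y1 : ZMod p) = x1 := sub_eq_zero.1 h
        exact ⟨Units.ext h', Units.ext (by linear_combination -e1 - h')⟩
      · right
        have h' : (y1 : ZMod p) = x2 := sub_eq_zero.1 h
        exact ⟨Units.ext h', Units.ext (by linear_combination -e1 - h')⟩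
  refine (Finset.sum_le_sum fun z _ => h1 z).trans ?_
  rw [Finset.sum_add_distrib, ← Finset.sum_filter, Finset.sum_const, Finset.sum_const,
    Finset.card_univ, Fintype.card_prod, ← hn, nsmul_eq_mul, nsmul_eq_mul]
  have : ((univ.filter fun w : (ZMod p)ˣ × (ZMod p)ˣ => (w.1 : ZMod p) + w.2 = 0).card : ℝ) ≤ n := by
    exact_mod_cast h0
  push_cast
  nlinarith [Nat.cast_nonneg (α := ℝ) n]

theorem kloo (p : ℕ) [Fact p.Prime] (a b : ZMod p) (ha : a ≠ 0) (hb : b ≠ 0) :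
    ‖∑ t : (ZMod p)ˣ, ZMod.stdAddChar (a * (t : ZMod p) + b * ((t⁻¹ : (ZMod p)ˣ) : ZMod p))‖ ^ 4 ≤
      4 * (p : ℝ) ^ 3 := by
  classical
  set K : ZMod p → ZMod p → ℂ := fun c d =>
    ∑ t : (ZMod p)ˣ, ZMod.stdAddChar (c * (t : ZMod p) + d * ((t⁻¹ : (ZMod p)ˣ) : ZMod p)) with hK
  set n := Fintype.card (ZMod p)ˣ with hn
  have hsq : ∀ c d, ‖K c d‖ ^ 4 = ‖∑ z : (ZMod p)ˣ × (ZMod p)ˣ,
      ZMod.stdAddChar (c * ((z.1 : ZMod p) + (z.2 : ZMod p)) +
        d * (((z.1⁻¹ : (ZMod p)ˣ) : ZMod p) + ((z.2⁻¹ : (ZMod p)ˣ) : ZMod p)))‖ ^ 2 := by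
    intro c d
    have : K c d * K c d = ∑ z : (ZMod p)ˣ × (ZMod p)ˣ,
      ZMod.stdAddChar (c * ((z.1 : ZMod p) + (z.2 : ZMod p)) +
        d * (((z.1⁻¹ : (ZMod p)ˣ) : ZMod p) + ((z.2⁻¹ : (ZMod p)ˣ) : ZMod p))) := by
      rw [hK, Fintype.sum_prod_type, Finset.sum_mul_sum]
      refine Finset.sum_congr rfl fun i _ => Finset.sum_congr rfl fun j _ => ?_
      rw [← AddChar.map_add_eq_mul]
      congr 1; ring
    rw [← this, norm_mul]; ring
  have htot : ∑ c : ZMod p, ∑ d : ZMod p, ‖K c d‖ ^ 4 ≤ (p : ℝ) ^ 2 * (3 * (n : ℝ) ^ 2) := by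
    simp only [hsq]
    rw [kl_parseval p (fun z : (ZMod p)ˣ × (ZMod p)ˣ => (z.1 : ZMod p) + (z.2 : ZMod p))
      (fun z => ((z.1⁻¹ : (ZMod p)ˣ) : ZMod p) + ((z.2⁻¹ : (ZMod p)ˣ) : ZMod p))]
    exact mul_le_mul_of_nonneg_left (kl_count p) (by positivity)
  have hinv : ∀ s : (ZMod p)ˣ, K (a * s) (b * ((s⁻¹ : (ZMod p)ˣ) : ZMod p)) = K a b := by
    intro s
    simp only [hK]
    refine Fintype.sum_equiv (Equiv.mulLeft s) _ _ fun t => ?_
    simp only [Equiv.coe_mulLeft, mul_inv_rev, Units.val_mul]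
    congr 1; ring
  have hlow : (n : ℝ) * ‖K a b‖ ^ 4 ≤ ∑ c : ZMod p, ∑ d : ZMod p, ‖K c d‖ ^ 4 := by
    calc (n : ℝ) * ‖K a b‖ ^ 4
        = ∑ s : (ZMod p)ˣ, ‖K (a * s) (b * ((s⁻¹ : (ZMod p)ˣ) : ZMod p))‖ ^ 4 := by
          simp only [hinv]; rw [Finset.sum_const, Finset.card_univ, nsmul_eq_mul]
      _ ≤ ∑ s : (ZMod p)ˣ, ∑ d : ZMod p, ‖K (a * s) d‖ ^ 4 :=
          Finset.sum_le_sum fun s _ => Finset.single_le_sum (f := fun d => ‖K (a * s) d‖ ^ 4)
            (fun _ _ => by positivity) (Finset.mem_univ _)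
      _ = ∑ c ∈ univ.image (fun s : (ZMod p)ˣ => a * (s : ZMod p)), ∑ d : ZMod p, ‖K c d‖ ^ 4 := by
          rw [Finset.sum_image]
          intro s _ s' _ h
          exact Units.ext (mul_left_cancel₀ ha h)
      _ ≤ _ := Finset.sum_le_sum_of_subset_of_nonneg (Finset.subset_univ _)
          fun _ _ _ => Finset.sum_nonneg fun _ _ => by positivity
  have hn0 : (0 : ℝ) < n := by exact_mod_cast Fintype.card_pos
  have hnp : (n : ℝ) ≤ p := by
    rw [hn, ZMod.card_units]; exact_mod_cast Nat.sub_le p 1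
  have h3 : ‖K a b‖ ^ 4 ≤ (p : ℝ) ^ 2 * (3 * n) := by
    refine le_of_mul_le_mul_left ((hlow.trans htot).trans (le_of_eq ?_)) hn0
    ring
  have hp : (0 : ℝ) ≤ p := Nat.cast_nonneg p
  show ‖K a b‖ ^ 4 ≤ _
  nlinarith [mul_le_mul_of_nonneg_left hnp (sq_nonneg (p : ℝ)), pow_nonneg hp 3]

theorem e_eq_std (p : ℕ) [Fact p.Prime] (n : ℤ) :
    e ((n : ℝ) / (p : ℝ)) = ZMod.stdAddChar ((n : ℤ) : ZMod p) := by
  rw [ZMod.stdAddChar_coe, e]
  congr 1; push_cast; ring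

theorem av_eq_zmod (p : ℕ) [Fact p.Prime] (F : ZMod p → ℂ) :
    av p (fun m => F (m : ZMod p)) = (∑ y : ZMod p, F y) / p := by
  unfold av
  congr 1
  refine Finset.sum_bij (fun m _ => ((m : ℕ) : ZMod p)) (fun _ _ => Finset.mem_univ _) ?_ ?_ ?_
  · intro m hm m' hm' h
    rw [ZMod.natCast_eq_natCast_iff', Nat.mod_eq_of_lt (Finset.mem_range.1 hm),
      Nat.mod_eq_of_lt (Finset.mem_range.1 hm')] at h
    exact h
  · intro y _
    exact ⟨y.val, Finset.mem_range.2 (ZMod.val_lt y), ZMod.natCast_zmod_val y⟩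
  · intro m _; simp

end Vale.Agent.P042U
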