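import Vale.Agent.P042U.Av

/-! Polynomials with nonnegative coefficients, and shifts. -/

namespace Vale.Agent.P042U

open Polynomial Finset

theorem pf_pow_cvx (m : ℤ) (hm : 0 ≤ m) (l : ℕ) : 2 * (m + 1) ^ l ≤ m ^ l + (m + 2) ^ l := by
  induction l with
  | zero => norm_num
  | succ l ih =>
    have h1 : m ^ l ≤ (m + 2) ^ l := pow_le_pow_left₀ hm (by linarith) l
    rw [pow_succ, pow_succ, pow_succ]
    nlinarith [mul_le_mul_of_nonneg_right ih (show 0 ≤ m + 1 by linarith)]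

theorem pf_pow_diff (x : ℤ) (hx : 1 ≤ x) (l : ℕ) : x * (x ^ l - (x - 1) ^ l) ≤ l * x ^ l := by
  induction l with
  | zero => simp
  | succ l ih =>
    have h1 : (x - 1) ^ l ≤ x ^ l := pow_le_pow_left₀ (by linarith) (by linarith) l
    have h2 := mul_le_mul_of_nonneg_left ih (show 0 ≤ x by linarith)
    have h3 := mul_le_mul_of_nonneg_left h1 (show 0 ≤ x by linarith)
    rw [pow_succ, pow_succ]
    push_cast
    nlinarith

theorem cvx_of_nonneg (h : ℤ[X]) (hc : ∀ l, 0 ≤ h.coeff l) : Cvx (fun m : ℕ => h.eval (m : ℤ)) := by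
  refine ⟨?_, fun m => ?_, fun m => ?_⟩
  · simp only [Nat.cast_zero]
    rw [← coeff_zero_eq_eval_zero]
    exact hc 0
  · simp only [eval_eq_sum_range]
    refine sum_le_sum fun l _ => mul_le_mul_of_nonneg_left ?_ (hc l)
    exact pow_le_pow_left₀ (Nat.cast_nonneg m) (by push_cast; linarith) l
  · simp only [eval_eq_sum_range]
    rw [← sum_sub_distrib, ← sum_sub_distrib]
    refine sum_le_sum fun l _ => ?_
    have := mul_le_mul_of_nonneg_left (pf_pow_cvx m (Nat.cast_nonneg m) l) (hc l)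
    push_cast
    linarith

theorem eval_bounds (h : ℤ[X]) (hc : ∀ l, 0 ≤ h.coeff l) (h0 : h ≠ 0) (M : ℕ) (hM : 1 ≤ M) :
    (M : ℤ) ^ h.natDegree ≤ h.eval (M : ℤ) ∧ h.eval (M : ℤ) ≤ h.eval 1 * (M : ℤ) ^ h.natDegree ∧
    h.eval 0 ≤ h.eval 1 ∧
    (M : ℤ) * (h.eval (M : ℤ) - h.eval ((M - 1 : ℕ) : ℤ)) ≤ h.natDegree * h.eval (M : ℤ) := by
  have hM' : (1 : ℤ) ≤ M := by exact_mod_cast hM
  have hM0 : (0 : ℤ) ≤ M := Nat.cast_nonneg M
  refine ⟨?_, ?_, ?_, ?_⟩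
  · have h1 : 1 ≤ h.coeff h.natDegree :=
      lt_of_le_of_ne (hc _) (leadingCoeff_ne_zero.mpr h0).symm
    rw [eval_eq_sum_range]
    refine le_trans ?_ (single_le_sum (f := fun l => h.coeff l * (M : ℤ) ^ l)
      (fun l _ => mul_nonneg (hc l) (pow_nonneg hM0 l)) (self_mem_range_succ h.natDegree))
    exact le_mul_of_one_le_left (pow_nonneg hM0 _) h1
  · rw [eval_eq_sum_range, eval_eq_sum_range, sum_mul]
    refine sum_le_sum fun l hl => ?_
    rw [one_pow, mul_one]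
    exact mul_le_mul_of_nonneg_left
      (pow_le_pow_right₀ hM' (Nat.lt_succ_iff.mp (mem_range.mp hl))) (hc l)
  · simpa using (cvx_of_nonneg h hc).mono 0
  · rw [Nat.cast_sub hM, Nat.cast_one, eval_eq_sum_range, eval_eq_sum_range, ← sum_sub_distrib,
      mul_sum, mul_sum]
    refine sum_le_sum fun l hl => ?_
    have h1 : (l : ℤ) ≤ h.natDegree := by exact_mod_cast Nat.lt_succ_iff.mp (mem_range.mp hl)
    have h2 := mul_le_mul_of_nonneg_left ((pf_pow_diff M hM' l).trans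
      (mul_le_mul_of_nonneg_right h1 (pow_nonneg hM0 l))) (hc l)
    linarith

theorem pf_eventually_nonneg (p : ℤ[X]) (n : ℕ) (hn : ∀ l, n < l → p.coeff l = 0)
    (hp : 0 < p.coeff n) : ∀ᶠ m : ℕ in Filter.atTop, 0 ≤ p.eval (m : ℤ) := by
  refine Filter.eventually_atTop.mpr ⟨(∑ l ∈ range n, |p.coeff l|).toNat + 1, fun m hm => ?_⟩
  have hS : ∑ l ∈ range n, |p.coeff l| ≤ (m : ℤ) := by omega
  have hm1 : (1 : ℤ) ≤ m := by omega
  have hm0 : (0 : ℤ) ≤ m := by omega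
  rw [eval_eq_sum_range' (n := n + 1)
    (Nat.lt_succ_of_le (natDegree_le_iff_coeff_eq_zero.mpr hn)), sum_range_succ]
  have h1 : -((∑ l ∈ range n, |p.coeff l|) * (m : ℤ) ^ n) ≤
      m * ∑ l ∈ range n, p.coeff l * (m : ℤ) ^ l := by
    rw [sum_mul, mul_sum, ← sum_neg_distrib]
    refine sum_le_sum fun l hl => ?_
    have h2 : (m : ℤ) ^ (l + 1) ≤ (m : ℤ) ^ n := pow_le_pow_right₀ hm1 (mem_range.mp hl)
    have h3 := mul_le_mul_of_nonneg_left h2 (abs_nonneg (p.coeff l))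
    have h4 := mul_le_mul_of_nonneg_right (neg_abs_le (p.coeff l)) (pow_nonneg hm0 (l + 1))
    rw [pow_succ] at h3 h4
    linarith
  have h5 := mul_le_mul_of_nonneg_right hS (pow_nonneg hm0 n)
  have h6 : (m : ℤ) ^ n ≤ p.coeff n * (m : ℤ) ^ n :=
    le_mul_of_one_le_left (pow_nonneg hm0 _) hp
  have h7 := mul_le_mul_of_nonneg_left h6 hm0
  refine nonneg_of_mul_nonneg_right ?_ (show (0 : ℤ) < m by omega) |>.trans_eq rfl
  linarith

theorem exists_shift_nonneg (h : ℤ[X]) (hl : 0 < h.leadingCoeff) :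
    ∃ m₀ : ℕ, ∀ m : ℕ, m₀ ≤ m → ∀ l, 0 ≤ (h.comp (X + C (m : ℤ))).coeff l := by
  have h1 : ∀ᶠ m : ℕ in Filter.atTop, ∀ l ∈ range (h.natDegree + 1),
      0 ≤ (hasseDeriv l h).eval (m : ℤ) := by
    refine (Filter.eventually_all_finset _).mpr fun l hl' => ?_
    have hl2 : l ≤ h.natDegree := Nat.lt_succ_iff.mp (mem_range.mp hl')
    refine pf_eventually_nonneg _ (h.natDegree - l) (fun j hj => ?_) ?_
    · rw [hasseDeriv_coeff, coeff_eq_zero_of_natDegree_lt (by omega), mul_zero]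
    · rw [hasseDeriv_coeff, Nat.sub_add_cancel hl2]
      exact mul_pos (by exact_mod_cast Nat.choose_pos hl2) hl
  obtain ⟨m₀, hm₀⟩ := Filter.eventually_atTop.mp h1
  refine ⟨m₀, fun m hm l => ?_⟩
  rw [← taylor_apply, taylor_coeff]
  rcases le_or_gt l h.natDegree with hle | hlt
  · exact hm₀ m hm l (mem_range.mpr (Nat.lt_succ_of_le hle))
  · rw [hasseDeriv_eq_zero_of_lt_natDegree h l hlt, eval_zero]

theorem pf_Del_shift (h : ℤ[X]) (g : ℤ → ℝ) (d q : ℕ) (hg : Function.Periodic g (d : ℤ))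
    (a c : ℤ) : Del (h.comp (X + C c)) (fun m => g (m + c)) d q a = Del h g d q a := by
  have h1 : Function.Periodic (fun m : ℤ => (g m : ℂ) * e ((a * h.eval m : ℤ) / (q : ℝ)))
      ((d * q : ℕ) : ℤ) := by
    intro m
    have e1 := hg.int_mul (q : ℤ) m
    have e2 := (per_e' h q a).int_mul (d : ℤ) m
    simp only [Int.cast_id] at e1 e2
    rw [mul_comm (q : ℤ)] at e1
    simp only [Nat.cast_mul]
    rw [e1, e2]
  unfold Del
  rw [← av_shift h1 c]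
  simp only [eval_comp, eval_add, eval_X, eval_C]

theorem Good.shift {h : ℤ[X]} {g : ℕ → ℤ → ℝ} (hg : Good h g) (c : ℤ) :
    Good (h.comp (X + C c)) (fun d m => g d (m + c)) := by
  refine ⟨fun m => hg.one _, fun d => (hg.per d).add_const c, fun d hd m => hg.bd d hd _,
    fun d hd => ?_, ?_⟩
  · rw [pf_Del_shift h (g d) d 1 (hg.per d)]
    exact hg.mean d hd
  · have e1 : ∀ d q a, Del (h.comp (X + C c)) (fun m => g d (m + c)) d q a = Del h (g d) d q a :=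
      fun d q a => pf_Del_shift h (g d) d q (hg.per d) a c
    simp only [e1]
    exact hg.pos

theorem pf_bdd (h : ℤ[X]) (N : ℕ) : ∀ k ∈ {k : ℕ | ∃ A : Finset ℤ, A ⊆ Finset.Icc (1 : ℤ) N ∧
    A.card = k ∧ ∀ a ∈ A, ∀ b ∈ A, ∀ n : ℕ, 1 ≤ n → a - b = h.eval (n : ℤ) → a - b = 0},
    k ≤ N := by
  rintro k ⟨A, hA, rfl, -⟩
  refine (card_le_card hA).trans (le_of_eq ?_)
  simp

theorem r_spec (h : ℤ[X]) (N : ℕ) : ∃ A : Finset ℤ, A ⊆ Icc (1 : ℤ) N ∧ A.card = P042.r h N ∧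
    ∀ a ∈ A, ∀ b ∈ A, ∀ n : ℕ, 1 ≤ n → a - b = h.eval (n : ℤ) → a - b = 0 :=
  Nat.sSup_mem (s := {k : ℕ | ∃ A : Finset ℤ, A ⊆ Finset.Icc (1 : ℤ) N ∧
    A.card = k ∧ ∀ a ∈ A, ∀ b ∈ A, ∀ n : ℕ, 1 ≤ n → a - b = h.eval (n : ℤ) → a - b = 0})
    ⟨0, ∅, empty_subset _, rfl, by simp⟩ ⟨N, pf_bdd h N⟩

theorem r_comp_le (h : ℤ[X]) (W ρ : ℕ) (hW : 1 ≤ W) (N : ℕ) :
    P042.r h N ≤ P042.r (h.comp (C (W : ℤ) * X + C (ρ : ℤ))) N := by
  obtain ⟨A, hA, hc, hd⟩ := r_spec h N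
  refine le_csSup ⟨N, pf_bdd _ N⟩ ⟨A, hA, hc, fun a ha b hb n hn hab => ?_⟩
  refine hd a ha b hb (W * n + ρ) (le_add_right (Nat.mul_pos hW hn)) ?_
  rw [hab]
  simp [eval_comp]

theorem r_le (h : ℤ[X]) (N : ℕ) : P042.r h N ≤ N :=
  pf_bdd h N _ (r_spec h N)

end Vale.Agent.P042U
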