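import Vale.Agent.P042U.Major
import Vale.Agent.P042U.Dich
import Vale.Agent.P042U.PolyF

/-! The lower bound for the trigonometric polynomial. -/

namespace Vale.Agent.P042U

open Polynomial Finset

theorem low_num (Q P M X S h0 k C1 u b q : ℝ) (hQ : 1 ≤ Q) (hP : 1 ≤ P) (hM : Q ^ 5 * P ^ 2 ≤ M)
    (hMX : M ≤ X) (hS : 0 ≤ S) (h0S : h0 ≤ S) (h00 : 0 ≤ h0) (hk : 0 ≤ k) (hC : 0 ≤ C1)
    (hu : 1 / Q ≤ u) (hu1 : u ≤ 1) (hb0 : 0 ≤ b) (hb : b * X ≤ S * P) (hq : q ≤ P) :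
    (Q ^ 3 + C1 * u) * (1 + h0 + k * X / M * (1 + 2 * Real.pi * b * X)) + C1 * u * X +
      2 * q * Q ^ 4 * (k * X / M * (2 + 2 * Real.pi * b * X)) ≤
    ((1 + C1) * (1 + S + k * (1 + 8 * S)) + C1 + 2 * k * (2 + 8 * S) + 2 * k) * u * X := by
  have hW : 0 < Q ^ 5 * P ^ 2 := by positivity
  have hM0 : 0 < M := hW.trans_le hM
  have hX0 : 0 < X := hM0.trans_le hMX
  have hu0 : 0 ≤ u := le_trans (by positivity) hu
  obtain ⟨y, hy⟩ : ∃ y, y = X / (Q ^ 5 * P ^ 2) := ⟨_, rfl⟩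
  have hy1 : 1 ≤ y := by rw [hy, le_div_iff₀ hW]; linarith
  have hL : k * X / M ≤ k * y := by
    rw [hy, mul_div_assoc]
    gcongr
  have hL0 : 0 ≤ k * X / M := by positivity
  have hXu : y * Q ^ 4 * P ^ 2 ≤ u * X := by
    have : y * Q ^ 4 * P ^ 2 = 1 / Q * X := by rw [hy]; field_simp
    rw [this]; gcongr
  have hpi : 2 * Real.pi * b * X ≤ 8 * S * P := by
    have h1 := Real.pi_le_four
    calc 2 * Real.pi * b * X = 2 * Real.pi * (b * X) := by ring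
      _ ≤ 2 * 4 * (S * P) := by gcongr
      _ = 8 * S * P := by ring
  have hpi0 : 0 ≤ 2 * Real.pi * b * X := by positivity
  have hQ3 : 1 ≤ Q ^ 3 := one_le_pow₀ hQ
  have hSP : S ≤ S * P := le_mul_of_one_le_right hS hP
  have hyP : 1 ≤ y * P := one_le_mul_of_one_le_of_one_le hy1 hP
  have t1 : Q ^ 3 + C1 * u ≤ (1 + C1) * Q ^ 3 := by
    linarith [mul_le_mul_of_nonneg_left (hu1.trans hQ3) hC]
  have t2 : 1 + h0 + k * X / M * (1 + 2 * Real.pi * b * X) ≤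
      (1 + S + k * (1 + 8 * S)) * (y * P) := by
    have a1 : k * X / M * (1 + 2 * Real.pi * b * X) ≤ k * y * ((1 + 8 * S) * P) := by
      gcongr
      linarith
    have a2 : 1 + h0 ≤ (1 + S) * (y * P) :=
      le_trans (by linarith) (le_mul_of_one_le_right (by linarith) hyP)
    linarith
  have t3 : 2 * q * Q ^ 4 * (k * X / M * (2 + 2 * Real.pi * b * X)) ≤
      2 * P * Q ^ 4 * (k * y * ((2 + 8 * S) * P)) := by
    gcongr
    linarith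
  have t4 : (Q ^ 3 + C1 * u) * (1 + h0 + k * X / M * (1 + 2 * Real.pi * b * X)) ≤
      (1 + C1) * Q ^ 3 * ((1 + S + k * (1 + 8 * S)) * (y * P)) := by
    gcongr
  have t5 : Q ^ 3 * (y * P) ≤ u * X := by
    refine le_trans ?_ hXu
    have a1 : Q ^ 3 ≤ Q ^ 4 := pow_le_pow_right₀ hQ (by norm_num)
    have a2 : P ≤ P ^ 2 := by nlinarith
    calc Q ^ 3 * (y * P) = y * Q ^ 3 * P := by ring
      _ ≤ y * Q ^ 4 * P ^ 2 := by gcongr
  have hA : 0 ≤ (1 + C1) * (1 + S + k * (1 + 8 * S)) := by positivity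
  have hB : 0 ≤ 2 * k * (2 + 8 * S) := by positivity
  have t6 := mul_le_mul_of_nonneg_left t5 hA
  have t7 := mul_le_mul_of_nonneg_left hXu hB
  have t8 : 0 ≤ 2 * k * (u * X) := by positivity
  linarith

theorem low {h : ℤ[X]} {g : ℕ → ℤ → ℝ} (hg : Good h g) (hk : 2 ≤ h.natDegree)
    (hc : ∀ l, 0 ≤ h.coeff l) :
    ∃ D : ℕ, 1 ≤ D ∧ ∃ c : ℝ, 0 < c ∧ ∃ C : ℝ, 0 ≤ C ∧ ∃ Q₀ : ℕ, ∀ Q : ℕ, Q₀ ≤ Q → ∀ M : ℕ, Q ^ D ≤ M →
      ((h.eval (M : ℤ) : ℤ) : ℝ) / 4 ≤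
          ∑ m ∈ range M, wt g Q m * phi (fun m : ℕ => h.eval (m : ℤ)) M m ∧
      ∀ α : ℝ, -(C * (Q : ℝ) ^ (-c) * (h.eval (M : ℤ) : ℤ)) ≤
        (∑ m ∈ range M, ((wt g Q m * phi (fun m : ℕ => h.eval (m : ℤ)) M m : ℝ) : ℂ) *
          e (α * (h.eval (m : ℤ) : ℤ))).re := by
  have h0 : h ≠ 0 := fun h0 => by simp [h0] at hk
  have hl : 0 < h.leadingCoeff :=
    lt_of_le_of_ne (hc _) (Ne.symm (leadingCoeff_ne_zero.mpr h0))
  have hH := cvx_of_nonneg h hc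
  obtain ⟨K, hK⟩ := dich h (by omega) hl g hg.per hg.bd
  obtain ⟨σ, hσ, hpos⟩ := hg.pos
  obtain ⟨C1, hC1, hP⟩ := hpos (σ / (2 * (K + 1))) (by positivity)
  have h00 : (0 : ℝ) ≤ (h.eval 0 : ℤ) := by exact_mod_cast (by simpa using hH.nonneg)
  obtain ⟨S, hS⟩ : ∃ S : ℝ, S = (h.eval 1 : ℤ) := ⟨_, rfl⟩
  have h0S : ((h.eval 0 : ℤ) : ℝ) ≤ S := by
    rw [hS]; exact_mod_cast (eval_bounds h hc h0 1 le_rfl).2.2.1
  have hS0 : 0 ≤ S := h00.trans h0S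
  obtain ⟨k, hkk⟩ : ∃ k : ℝ, k = h.natDegree := ⟨_, rfl⟩
  have hk0 : 0 ≤ k := by rw [hkk]; positivity
  obtain ⟨Q₁, hQ₁⟩ := exists_nat_ge (8 * (1 + S) + 40 * k + 2)
  refine ⟨2 * K + 5, by omega, min (σ / 2) 1, by positivity,
    (1 + C1) * (1 + S + k * (1 + 8 * S)) + C1 + 2 * k * (2 + 8 * S) + 2 * k, by positivity,
    Q₁, fun Q hQ M hM => ?_⟩
  have hQr : 8 * (1 + S) + 40 * k + 2 ≤ Q := hQ₁.trans (by exact_mod_cast hQ)
  have hQ2 : 2 ≤ Q := by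
    have : (2 : ℝ) ≤ Q := by linarith
    exact_mod_cast this
  have hQ1 : (1 : ℝ) ≤ Q := by linarith
  have hM1 : 1 ≤ M := le_trans (Nat.one_le_pow _ _ (by omega)) hM
  have hM0 : (0 : ℝ) < M := by exact_mod_cast hM1
  obtain ⟨b1, b2, -, b4⟩ := eval_bounds h hc h0 M hM1
  have hMX : (M : ℤ) ≤ h.eval (M : ℤ) :=
    le_trans (le_self_pow₀ (by exact_mod_cast hM1) (by omega)) b1
  have hX : 0 < h.eval (M : ℤ) := lt_of_lt_of_le (by exact_mod_cast hM1) hMX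
  obtain ⟨X, hXX⟩ : ∃ X : ℝ, X = (h.eval (M : ℤ) : ℤ) := ⟨_, rfl⟩
  have hMX' : (M : ℝ) ≤ X := by rw [hXX]; exact_mod_cast hMX
  have hX0 : 0 < X := hM0.trans_le hMX'
  have hXS : X ≤ S * (M : ℝ) ^ h.natDegree := by rw [hXX, hS]; exact_mod_cast b2
  have hL : ((h.eval (M : ℤ) : ℤ) : ℝ) - (h.eval ((M - 1 : ℕ) : ℤ) : ℤ) ≤ k * X / M := by
    rw [le_div_iff₀ hM0, mul_comm, hXX, hkk]; exact_mod_cast b4
  have hP1 : (1 : ℝ) ≤ (Q : ℝ) ^ K := one_le_pow₀ hQ1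
  have hMQ : (Q : ℝ) ^ 5 * ((Q : ℝ) ^ K) ^ 2 ≤ M := by
    have : ((Q : ℝ)) ^ (2 * K + 5) ≤ M := by exact_mod_cast hM
    calc (Q : ℝ) ^ 5 * ((Q : ℝ) ^ K) ^ 2 = (Q : ℝ) ^ (2 * K + 5) := by ring
      _ ≤ M := this
  have hQ5 : (Q : ℝ) ^ 5 ≤ M :=
    le_trans (le_mul_of_one_le_right (by positivity) (one_le_pow₀ hP1)) hMQ
  obtain ⟨u, hu⟩ : ∃ u : ℝ, u = (Q : ℝ) ^ (-min (σ / 2) 1) := ⟨_, rfl⟩
  have hu1 : u ≤ 1 := by
    rw [hu]
    exact Real.rpow_le_one_of_one_le_of_nonpos hQ1 (neg_nonpos.mpr (by positivity))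
  have hu2 : 1 / (Q : ℝ) ≤ u := by
    rw [hu, one_div, ← Real.rpow_neg_one]
    exact Real.rpow_le_rpow_of_exponent_le hQ1 (neg_le_neg (min_le_right _ _))
  have hu0 : 0 ≤ u := le_trans (by positivity) hu2
  rw [← hu, ← hXX]
  refine ⟨?_, fun α => ?_⟩
  · refine le_trans ?_ (mass_lower hg hH M hX _ hL Q (by omega))
    rw [← hXX]
    have a1 : (Q : ℝ) ≤ X := le_trans (le_self_pow₀ hQ1 (by norm_num)) (hQ5.trans hMX')
    have a2 : (Q : ℝ) ^ 4 * (k * X / M) ≤ X / 40 := by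
      rw [← mul_div_assoc, div_le_div_iff₀ hM0 (by norm_num)]
      have : 40 * k * (Q : ℝ) ^ 4 ≤ M := by
        refine le_trans ?_ hQ5
        rw [pow_succ' (Q : ℝ) 4]
        gcongr
        linarith
      nlinarith
    have a3 : k * X / M ≤ (Q : ℝ) ^ 4 * (k * X / M) :=
      le_mul_of_one_le_left (by positivity) (one_le_pow₀ hQ1)
    linarith
  · rcases hK Q hQ2 M hM1 α with hmin | ⟨q, hq1, hq2, a, ha⟩
    · refine le_trans ?_ (minor_lower hH M hX _ hL Q α _ hmin)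
      have a1 : 2 * ((M : ℝ) / Q) * (k * X / M) = 2 * k * (1 / Q) * X := by field_simp
      have a2 : 2 * k * (1 / Q) * X ≤ 2 * k * u * X := by gcongr
      have a3 : 0 ≤ ((1 + C1) * (1 + S + k * (1 + 8 * S)) + C1 + 2 * k * (2 + 8 * S)) * u * X := by
        positivity
      rw [a1]
      nlinarith
    · obtain ⟨lam, hlam, hδ⟩ := hP q hq1 a Q (by omega)
      have hq2' : (q : ℝ) ≤ (Q : ℝ) ^ K := by exact_mod_cast hq2
      have hδ' : C1 * (q : ℝ) ^ (σ / (2 * (K + 1))) * (Q : ℝ) ^ (-σ) ≤ C1 * u := by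
        rw [mul_assoc]
        refine mul_le_mul_of_nonneg_left ?_ hC1
        calc (q : ℝ) ^ (σ / (2 * (K + 1))) * (Q : ℝ) ^ (-σ)
            ≤ ((Q : ℝ) ^ K) ^ (σ / (2 * (K + 1))) * (Q : ℝ) ^ (-σ) := by gcongr
          _ = (Q : ℝ) ^ (K * (σ / (2 * (K + 1))) + -σ) := by
            rw [← Real.rpow_natCast, ← Real.rpow_mul (by positivity),
              ← Real.rpow_add (by positivity)]
          _ ≤ u := by
            rw [hu]
            refine Real.rpow_le_rpow_of_exponent_le hQ1 ?_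
            have a1 : (K : ℝ) * (σ / (2 * (K + 1))) ≤ σ / 2 := by
              rw [← mul_div_assoc, div_le_div_iff₀ (by positivity) (by norm_num)]
              nlinarith
            linarith [min_le_left (σ / 2) 1]
      have hm := major_lower hg hH M hX _ hL Q q hq1 a (α - a / q) lam _ hlam (hδ.trans hδ')
      rw [add_sub_cancel, ← hXX] at hm
      refine le_trans (neg_le_neg ?_) hm
      refine low_num Q (Q ^ K) M X S _ k C1 u _ q hQ1 hP1 hMQ hMX' hS0 h0S h00 hk0 hC1 hu2 hu1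
        (abs_nonneg _) ?_ hq2'
      calc |α - a / q| * X ≤ |α - a / q| * (S * (M : ℝ) ^ h.natDegree) := by gcongr
        _ = S * (|α - a / q| * (M : ℝ) ^ h.natDegree) := by ring
        _ ≤ S * (Q : ℝ) ^ K := by gcongr

end Vale.Agent.P042U
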