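import Vale.Agent.P042U.Basic

/-! The density bound from a trigonometric polynomial, and summation by parts. -/

namespace Vale.Agent.P042U

open Polynomial Finset

theorem vdc_orth (T : ℕ) (k : ℤ) (hk : k ≠ 0) (hT : |k| < T) :
    ∑ t ∈ range T, e ((t : ℝ) / T * k) = 0 := by
  have hT0 : (0 : ℤ) < T := lt_of_le_of_lt (abs_nonneg k) hT
  have hT1 : (T : ℝ) ≠ 0 := by exact_mod_cast hT0.ne'
  have h1 : ∀ t : ℕ, e ((t : ℝ) / T * k) = e (k / T) ^ t := fun t => by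
    rw [← e_nat_mul]; congr 1; ring
  have h2 : e ((k : ℝ) / T) ≠ 1 := by
    intro h
    unfold e at h
    obtain ⟨n, hn⟩ := Complex.exp_eq_one_iff.mp h
    have h3 : (((2 * Real.pi * (k / T) : ℝ) : ℂ)) = ((n * (2 * Real.pi) : ℝ) : ℂ) := by
      apply mul_right_cancel₀ Complex.I_ne_zero
      rw [hn]; push_cast; ring
    have h4 : 2 * Real.pi * (k / T) = n * (2 * Real.pi) := by exact_mod_cast h3
    have h5 : (k : ℝ) / T = n := by
      have hp : (2 * Real.pi) ≠ 0 := by positivity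
      apply mul_left_cancel₀ hp
      rw [h4]; ring
    rw [div_eq_iff hT1] at h5
    have h6 : k = n * T := by exact_mod_cast h5
    exact hk (Int.eq_zero_of_abs_lt_dvd ⟨n, by rw [h6]; ring⟩ hT)
  simp only [h1]
  rw [geom_sum_eq h2, ← e_nat_mul]
  have h7 : (T : ℝ) * (k / T) = ((k : ℤ) : ℝ) := by field_simp
  rw [h7, e_int, sub_self, zero_div]

theorem vdc (A : Finset ℤ) (N : ℕ) (hA : A ⊆ Icc (1 : ℤ) N) (S : Finset ℕ) (v : ℕ → ℤ)
    (c : ℕ → ℝ) (hv : ∀ m ∈ S, 1 ≤ v m ∧ v m ≤ N) (hav : ∀ a ∈ A, ∀ b ∈ A, ∀ m ∈ S, a - b ≠ v m)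
    (E : ℝ) (hE0 : 0 ≤ E) (hE : ∀ α : ℝ, -E ≤ (∑ m ∈ S, (c m : ℂ) * e (α * v m)).re) :
    (A.card : ℝ) * (∑ m ∈ S, c m + E) ≤ 2 * N * E := by
  rcases A.eq_empty_or_nonempty with rfl | hne
  · simp only [card_empty, Nat.cast_zero, zero_mul]
    positivity
  obtain ⟨T, hT⟩ : ∃ T : ℕ, T = 2 * N := ⟨_, rfl⟩
  have hTZ : (T : ℤ) = 2 * N := by rw [hT]; push_cast; ring
  have hT0 : 0 < T := by
    obtain ⟨a, ha⟩ := hne
    have := mem_Icc.mp (hA ha)
    omega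
  obtain ⟨F, hF⟩ : ∃ F : ℝ → ℂ, F = fun α => ∑ a ∈ A, e (α * (a : ℤ)) := ⟨_, rfl⟩
  obtain ⟨W, hW⟩ : ∃ W : ℝ → ℂ, W = fun α => ∑ m ∈ S, (c m : ℂ) * e (α * v m) := ⟨_, rfl⟩
  have hFF : ∀ α : ℝ, ((Complex.normSq (F α) : ℝ) : ℂ) =
      ∑ a ∈ A, ∑ b ∈ A, e (α * ((a - b : ℤ) : ℝ)) := fun α => by
    rw [← Complex.mul_conj, hF]
    simp only [map_sum]
    rw [sum_mul_sum]
    refine sum_congr rfl fun a _ => sum_congr rfl fun b _ => ?_
    rw [← e_sub]; congr 1; push_cast; ring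
  have h1 : ∑ t ∈ range T, ((Complex.normSq (F ((t : ℝ) / T)) : ℝ) : ℂ) * W ((t : ℝ) / T) = 0 := by
    have e1 : ∀ t : ℕ, ((Complex.normSq (F ((t : ℝ) / T)) : ℝ) : ℂ) * W ((t : ℝ) / T) =
        ∑ a ∈ A, ∑ b ∈ A, ∑ m ∈ S, (c m : ℂ) * e ((t : ℝ) / T * ((a - b + v m : ℤ) : ℝ)) := by
      intro t
      rw [hFF, hW, sum_mul]
      refine sum_congr rfl fun a _ => ?_
      rw [sum_mul]
      refine sum_congr rfl fun b _ => ?_
      beta_reduce
      rw [mul_sum]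
      refine sum_congr rfl fun m _ => ?_
      rw [mul_left_comm, ← e_add]; congr 2; push_cast; ring
    simp only [e1]
    rw [sum_comm]
    refine sum_eq_zero fun a ha => ?_
    rw [sum_comm]
    refine sum_eq_zero fun b hb => ?_
    rw [sum_comm]
    refine sum_eq_zero fun m hm => ?_
    have h2 := mem_Icc.mp (hA ha)
    have h3 := mem_Icc.mp (hA hb)
    have h4 := hv m hm
    have h5 := hav b hb a ha m hm
    rw [← mul_sum, vdc_orth T _ (by omega) (by rw [abs_lt]; omega), mul_zero]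
  have h2 : ∑ t ∈ range T, ((Complex.normSq (F ((t : ℝ) / T)) : ℝ) : ℂ) =
      ((A.card * T : ℝ) : ℂ) := by
    simp only [hFF]
    rw [sum_comm]
    have e2 : ∀ a ∈ A, ∑ t ∈ range T, ∑ b ∈ A, e ((t : ℝ) / T * ((a - b : ℤ) : ℝ)) = (T : ℂ) := by
      intro a ha
      rw [sum_comm, sum_eq_single_of_mem a ha]
      · simp [e_zero]
      · intro b hb hba
        have h2 := mem_Icc.mp (hA ha)
        have h3 := mem_Icc.mp (hA hb)
        exact vdc_orth T _ (by omega) (by rw [abs_lt]; omega)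
    rw [sum_congr rfl e2, sum_const, nsmul_eq_mul]
    push_cast
    ring
  have h1' : ∑ t ∈ range T, Complex.normSq (F ((t : ℝ) / T)) * (W ((t : ℝ) / T)).re = 0 := by
    have := congrArg Complex.re h1
    rw [Complex.re_sum] at this
    simpa only [Complex.re_ofReal_mul, Complex.zero_re] using this
  have h2' : ∑ t ∈ range T, Complex.normSq (F ((t : ℝ) / T)) = A.card * T := by
    exact_mod_cast h2
  have h3 : ∑ t ∈ range T, Complex.normSq (F ((t : ℝ) / T)) * ((W ((t : ℝ) / T)).re + E) =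
      A.card * T * E := by
    simp only [mul_add]
    rw [sum_add_distrib, h1', ← sum_mul, h2', zero_add]
  have h4 := single_le_sum
    (f := fun t : ℕ => Complex.normSq (F ((t : ℝ) / T)) * ((W ((t : ℝ) / T)).re + E))
    (s := range T) (fun t _ => mul_nonneg (Complex.normSq_nonneg _) (by
      have := hE ((t : ℝ) / T)
      rw [hW]; linarith)) (mem_range.mpr hT0)
  rw [h3] at h4
  have h5 : F 0 = (A.card : ℝ) := by rw [hF]; simp [e_zero]
  have h6 : (W 0).re = ∑ m ∈ S, c m := by rw [hW]; simp [e_zero]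
  simp only [Nat.cast_zero, zero_div] at h4
  rw [h5, h6, Complex.normSq_ofReal] at h4
  have hc : (0 : ℝ) < A.card := by exact_mod_cast hne.card_pos
  have hTR : (T : ℝ) = 2 * N := by rw [hT]; push_cast; ring
  rw [hTR] at h4
  refine le_of_mul_le_mul_left ?_ hc
  nlinarith

theorem abel_id (ψ u : ℕ → ℂ) (M : ℕ) :
    ∑ m ∈ range M, ψ m * u m = ψ M * ∑ m ∈ range M, u m -
      ∑ m ∈ range M, (ψ (m + 1) - ψ m) * ∑ j ∈ range (m + 1), u j := by
  induction M with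
  | zero => simp
  | succ M ih =>
    rw [sum_range_succ, ih, sum_range_succ (fun m => (ψ (m + 1) - ψ m) * _), sum_range_succ u]
    ring

theorem abel (ψ u : ℕ → ℂ) (M : ℕ) (B : ℝ) (hu : ∀ t, t ≤ M → ‖∑ m ∈ range t, u m‖ ≤ B)
    (hψ : ψ M = 0) :
    ‖∑ m ∈ range M, ψ m * u m‖ ≤ B * ∑ m ∈ range M, ‖ψ (m + 1) - ψ m‖ := by
  rw [abel_id, hψ, zero_mul, zero_sub, norm_neg, mul_sum]
  refine (norm_sum_le _ _).trans (sum_le_sum fun m hm => ?_)
  rw [norm_mul, mul_comm]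
  exact mul_le_mul_of_nonneg_right (hu _ (mem_range.mp hm)) (norm_nonneg _)

end Vale.Agent.P042U
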