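import Vale.Agent.P042U.Av
import Vale.Agent.P042U.Vdc
import Vale.Agent.P042U.Arch

/-! Major arcs. -/

namespace Vale.Agent.P042U

open Polynomial Finset

variable {h : ℤ[X]} {g : ℕ → ℤ → ℝ}

theorem maj_norm_term (hg : Good h g) {d : ℕ} (hd : 1 ≤ d) (q : ℕ) (a m : ℤ) :
    ‖(g d m : ℂ) * e ((a * h.eval m : ℤ) / (q : ℝ))‖ ≤ (d : ℝ) ^ 2 := by
  rw [norm_mul, norm_e, mul_one, Complex.norm_real, Real.norm_eq_abs]
  exact hg.bd d hd m

theorem maj_per (hg : Good h g) (d q : ℕ) (a : ℤ) :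
    Function.Periodic (fun m : ℤ => (g d m : ℂ) * e ((a * h.eval m : ℤ) / (q : ℝ)))
      ((d * q : ℕ) : ℤ) := by
  intro m
  have h1 : g d (m + ((d * q : ℕ) : ℤ)) = g d m := by
    have := (hg.per d).int_mul (q : ℤ) m
    rw [← this]; congr 1; push_cast; ring
  have h2 := (per_e' h q a).int_mul (d : ℤ) m
  have h3 : m + ((d * q : ℕ) : ℤ) = m + ((d : ℤ) : ℤ) * (q : ℤ) := by push_cast; ring
  simp only [Int.cast_id] at h2
  show (g d (m + ((d * q : ℕ) : ℤ)) : ℂ) * e ((a * h.eval (m + ((d * q : ℕ) : ℤ)) : ℤ) / (q : ℝ)) = _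
  rw [h1, h3, h2]

theorem maj_part (hg : Good h g) (Q q : ℕ) (hq : 1 ≤ q) (a : ℤ) (t : ℕ) :
    ‖∑ m ∈ range t, ((wt g Q m : ℂ) * e ((a * h.eval (m : ℤ) : ℤ) / (q : ℝ)) -
        ∑ d ∈ Icc 1 Q, Del h (g d) d q a)‖ ≤ 2 * q * (Q : ℝ) ^ 4 := by
  have h1 : ∑ m ∈ range t, ((wt g Q m : ℂ) * e ((a * h.eval (m : ℤ) : ℤ) / (q : ℝ)) -
        ∑ d ∈ Icc 1 Q, Del h (g d) d q a) =
      ∑ d ∈ Icc 1 Q, ∑ m ∈ range t,
        ((g d m : ℂ) * e ((a * h.eval (m : ℤ) : ℤ) / (q : ℝ)) - Del h (g d) d q a) := by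
    rw [Finset.sum_comm]
    refine Finset.sum_congr rfl fun m _ => ?_
    rw [Finset.sum_sub_distrib, ← Finset.sum_mul]
    unfold wt
    push_cast
    rfl
  rw [h1]
  refine (norm_sum_le _ _).trans ?_
  have h2 : ∀ d ∈ Icc 1 Q, ‖∑ m ∈ range t,
        ((g d m : ℂ) * e ((a * h.eval (m : ℤ) : ℤ) / (q : ℝ)) - Del h (g d) d q a)‖ ≤
        2 * q * (Q : ℝ) ^ 3 := by
    intro d hd
    obtain ⟨hd1, hdQ⟩ := Finset.mem_Icc.mp hd
    have hD : 1 ≤ d * q := Nat.mul_pos hd1 hq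
    have := sum_sub_av_le hD (maj_per hg d q a) ((d : ℝ) ^ 2) (maj_norm_term hg hd1 q a) t
    refine this.trans ?_
    have hdQ' : (d : ℝ) ≤ Q := by exact_mod_cast hdQ
    have : (d : ℝ) ^ 3 ≤ (Q : ℝ) ^ 3 := by gcongr
    have hq0 : (0 : ℝ) ≤ q := by positivity
    push_cast
    nlinarith [mul_le_mul_of_nonneg_left this hq0]
  refine (Finset.sum_le_card_nsmul _ _ _ h2).trans (le_of_eq ?_)
  simp only [Nat.card_Icc, Nat.add_sub_cancel, nsmul_eq_mul]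
  ring

theorem maj_sum_le (hg : Good h g) (Q q : ℕ) (a : ℤ) :
    ‖∑ d ∈ Icc 1 Q, Del h (g d) d q a‖ ≤ (Q : ℝ) ^ 3 := by
  refine (norm_sum_le _ _).trans ?_
  have h2 : ∀ d ∈ Icc 1 Q, ‖Del h (g d) d q a‖ ≤ (Q : ℝ) ^ 2 := by
    intro d hd
    obtain ⟨hd1, hdQ⟩ := Finset.mem_Icc.mp hd
    have := norm_av_le (d * q) _ ((d : ℝ) ^ 2) (by positivity) (maj_norm_term hg hd1 q a)
    refine this.trans ?_
    have hdQ' : (d : ℝ) ≤ Q := by exact_mod_cast hdQ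
    gcongr
  refine (Finset.sum_le_card_nsmul _ _ _ h2).trans (le_of_eq ?_)
  simp only [Nat.card_Icc, Nat.add_sub_cancel, nsmul_eq_mul]
  ring

theorem maj_L_nonneg {H : ℕ → ℤ} (hH : Cvx H) (M : ℕ) (L : ℝ)
    (hL : (H M : ℝ) - H (M - 1) ≤ L) : 0 ≤ L := by
  refine le_trans ?_ hL
  rcases M with _ | M
  · simp
  · have := hH.mono M
    have h2 : (H M : ℝ) ≤ H (M + 1) := by exact_mod_cast this
    simpa using h2

/-- approximation on a major arc -/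
theorem major_approx (hg : Good h g) (hH : Cvx (fun m : ℕ => h.eval (m : ℤ))) (M : ℕ)
    (hX : 0 < h.eval (M : ℤ)) (L : ℝ)
    (hL : ((h.eval (M : ℤ) : ℤ) : ℝ) - (h.eval ((M - 1 : ℕ) : ℤ) : ℤ) ≤ L)
    (Q q : ℕ) (hq : 1 ≤ q) (a : ℤ) (β : ℝ) :
    ‖∑ m ∈ range M, ((wt g Q m * phi (fun m : ℕ => h.eval (m : ℤ)) M m : ℝ) : ℂ) *
          e ((a / q + β) * (h.eval (m : ℤ) : ℤ)) -
        (∑ d ∈ Icc 1 Q, Del h (g d) d q a) *
          ∑ m ∈ range M, (phi (fun m : ℕ => h.eval (m : ℤ)) M m : ℂ) * e (β * (h.eval (m : ℤ) : ℤ))‖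
      ≤ 2 * q * (Q : ℝ) ^ 4 * (L * (2 + 2 * Real.pi * |β| * (h.eval (M : ℤ) : ℤ))) := by
  set H : ℕ → ℤ := fun m : ℕ => h.eval (m : ℤ) with hHd
  have hab := abel (fun m => (phi H M m : ℂ) * e (β * H m))
    (fun m => (wt g Q m : ℂ) * e ((a * h.eval (m : ℤ) : ℤ) / (q : ℝ)) -
        ∑ d ∈ Icc 1 Q, Del h (g d) d q a) M (2 * q * (Q : ℝ) ^ 4)
    (fun t _ => maj_part hg Q q hq a t) (by simp only [phi_top (H := H) hX]; simp)
  have hv := phi_var hH hX L hL β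
  refine le_trans (le_of_eq ?_) (hab.trans (mul_le_mul_of_nonneg_left hv (by positivity)))
  congr 1
  rw [Finset.mul_sum, ← Finset.sum_sub_distrib]
  refine Finset.sum_congr rfl fun m _ => ?_
  have he : e ((a / q + β) * (h.eval (m : ℤ) : ℤ)) =
      e ((a * h.eval (m : ℤ) : ℤ) / (q : ℝ)) * e (β * H m) := by
    rw [← e_add]; congr 1; simp only [hHd]; push_cast; ring
  rw [he]
  simp only [hHd]
  push_cast
  ring

/-- lower bound on a major arc -/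
theorem major_lower (hg : Good h g) (hH : Cvx (fun m : ℕ => h.eval (m : ℤ))) (M : ℕ)
    (hX : 0 < h.eval (M : ℤ)) (L : ℝ)
    (hL : ((h.eval (M : ℤ) : ℤ) : ℝ) - (h.eval ((M - 1 : ℕ) : ℤ) : ℤ) ≤ L)
    (Q q : ℕ) (hq : 1 ≤ q) (a : ℤ) (β : ℝ) (lam δ : ℝ) (hlam : 0 ≤ lam)
    (hδ : ‖∑ d ∈ Icc 1 Q, Del h (g d) d q a - (lam : ℂ)‖ ≤ δ) :
    -(((Q : ℝ) ^ 3 + δ) * (1 + (h.eval 0 : ℤ) + L * (1 + 2 * Real.pi * |β| * (h.eval (M : ℤ) : ℤ)))
        + δ * (h.eval (M : ℤ) : ℤ)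
        + 2 * q * (Q : ℝ) ^ 4 * (L * (2 + 2 * Real.pi * |β| * (h.eval (M : ℤ) : ℤ)))) ≤
      (∑ m ∈ range M, ((wt g Q m * phi (fun m : ℕ => h.eval (m : ℤ)) M m : ℝ) : ℂ) *
          e ((a / q + β) * (h.eval (m : ℤ) : ℤ))).re := by
  have h1 := major_approx hg hH M hX L hL Q q hq a β
  have h2 := phi_fejer hH hX L hL β
  have h3 := sum_phi_le hH hX
  have h4 := maj_sum_le hg Q q a
  have hL0 := maj_L_nonneg hH M L hL
  have h0 : (0 : ℝ) ≤ (h.eval 0 : ℤ) := by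
    have := hH.nonneg
    simp only [Nat.cast_zero] at this
    exact_mod_cast this
  simp only [Nat.cast_zero] at h2
  set S := ∑ d ∈ Icc 1 Q, Del h (g d) d q a with hS
  set P := ∑ m ∈ range M, (phi (fun m : ℕ => h.eval (m : ℤ)) M m : ℂ) *
    e (β * (h.eval (m : ℤ) : ℤ)) with hP
  set T := ∑ m ∈ range M, ((wt g Q m * phi (fun m : ℕ => h.eval (m : ℤ)) M m : ℝ) : ℂ) *
          e ((a / q + β) * (h.eval (m : ℤ) : ℤ)) with hT
  have hX' : (0 : ℝ) < (h.eval (M : ℤ) : ℤ) := by exact_mod_cast hX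
  have hPn : ‖P‖ ≤ (h.eval (M : ℤ) : ℤ) := by
    refine (norm_sum_le _ _).trans (le_trans (le_of_eq ?_) h3)
    refine Finset.sum_congr rfl fun m hm => ?_
    rw [norm_mul, norm_e, mul_one, Complex.norm_real, Real.norm_eq_abs,
      abs_of_nonneg (phi_nonneg hH hX (Finset.mem_range.mp hm).le)]
  have hδ0 : 0 ≤ δ := (norm_nonneg _).trans hδ
  have hlam2 : lam ≤ (Q : ℝ) ^ 3 + δ := by
    have : ‖(lam : ℂ)‖ ≤ ‖S‖ + ‖S - lam‖ := by
      have := norm_sub_le S (S - lam)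
      simpa using this
    rw [Complex.norm_real, Real.norm_eq_abs, abs_of_nonneg hlam] at this
    linarith
  have hdec : T = (T - S * P) + (S - lam) * P + (lam : ℂ) * P := by ring
  have r1 : -‖T - S * P‖ ≤ (T - S * P).re := by
    have := Complex.abs_re_le_norm (T - S * P)
    exact (abs_le.mp this).1
  have r2 : -(δ * (h.eval (M : ℤ) : ℤ)) ≤ ((S - lam) * P).re := by
    have h5 := (abs_le.mp (Complex.abs_re_le_norm ((S - lam) * P))).1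
    have h6 : ‖(S - lam) * P‖ ≤ δ * (h.eval (M : ℤ) : ℤ) := by
      rw [norm_mul]; exact mul_le_mul hδ hPn (norm_nonneg _) hδ0
    linarith
  set W : ℝ := 1 + (h.eval 0 : ℤ) + L * (1 + 2 * Real.pi * |β| * (h.eval (M : ℤ) : ℤ)) with hW
  have hW0 : 0 ≤ W := by positivity
  have r3 : -(((Q : ℝ) ^ 3 + δ) * W) ≤ ((lam : ℂ) * P).re := by
    rw [Complex.re_ofReal_mul]
    have h5 : lam * (-W) ≤ lam * P.re := mul_le_mul_of_nonneg_left h2 hlam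
    have h6 : lam * W ≤ ((Q : ℝ) ^ 3 + δ) * W := mul_le_mul_of_nonneg_right hlam2 hW0
    linarith
  rw [hdec, Complex.add_re, Complex.add_re]
  linarith

/-- the total mass -/
theorem mass_lower (hg : Good h g) (hH : Cvx (fun m : ℕ => h.eval (m : ℤ))) (M : ℕ)
    (hX : 0 < h.eval (M : ℤ)) (L : ℝ)
    (hL : ((h.eval (M : ℤ) : ℤ) : ℝ) - (h.eval ((M - 1 : ℕ) : ℤ) : ℤ) ≤ L)
    (Q : ℕ) (hQ : 1 ≤ Q) :
    ((h.eval (M : ℤ) : ℤ) : ℝ) / 2 - 1 - (h.eval 0 : ℤ) - L - 4 * (Q : ℝ) ^ 4 * L ≤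
      ∑ m ∈ range M, wt g Q m * phi (fun m : ℕ => h.eval (m : ℤ)) M m := by
  have h1 := major_approx hg hH M hX L hL Q 1 le_rfl 0 0
  have h2 := sum_phi_ge hH hX L hL
  simp only [Nat.cast_zero] at h2
  have hS : ∑ d ∈ Icc 1 Q, Del h (g d) d 1 0 = 1 := by
    rw [Finset.sum_eq_single_of_mem 1 (Finset.mem_Icc.mpr ⟨le_rfl, hQ⟩)]
    · unfold Del av
      simp [hg.one, e_zero]
    · intro d hd hd1
      exact hg.mean d (by have := (Finset.mem_Icc.mp hd).1; omega)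
  rw [hS] at h1
  simp only [Int.cast_zero, zero_div, add_zero, zero_mul, e_zero, mul_one, one_mul, abs_zero,
    mul_zero, Nat.cast_one] at h1
  rw [← Complex.ofReal_sum, ← Complex.ofReal_sum, ← Complex.ofReal_sub, Complex.norm_real,
    Real.norm_eq_abs] at h1
  have := (abs_le.mp h1).1
  linarith

/-- lower bound on a minor arc -/
theorem minor_lower (hH : Cvx (fun m : ℕ => h.eval (m : ℤ))) (M : ℕ)
    (hX : 0 < h.eval (M : ℤ)) (L : ℝ)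
    (hL : ((h.eval (M : ℤ) : ℤ) : ℝ) - (h.eval ((M - 1 : ℕ) : ℤ) : ℤ) ≤ L)
    (Q : ℕ) (α B : ℝ)
    (hB : ∀ t, t ≤ M → ‖∑ m ∈ range t, (wt g Q m : ℂ) * e (α * (h.eval (m : ℤ) : ℤ))‖ ≤ B) :
    -(2 * B * L) ≤
      (∑ m ∈ range M, ((wt g Q m * phi (fun m : ℕ => h.eval (m : ℤ)) M m : ℝ) : ℂ) *
          e (α * (h.eval (m : ℤ) : ℤ))).re := by
  set H : ℕ → ℤ := fun m : ℕ => h.eval (m : ℤ) with hHd
  have hab := abel (fun m => (phi H M m : ℂ) * e (0 * H m))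
    (fun m => (wt g Q m : ℂ) * e (α * (h.eval (m : ℤ) : ℤ))) M B hB
    (by simp only [phi_top (H := H) hX]; simp)
  have hv := phi_var hH hX L hL 0
  have hB0 : 0 ≤ B := (norm_nonneg _).trans (hB 0 (Nat.zero_le _))
  have h1 := hab.trans (mul_le_mul_of_nonneg_left hv hB0)
  have h2 : ∑ m ∈ range M, (phi H M m : ℂ) * e (0 * H m) *
      ((wt g Q m : ℂ) * e (α * (h.eval (m : ℤ) : ℤ))) =
      ∑ m ∈ range M, ((wt g Q m * phi H M m : ℝ) : ℂ) * e (α * (h.eval (m : ℤ) : ℤ)) := by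
    refine Finset.sum_congr rfl fun m _ => ?_
    rw [zero_mul, e_zero]; push_cast; ring
  rw [h2] at h1
  have h3 := (abs_le.mp ((Complex.abs_re_le_norm _).trans h1)).1
  simp only [abs_zero, mul_zero, zero_mul, add_zero] at h3
  linarith

end Vale.Agent.P042U
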