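import Vale.Agent.P042U.Av

/-! Multiplicativity of the multipliers. -/

namespace Vale.Agent.P042U

open Polynomial Finset

variable {h : ℤ[X]} {σ : ℝ} {γ : ℕ → ℕ → ℤ → ℝ}

theorem multA_per (h : ℤ[X]) {g : ℤ → ℝ} {d : ℕ} (hg : Function.Periodic g (d : ℤ)) (q : ℕ)
    (a : ℤ) :
    Function.Periodic (fun m : ℤ => (g m : ℂ) * e ((a * h.eval m : ℤ) / (q : ℝ)))
      ((d * q : ℕ) : ℤ) := by
  intro m
  have h1 : g (m + ((d * q : ℕ) : ℤ)) = g m := by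
    have := hg.int_mul (q : ℤ) m
    rw [← this]; congr 1; push_cast; ring
  have h2 : e ((a * h.eval (m + ((d * q : ℕ) : ℤ)) : ℤ) / (q : ℝ)) =
      e ((a * h.eval m : ℤ) / (q : ℝ)) := by
    have := (per_e' h q a).int_mul (d : ℤ) m
    have e1 : m + ((d * q : ℕ) : ℤ) = m + ((d : ℤ) : ℤ) * (q : ℤ) := by push_cast; ring
    rw [e1]; exact this
  show (g (m + ((d * q : ℕ) : ℤ)) : ℂ) * e ((a * h.eval (m + ((d * q : ℕ) : ℤ)) : ℤ) / (q : ℝ)) = _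
  rw [h1, h2]

theorem Del_mul (h : ℤ[X]) {g₁ g₂ : ℤ → ℝ} {d₁ d₂ q₁ q₂ : ℕ}
    (h₁ : Function.Periodic g₁ (d₁ : ℤ)) (h₂ : Function.Periodic g₂ (d₂ : ℤ))
    (hq₁ : 1 ≤ q₁) (hq₂ : 1 ≤ q₂) (hc : Nat.Coprime (d₁ * q₁) (d₂ * q₂)) (a₁ a₂ : ℤ) :
    Del h (fun m => g₁ m * g₂ m) (d₁ * d₂) (q₁ * q₂) (a₁ * q₂ + a₂ * q₁) =
      Del h g₁ d₁ q₁ a₁ * Del h g₂ d₂ q₂ a₂ := by
  unfold Del
  rw [← av_crt (multA_per h h₁ q₁ a₁) (multA_per h h₂ q₂ a₂) hc]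
  have e1 : d₁ * d₂ * (q₁ * q₂) = d₁ * q₁ * (d₂ * q₂) := by ring
  rw [e1]
  congr 1
  funext m
  have hq1 : (q₁ : ℝ) ≠ 0 := by positivity
  have hq2 : (q₂ : ℝ) ≠ 0 := by positivity
  have e2 : (((a₁ * q₂ + a₂ * q₁) * h.eval m : ℤ) : ℝ) / ((q₁ * q₂ : ℕ) : ℝ) =
      ((a₁ * h.eval m : ℤ) : ℝ) / (q₁ : ℝ) + ((a₂ * h.eval m : ℤ) : ℝ) / (q₂ : ℝ) := by
    push_cast; field_simp
  rw [e2, e_add]; push_cast; ring

theorem gl_one (γ : ℕ → ℕ → ℤ → ℝ) (m : ℤ) : gl γ 1 m = 1 := by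
  simp [gl]

theorem gl_mul (γ : ℕ → ℕ → ℤ → ℝ) {d₁ d₂ : ℕ} (hc : Nat.Coprime d₁ d₂) (h₁ : 1 ≤ d₁)
    (h₂ : 1 ≤ d₂) : gl γ (d₁ * d₂) = fun m => gl γ d₁ m * gl γ d₂ m := by
  funext m
  unfold gl
  rw [hc.primeFactors_mul, prod_union hc.disjoint_primeFactors]
  congr 1
  · refine prod_congr rfl fun p hp => ?_
    rw [Nat.factorization_eq_of_coprime_left hc (by simpa using hp)]
  · refine prod_congr rfl fun p hp => ?_
    rw [Nat.factorization_eq_of_coprime_right hc (by simpa using hp)]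

theorem gl_pp (hγ : ∀ p : ℕ, p.Prime → LocAt h σ p (γ p)) {p : ℕ} (hp : p.Prime) (j : ℕ) :
    gl γ (p ^ j) = γ p j := by
  funext m
  rcases Nat.eq_zero_or_pos j with rfl | hj
  · rw [pow_zero, gl_one, (hγ p hp).zero]
  · unfold gl
    rw [Nat.primeFactors_prime_pow hj.ne' hp, prod_singleton, Nat.factorization_pow_self hp]

theorem gl_per (hγ : ∀ p : ℕ, p.Prime → LocAt h σ p (γ p)) (d : ℕ) :
    Function.Periodic (gl γ d) (d : ℤ) := by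
  intro m
  unfold gl
  refine prod_congr rfl fun p hp => ?_
  have hpp : p.Prime := Nat.prime_of_mem_primeFactors hp
  obtain ⟨c, hc⟩ := Nat.ordProj_dvd d p
  have := ((hγ p hpp).per (d.factorization p)).int_mul (c : ℤ) m
  rw [← this]; congr 2
  conv_lhs => rw [hc]
  push_cast; ring

theorem gl_bd (hγ : ∀ p : ℕ, p.Prime → LocAt h σ p (γ p)) (d : ℕ) (hd : 1 ≤ d) (m : ℤ) :
    |gl γ d m| ≤ (d : ℝ) ^ 2 := by
  unfold gl
  rw [abs_prod]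
  have e1 : (d : ℝ) = ∏ p ∈ d.primeFactors, ((p ^ d.factorization p : ℕ) : ℝ) := by
    rw [← Nat.cast_prod]
    congr 1
    exact (Nat.prod_primeFactors_pow_factorization (by omega))
  conv_rhs => rw [e1]
  rw [← prod_pow]
  refine prod_le_prod (fun p _ => abs_nonneg _) fun p hp => ?_
  exact (hγ p (Nat.prime_of_mem_primeFactors hp)).bd _ _

theorem gl_van (hγ : ∀ p : ℕ, p.Prime → LocAt h σ p (γ p)) {d q : ℕ} (hd : 1 ≤ d) (hq : 1 ≤ q)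
    (hdq : ¬ d ∣ q) (a : ℤ) : Del h (gl γ d) d q a = 0 := by
  have hd0 : d ≠ 0 := by omega
  have hq0 : q ≠ 0 := by omega
  rw [← Nat.factorization_prime_le_iff_dvd hd0 hq0] at hdq
  push Not at hdq
  obtain ⟨p, hp, hlt⟩ := hdq
  obtain ⟨j, d', hd', rfl⟩ := Nat.exists_eq_pow_mul_and_not_dvd hd0 p hp.ne_one
  obtain ⟨s, q', hq', rfl⟩ := Nat.exists_eq_pow_mul_and_not_dvd hq0 p hp.ne_one
  have hd'0 : d' ≠ 0 := by rintro rfl; simp at hd'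
  have hq'0 : q' ≠ 0 := by rintro rfl; simp at hq'
  have hpj : p ^ j ≠ 0 := pow_ne_zero _ hp.ne_zero
  have hps : p ^ s ≠ 0 := pow_ne_zero _ hp.ne_zero
  rw [Nat.factorization_mul hpj hd'0, Nat.factorization_mul hps hq'0] at hlt
  simp only [Finsupp.coe_add, Pi.add_apply, Nat.factorization_pow_self hp,
    Nat.factorization_eq_zero_of_not_dvd hd', Nat.factorization_eq_zero_of_not_dvd hq',
    add_zero] at hlt
  have cd : Nat.Coprime p d' := (Nat.Prime.coprime_iff_not_dvd hp).2 hd'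
  have cq : Nat.Coprime p q' := (Nat.Prime.coprime_iff_not_dvd hp).2 hq'
  have c1 : Nat.Coprime (p ^ j) d' := Nat.Coprime.pow_left _ cd
  have c2 : Nat.Coprime (p ^ s) q' := Nat.Coprime.pow_left _ cq
  have c3 : Nat.Coprime (p ^ j * p ^ s) (d' * q') := by
    rw [← pow_add]
    exact Nat.Coprime.pow_left _ (Nat.Coprime.mul_right cd cq)
  obtain ⟨u, v, huv⟩ : IsCoprime ((p ^ s : ℕ) : ℤ) (q' : ℤ) := Nat.isCoprime_iff_coprime.2 c2
  have ea : a = (a * v) * (q' : ℕ) + (a * u) * ((p ^ s : ℕ) : ℤ) := by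
    calc a = a * 1 := by ring
      _ = a * (u * ((p ^ s : ℕ) : ℤ) + v * (q' : ℤ)) := by rw [huv]
      _ = _ := by ring
  rw [gl_mul γ c1 (Nat.pos_of_ne_zero hpj) (Nat.pos_of_ne_zero hd'0), ea,
    Del_mul h (gl_per hγ _) (gl_per hγ _) (Nat.pos_of_ne_zero hps) (Nat.pos_of_ne_zero hq'0) c3,
    gl_pp hγ hp, (hγ p hp).van s j _ hlt, zero_mul]

end Vale.Agent.P042U
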