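import Vale.Agent.P042U.MultA
import Vale.Agent.P042U.Div

/-! From local to global conditions. -/

namespace Vale.Agent.P042U

open Polynomial Finset

variable {h : ℤ[X]} {σ : ℝ} {γ : ℕ → ℕ → ℤ → ℝ}

theorem Del_split (hγ : ∀ p : ℕ, p.Prime → LocAt h σ p (γ p)) {q₁ q₂ : ℕ} (h₁ : 1 ≤ q₁)
    (h₂ : 1 ≤ q₂) (hc : Nat.Coprime q₁ q₂) (a : ℤ) : ∃ a₁ a₂ : ℤ, ∀ d₁ d₂ : ℕ, d₁ ∣ q₁ → d₂ ∣ q₂ →
      Del h (gl γ (d₁ * d₂)) (d₁ * d₂) (q₁ * q₂) a =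
        Del h (gl γ d₁) d₁ q₁ a₁ * Del h (gl γ d₂) d₂ q₂ a₂ := by
  obtain ⟨u, v, huv⟩ := Nat.isCoprime_iff_coprime.2 hc
  refine ⟨a * v, a * u, fun d₁ d₂ hd₁ hd₂ => ?_⟩
  have c1 : Nat.Coprime d₁ q₂ := Nat.Coprime.coprime_dvd_left hd₁ hc
  have c2 : Nat.Coprime d₁ d₂ := Nat.Coprime.coprime_dvd_right hd₂ c1
  have c3 : Nat.Coprime q₁ d₂ := Nat.Coprime.coprime_dvd_right hd₂ hc
  have hcc : Nat.Coprime (d₁ * q₁) (d₂ * q₂) :=
    Nat.Coprime.mul_left (Nat.Coprime.mul_right c2 c1) (Nat.Coprime.mul_right c3 hc)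
  rw [gl_mul γ c2 (Nat.pos_of_dvd_of_pos hd₁ h₁) (Nat.pos_of_dvd_of_pos hd₂ h₂),
    ← Del_mul h (gl_per hγ d₁) (gl_per hγ d₂) h₁ h₂ hcc]
  congr 1
  linear_combination (-a) * huv

theorem norm_Del_one (γ : ℕ → ℕ → ℤ → ℝ) (q : ℕ) (a : ℤ) : ‖Del h (gl γ 1) 1 q a‖ ≤ 1 := by
  unfold Del
  refine norm_av_le _ _ 1 zero_le_one fun m => ?_
  rw [gl_one, norm_mul, norm_e]
  simp

theorem gl_sm (hγ : ∀ p : ℕ, p.Prime → LocAt h σ p (γ p)) (q : ℕ) (hq : 1 ≤ q) :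
    ∀ d : ℕ, d ∣ q → ∀ a : ℤ,
      ‖Del h (gl γ d) d q a‖ ≤ 2 ^ d.primeFactors.card * (d : ℝ) ^ (-σ) := by
  induction q using Nat.recOnPrimeCoprime with
  | zero => omega
  | prime_pow p n hp =>
    intro d hd a
    obtain ⟨j, -, rfl⟩ := (Nat.dvd_prime_pow hp).1 hd
    rcases Nat.eq_zero_or_pos j with rfl | hj
    · simpa using norm_Del_one γ (p ^ n) a
    · rw [gl_pp hγ hp, Nat.primeFactors_prime_pow hj.ne' hp, card_singleton, pow_one]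
      exact (hγ p hp).sm n j a hj
  | coprime q₁ q₂ h₁ h₂ hc ih₁ ih₂ =>
    intro d hd a
    obtain ⟨d₁, d₂, hd₁, hd₂, rfl⟩ := exists_dvd_and_dvd_of_dvd_mul hd
    obtain ⟨a₁, a₂, ha⟩ := Del_split hγ h₁.le h₂.le hc a
    have c2 : Nat.Coprime d₁ d₂ :=
      Nat.Coprime.coprime_dvd_right hd₂ (Nat.Coprime.coprime_dvd_left hd₁ hc)
    rw [ha d₁ d₂ hd₁ hd₂, norm_mul, c2.primeFactors_mul,
      card_union_of_disjoint c2.disjoint_primeFactors, pow_add, Nat.cast_mul,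
      Real.mul_rpow (Nat.cast_nonneg _) (Nat.cast_nonneg _)]
    calc _ ≤ (2 ^ d₁.primeFactors.card * (d₁ : ℝ) ^ (-σ)) *
          (2 ^ d₂.primeFactors.card * (d₂ : ℝ) ^ (-σ)) :=
          mul_le_mul (ih₁ h₁.le d₁ hd₁ a₁) (ih₂ h₂.le d₂ hd₂ a₂) (norm_nonneg _) (by positivity)
      _ = _ := by ring

theorem gl_pos (hγ : ∀ p : ℕ, p.Prime → LocAt h σ p (γ p)) (q : ℕ) (hq : 1 ≤ q) :
    ∀ a : ℤ, ∃ lam : ℝ, 0 ≤ lam ∧ ∑ d ∈ q.divisors, Del h (gl γ d) d q a = (lam : ℂ) := by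
  induction q using Nat.recOnPrimeCoprime with
  | zero => omega
  | prime_pow p n hp =>
    intro a
    rw [Nat.sum_divisors_prime_pow hp]
    simp only [gl_pp hγ hp]
    exact (hγ p hp).pos n a
  | coprime q₁ q₂ h₁ h₂ hc ih₁ ih₂ =>
    intro a
    obtain ⟨a₁, a₂, ha⟩ := Del_split hγ h₁.le h₂.le hc a
    obtain ⟨l₁, hl₁, e₁⟩ := ih₁ h₁.le a₁
    obtain ⟨l₂, hl₂, e₂⟩ := ih₂ h₂.le a₂
    refine ⟨l₁ * l₂, mul_nonneg hl₁ hl₂, ?_⟩
    rw [Complex.ofReal_mul, ← e₁, ← e₂, sum_mul_sum, ← sum_product', Nat.divisors_mul, mul_def,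
      sum_image hc.mul_injOn_divisors]
    refine sum_congr rfl fun x hx => ?_
    rw [mem_product] at hx
    exact ha _ _ (Nat.dvd_of_mem_divisors hx.1) (Nat.dvd_of_mem_divisors hx.2)

theorem good_of_loc (hσ : 0 < σ) (hγ : ∀ p : ℕ, p.Prime → LocAt h σ p (γ p)) :
    Good h (gl γ) := by
  refine ⟨gl_one γ, gl_per hγ, gl_bd hγ, fun d hd => gl_van hγ (by omega) le_rfl
    (fun h => by have := Nat.le_of_dvd one_pos h; omega) 0, σ, hσ, fun ε hε => ?_⟩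
  obtain ⟨C, hC, hdiv⟩ := divisor_bound (ε / 2) (by positivity)
  refine ⟨C ^ 2, by positivity, fun q hq a Q hQ => ?_⟩
  obtain ⟨lam, hl, e⟩ := gl_pos hγ q hq a
  refine ⟨lam, hl, ?_⟩
  have e1 : ∑ d ∈ Icc 1 Q, Del h (gl γ d) d q a =
      ∑ d ∈ q.divisors with d ≤ Q, Del h (gl γ d) d q a := by
    symm
    refine sum_subset (fun d hd => ?_) fun d hd hn => ?_
    · rw [mem_filter] at hd
      exact mem_Icc.2 ⟨Nat.pos_of_mem_divisors hd.1, hd.2⟩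
    · rw [mem_Icc] at hd
      refine gl_van hγ hd.1 hq (fun hdq => hn ?_) a
      exact mem_filter.2 ⟨Nat.mem_divisors.2 ⟨hdq, by omega⟩, hd.2⟩
  rw [e1, ← e, ← sum_filter_add_sum_filter_not q.divisors (fun d => d ≤ Q), sub_add_cancel_left,
    norm_neg]
  have hq0 : (0 : ℝ) < q := by exact_mod_cast hq
  have hQ0 : (0 : ℝ) < Q := by exact_mod_cast hQ
  have hb : ∀ d ∈ q.divisors.filter fun d => ¬ d ≤ Q,
      ‖Del h (gl γ d) d q a‖ ≤ (q.divisors.card : ℝ) * (Q : ℝ) ^ (-σ) := by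
    intro d hd
    rw [mem_filter] at hd
    have hdq := Nat.dvd_of_mem_divisors hd.1
    have hd1 := Nat.pos_of_mem_divisors hd.1
    refine (gl_sm hγ q hq d hdq a).trans (mul_le_mul ?_ ?_ (by positivity) (by positivity))
    · have h1 := two_pow_omega_le d hd1
      have h2 : d.divisors.card ≤ q.divisors.card :=
        card_le_card (Nat.divisors_subset_of_dvd (by omega) hdq)
      exact_mod_cast h1.trans h2
    · refine Real.rpow_le_rpow_of_nonpos hQ0 ?_ (by linarith)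
      exact_mod_cast (not_le.1 hd.2).le
  refine (norm_sum_le _ _).trans ((sum_le_card_nsmul _ _ _ hb).trans ?_)
  rw [nsmul_eq_mul]
  have h1 : ((q.divisors.filter fun d => ¬ d ≤ Q).card : ℝ) ≤ q.divisors.card := by
    exact_mod_cast card_filter_le _ _
  have h2 := hdiv q
  have h3 : (q : ℝ) ^ ε = (q : ℝ) ^ (ε / 2) * (q : ℝ) ^ (ε / 2) := by
    rw [← Real.rpow_add hq0]; congr 1; ring
  calc _ ≤ (C * (q : ℝ) ^ (ε / 2)) * ((C * (q : ℝ) ^ (ε / 2)) * (Q : ℝ) ^ (-σ)) := by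
        gcongr
        exact h1.trans h2
    _ = _ := by rw [h3]; ring

end Vale.Agent.P042U
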