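import Vale.Agent.P042U.Hua
import Vale.Agent.P042U.Div

/-! Local weights for an odd polynomial. -/

namespace Vale.Agent.P042U

open Polynomial Finset

/-- the local weight: a scaled Ramanujan sum -/
noncomputable def gam (σ : ℝ) (p j : ℕ) (m : ℤ) : ℝ :=
  if j = 0 then 1 else ((p : ℝ) ^ (-σ)) ^ j *
    ((if ((p ^ j : ℕ) : ℤ) ∣ m then (p : ℝ) ^ j else 0) -
      (if ((p ^ (j - 1) : ℕ) : ℤ) ∣ m then (p : ℝ) ^ (j - 1) else 0))

theorem odd_av_single {n : ℕ} (hn : 0 < n) {G : ℤ → ℂ}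
    (hG : ∀ r : ℕ, 0 < r → r < n → G r = 0) : av n G = G 0 / n := by
  unfold av
  rw [Finset.sum_eq_single 0, Nat.cast_zero]
  · intro r hr hr0
    exact hG r (Nat.pos_of_ne_zero hr0) (mem_range.1 hr)
  · intro h0
    exact absurd (mem_range.2 hn) h0

/-- the multiplier of the indicator of the multiples of `n` -/
theorem Del_ind (h : ℤ[X]) (n d q : ℕ) (hn : n ∣ d) (hd : 1 ≤ d) (hq : 1 ≤ q) (a : ℤ) :
    Del h (fun m => if (n : ℤ) ∣ m then (n : ℝ) else 0) d q a =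
      th (C a * h.comp (C (n : ℤ) * X)) q := by
  obtain ⟨d', rfl⟩ := hn
  have hn0 : 0 < n := Nat.pos_of_ne_zero (by rintro rfl; simp at hd)
  have hd' : 1 ≤ d' := Nat.pos_of_ne_zero (by rintro rfl; simp at hd)
  have hnC : (n : ℂ) ≠ 0 := by exact_mod_cast hn0.ne'
  unfold Del
  rw [mul_assoc, av_split]
  have key : av (d' * q) (fun y => (n : ℂ) *
      e ((((C a * h.comp (C (n : ℤ) * X)).eval y : ℤ)) / (q : ℝ))) =
      n * th (C a * h.comp (C (n : ℤ) * X)) q := by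
    rw [av_smul, mul_comm d' q, av_mul_of_per (per_e _ q) d' hd']
    rfl
  rw [odd_av_single hn0, div_eq_iff hnC, mul_comm _ (n : ℂ), ← key]
  · refine congrArg (av (d' * q)) (funext fun y => ?_)
    beta_reduce
    rw [add_zero, if_pos (dvd_mul_right _ _), eval_mul, eval_C, eval_comp, eval_mul, eval_C, eval_X,
      Complex.ofReal_natCast]
  · intro r hr0 hr'
    have hnd : ∀ y : ℤ, ¬ (n : ℤ) ∣ n * y + r := fun y hy => by
      have h1 : (n : ℤ) ∣ r := (dvd_add_right (dvd_mul_right _ _)).1 hy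
      have h2 : n ∣ r := by exact_mod_cast h1
      exact absurd (Nat.le_of_dvd hr0 h2) (by omega)
    simp only [if_neg (hnd _), Complex.ofReal_zero, zero_mul]
    unfold av
    rw [sum_const_zero, zero_div]

theorem th_odd_im (f : ℤ[X]) (hf : ∀ x, f.eval (-x) = -f.eval x) (q : ℕ) : (th f q).im = 0 := by
  rw [← Complex.conj_eq_iff_im]
  have h1 := av_affine (per_e f q) (-1) 0 (isCoprime_one_left.neg_left)
  unfold th
  rw [← h1]
  conv_lhs => rw [h1]
  unfold av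
  rw [map_div₀, map_sum, Complex.conj_natCast]
  congr 1
  refine sum_congr rfl fun m _ => ?_
  rw [← e_neg]
  congr 1
  rw [neg_one_mul, add_zero, hf]
  push_cast
  ring

theorem th_eq_one (f : ℤ[X]) (q : ℕ) (hq : 1 ≤ q) (hf : ∀ l, (q : ℤ) ∣ f.coeff l) :
    th f q = 1 := by
  obtain ⟨g, rfl⟩ := (C_dvd_iff_dvd_coeff (q : ℤ) f).2 hf
  unfold th
  rw [← av_const q hq 1]
  congr 1
  funext m
  have hq0 : (q : ℝ) ≠ 0 := by exact_mod_cast (by omega : q ≠ 0)
  rw [← e_int (g.eval m)]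
  congr 1
  rw [eval_mul, eval_C]
  push_cast
  field_simp

/-- the complete sum along multiples of `p ^ j` -/
noncomputable def oddT (h : ℤ[X]) (p s : ℕ) (a : ℤ) (j : ℕ) : ℂ :=
  th (C a * h.comp (C ((p ^ j : ℕ) : ℤ) * X)) (p ^ s)

theorem oddT_coeff (h : ℤ[X]) (n a : ℤ) (l : ℕ) :
    (C a * h.comp (C n * X)).coeff l = a * (h.coeff l * n ^ l) := by
  rw [coeff_C_mul, comp_C_mul_X_coeff]

theorem oddT_norm (h : ℤ[X]) (p s : ℕ) (a : ℤ) (j : ℕ) : ‖oddT h p s a j‖ ≤ 1 :=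
  norm_av_le _ _ 1 zero_le_one fun _ => (norm_e _).le

theorem oddT_zero (h : ℤ[X]) (σ : ℝ) {p : ℕ} (hp : 1 ≤ p) (s : ℕ) (a : ℤ) :
    Del h (gam σ p 0) (p ^ 0) (p ^ s) a = oddT h p s a 0 := by
  unfold oddT
  rw [← Del_ind h (p ^ 0) (p ^ 0) (p ^ s) dvd_rfl (Nat.one_le_pow _ _ hp) (Nat.one_le_pow _ _ hp)]
  congr 1
  funext m
  simp [gam]

theorem oddT_succ (h : ℤ[X]) (σ : ℝ) {p : ℕ} (hp : 1 ≤ p) (s : ℕ) (a : ℤ) (j : ℕ) :
    Del h (gam σ p (j + 1)) (p ^ (j + 1)) (p ^ s) a =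
      ((((p : ℝ) ^ (-σ)) ^ (j + 1) : ℝ) : ℂ) * (oddT h p s a (j + 1) - oddT h p s a j) := by
  unfold oddT
  rw [← Del_ind h (p ^ (j + 1)) (p ^ (j + 1)) (p ^ s) dvd_rfl (Nat.one_le_pow _ _ hp)
      (Nat.one_le_pow _ _ hp),
    ← Del_ind h (p ^ j) (p ^ (j + 1)) (p ^ s) (pow_dvd_pow p (Nat.le_succ j))
      (Nat.one_le_pow _ _ hp) (Nat.one_le_pow _ _ hp)]
  unfold Del
  rw [← av_sub, ← av_smul]
  congr 1
  funext m
  simp only [gam, Nat.add_one_ne_zero, if_false, Nat.add_sub_cancel]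
  rw [← sub_mul, ← mul_assoc, ← Complex.ofReal_sub, ← Complex.ofReal_mul]
  simp only [Nat.cast_pow]

theorem oddT_one {h : ℤ[X]} {p s : ℕ} (hp : 1 ≤ p) {a : ℤ} {j : ℕ}
    (hj : ∀ l, (p : ℤ) ^ s ∣ a * (h.coeff l * ((p : ℤ) ^ j) ^ l)) : oddT h p s a j = 1 := by
  refine th_eq_one _ _ (Nat.one_le_pow _ _ hp) fun l => ?_
  rw [oddT_coeff]
  push_cast
  exact hj l

theorem oddT_mono {h : ℤ[X]} {p s : ℕ} {a : ℤ} {j j' : ℕ} (hjj : j ≤ j')
    (hj : ∀ l, (p : ℤ) ^ s ∣ a * (h.coeff l * ((p : ℤ) ^ j) ^ l)) :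
    ∀ l, (p : ℤ) ^ s ∣ a * (h.coeff l * ((p : ℤ) ^ j') ^ l) := fun l =>
  (hj l).trans (mul_dvd_mul_left _ (mul_dvd_mul_left _
    (pow_dvd_pow_of_dvd (pow_dvd_pow _ hjj) l)))

theorem oddT_top {h : ℤ[X]} (h0 : h.coeff 0 = 0) (p s : ℕ) (a : ℤ) :
    ∀ l, (p : ℤ) ^ s ∣ a * (h.coeff l * ((p : ℤ) ^ s) ^ l) := fun l => by
  rcases Nat.eq_zero_or_pos l with rfl | hl
  · simp [h0]
  · exact Dvd.dvd.mul_left (Dvd.dvd.mul_left (dvd_pow_self _ hl.ne') _) _

theorem odd_loc (h : ℤ[X]) (hodd : ∀ x, h.eval (-x) = -h.eval x) :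
    ∃ σ : ℝ, 0 < σ ∧ ∀ p : ℕ, p.Prime → LocAt h σ p (gam σ p) := by
  obtain ⟨η, hη, hhua⟩ := hua_pp h.natDegree
  obtain ⟨σ, hσ, hsig⟩ := exists_sigma η hη
  have h0 : h.coeff 0 = 0 := by
    have := hodd 0
    rw [neg_zero] at this
    rw [coeff_zero_eq_eval_zero]
    omega
  refine ⟨σ, hσ, fun p hp => ?_⟩
  have hp1 : 1 ≤ p := hp.one_lt.le
  have hp2 : (2 : ℝ) ≤ p := by exact_mod_cast hp.two_le
  have hτ0 : 0 ≤ (p : ℝ) ^ (-σ) := by positivity
  have hτ1 : (p : ℝ) ^ (-σ) ≤ 1 :=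
    Real.rpow_le_one_of_one_le_of_nonpos (by linarith) (by linarith)
  refine ⟨fun m => by simp [gam], fun j m => ?_, fun j m => ?_, fun s j a hsj => ?_,
    fun s j a hj => ?_, fun s a => ?_⟩
  · have h1 : ((p ^ (j - 1) : ℕ) : ℤ) ∣ ((p ^ j : ℕ) : ℤ) := by
      exact_mod_cast pow_dvd_pow p (Nat.sub_le j 1)
    simp only [gam, dvd_add_left h1, dvd_add_self_right]
  · have hj1 : (1 : ℝ) ≤ (p : ℝ) ^ j := one_le_pow₀ (by linarith)
    have hj2 : (p : ℝ) ^ (j - 1) ≤ (p : ℝ) ^ j := pow_le_pow_right₀ (by linarith) (Nat.sub_le j 1)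
    have hj3 : (0 : ℝ) < (p : ℝ) ^ (j - 1) := by positivity
    have hsq : (p : ℝ) ^ j ≤ ((p : ℝ) ^ j) ^ 2 := by nlinarith
    rw [Nat.cast_pow]
    unfold gam
    by_cases hj0 : j = 0
    · rw [if_pos hj0, abs_one]; linarith
    · rw [if_neg hj0, abs_mul, abs_of_nonneg (pow_nonneg hτ0 j)]
      refine le_trans (mul_le_of_le_one_left (abs_nonneg _) (pow_le_one₀ hτ0 hτ1)) ?_
      refine le_trans ?_ hsq
      rw [abs_le]
      constructor <;> split_ifs <;> linarith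
  · obtain ⟨j, rfl⟩ : ∃ j', j = j' + 1 := ⟨j - 1, by omega⟩
    rw [oddT_succ h σ hp1, oddT_one hp1 (oddT_mono (by omega) (oddT_top h0 p s a)),
      oddT_one hp1 (oddT_mono (by omega) (oddT_top h0 p s a)), sub_self, mul_zero]
  · obtain ⟨j, rfl⟩ : ∃ j', j = j' + 1 := ⟨j - 1, by omega⟩
    rw [oddT_succ h σ hp1, norm_mul, Complex.norm_real, Real.norm_of_nonneg (pow_nonneg hτ0 _),
      Nat.cast_pow, ← Real.rpow_pow_comm (by positivity), mul_comm]
    refine mul_le_mul_of_nonneg_right ?_ (pow_nonneg hτ0 _)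
    refine (norm_sub_le _ _).trans ?_
    linarith [oddT_norm h p s a (j + 1), oddT_norm h p s a j]
  · classical
    set τ := (p : ℝ) ^ (-σ) with hτ
    let t : ℕ → ℝ := fun j => (oddT h p s a j).re
    have ht : ∀ j, oddT h p s a j = (t j : ℂ) := fun j => by
      apply Complex.ext
      · simp [t]
      · rw [Complex.ofReal_im]
        refine th_odd_im _ (fun x => ?_) _
        simp only [eval_mul, eval_C, eval_comp, eval_X]
        rw [mul_neg, hodd, mul_neg]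
    let lam : ℕ → ℝ := fun n => (1 - τ) * ∑ j ∈ range n, τ ^ j * t j + τ ^ n * t n
    have hstep : ∀ n, lam (n + 1) = lam n + τ ^ (n + 1) * (t (n + 1) - t n) := fun n => by
      simp only [lam, sum_range_succ]; ring
    have hsum : ∀ n, ∑ j ∈ range (n + 1), Del h (gam σ p j) (p ^ j) (p ^ s) a = (lam n : ℂ) := by
      intro n
      induction n with
      | zero => rw [sum_range_one, oddT_zero h σ hp1, ht]; simp [lam]
      | succ n ih =>
        rw [sum_range_succ, ih, oddT_succ h σ hp1, ht, ht, hstep, ← hτ]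
        push_cast; ring
    refine ⟨lam s, ?_, hsum s⟩
    have hex : ∃ j, ∀ l, (p : ℤ) ^ s ∣ a * (h.coeff l * ((p : ℤ) ^ j) ^ l) :=
      ⟨s, oddT_top h0 p s a⟩
    set J := Nat.find hex with hJ
    have hJs : J ≤ s := Nat.find_min' hex (oddT_top h0 p s a)
    have hone : ∀ j, J ≤ j → t j = 1 := fun j hj => by
      simp only [t]
      rw [oddT_one hp1 (oddT_mono hj (Nat.find_spec hex)), Complex.one_re]
    have hconst : ∀ n, J ≤ n → lam n = lam J := by
      intro n hn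
      induction n, hn using Nat.le_induction with
      | base => rfl
      | succ n hn ih => rw [hstep, ih, hone n hn, hone (n + 1) (by omega)]; ring
    rw [hconst s hJs]
    have hsmall : ∀ j ∈ range J, -(τ ^ j * (2 * ((p : ℝ) ^ (-η)) ^ (J - j))) ≤ τ ^ j * t j := by
      intro j hj
      have hj' := mem_range.1 hj
      have hmin := Nat.find_min hex (show J - 1 < J by omega)
      push Not at hmin
      obtain ⟨l, hl⟩ := hmin
      have hl1 : 1 ≤ l := Nat.pos_of_ne_zero (by rintro rfl; simp [h0] at hl)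
      have hdeg : (C a * h.comp (C ((p ^ j : ℕ) : ℤ) * X)).natDegree ≤ h.natDegree := by
        refine (natDegree_C_mul_le _ _).trans (natDegree_comp_le.trans ?_)
        refine (Nat.mul_le_mul_left _ ((natDegree_C_mul_le _ _).trans natDegree_X_le)).trans ?_
        rw [mul_one]
      have hb := hhua _ hdeg p hp s (J - 1 - j) l hl1 (fun hd => hl (hd.trans (by
        rw [oddT_coeff]
        push_cast
        rw [← pow_mul, ← pow_mul, mul_left_comm, mul_left_comm ((p : ℤ) ^ (J - 1 - j)),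
          ← pow_add]
        refine mul_dvd_mul_left _ (mul_dvd_mul_left _ (pow_dvd_pow _ ?_))
        obtain ⟨i, hi⟩ : ∃ i, J - 1 = j + i := ⟨J - 1 - j, by omega⟩
        rw [hi, Nat.add_sub_cancel_left, add_mul]
        nlinarith)))
      rw [show J - 1 - j + 1 = J - j by omega] at hb
      have h2 : |t j| ≤ 2 * ((p : ℝ) ^ (-η)) ^ (J - j) :=
        (Complex.abs_re_le_norm _).trans hb
      have h3 := mul_le_mul_of_nonneg_left (abs_le.1 h2).1 (pow_nonneg hτ0 j)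
      linarith
    have h4 := sum_le_sum hsmall
    rw [sum_neg_distrib] at h4
    have h5 := hsig p hp2 J
    rw [← hτ] at h5
    have h6 := mul_le_mul_of_nonneg_left h4 (sub_nonneg.2 hτ1)
    simp only [lam]
    rw [hone J le_rfl]
    linarith

end Vale.Agent.P042U
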