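import Vale.Agent.P042U.OddLoc
import Vale.Agent.P042U.MultB
import Vale.Agent.P042U.Glob

/-! Power saving for odd polynomials. -/

namespace Vale.Agent.P042U

open Polynomial Finset

theorem ps_odd (h : ℤ[X]) (hk : 2 ≤ h.natDegree) (hl : 0 < h.leadingCoeff) (t : ℤ)
    (hodd : ∀ x, h.eval (t + x) = -h.eval (t - x)) : PS h := by
  have h1 : ∀ x, (h.comp (C ((1 : ℕ) : ℤ) * X + C t)).eval (-x) =
      -(h.comp (C ((1 : ℕ) : ℤ) * X + C t)).eval x := by
    intro x
    simp only [eval_comp, eval_add, eval_mul, eval_C, eval_X, Nat.cast_one, one_mul]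
    have := hodd (-x)
    rw [show -x + t = t + -x by ring, this, show t - -x = x + t by ring]
  obtain ⟨σ, hσ, hloc⟩ := odd_loc _ h1
  exact glob hk hl 1 le_rfl t (good_of_loc hσ hloc)

end Vale.Agent.P042U
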