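import Vale.Agent.P042U.SepLoc
import Vale.Agent.P042U.MultB
import Vale.Agent.P042U.Glob

/-! Separable intersective polynomials with symmetric weights. -/

namespace Vale.Agent.P042U

open Polynomial Finset

theorem SepW.eval_aff (h : ℤ[X]) (W ρ m : ℤ) :
    (h.comp (C W * X + C ρ)).eval m = h.eval (W * m + ρ) := by
  simp [eval_comp]

theorem SepW.eval_der (h : ℤ[X]) (W ρ m : ℤ) :
    (h.comp (C W * X + C ρ)).derivative.eval m = W * h.derivative.eval (W * m + ρ) := by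
  rw [derivative_comp]
  simp [eval_comp]

theorem SepW.cop {p : ℕ} (hp : p.Prime) {W : ℤ} (hW : ¬ (p : ℤ) ∣ W) : IsCoprime W (p : ℤ) := by
  have hp' : Prime (p : ℤ) := Nat.prime_iff_prime_int.mp hp
  exact ((Prime.coprime_iff_not_dvd hp').mpr hW).symm

theorem Sym.comp {h : ℤ[X]} {η : ℝ} {p : ℕ} {G : ℤ → ℝ} (hp : p.Prime) (hG : Sym h η p G)
    (W ρ : ℤ) (hW : ¬ (p : ℤ) ∣ W) :
    Sym (h.comp (C W * X + C ρ)) η p (fun m => G (W * m + ρ)) := by
  have hp' : Prime (p : ℤ) := Nat.prime_iff_prime_int.mp hp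
  have hc := SepW.cop hp hW
  have key : ∀ a : ℤ, av p (fun m => ((G (W * m + ρ) : ℝ) : ℂ) *
      e ((a * (h.comp (C W * X + C ρ)).eval m : ℤ) / (p : ℝ))) =
      av p (fun m => (G m : ℂ) * e ((a * h.eval m : ℤ) / (p : ℝ))) := by
    intro a
    have hper : Function.Periodic
        (fun m : ℤ => (G m : ℂ) * e ((a * h.eval m : ℤ) / (p : ℝ))) (p : ℤ) := by
      intro m
      have h1 := hG.per m
      have h2 := per_e' h p a m
      simp only at h1 h2 ⊢
      rw [h1, h2]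
    rw [← av_affine hper W ρ hc]
    simp only [SepW.eval_aff]
  refine ⟨?_, fun m => hG.bd _, ?_, ?_, ?_, ?_⟩
  · intro m
    have := hG.per.int_mul W (W * m + ρ)
    simp only [Int.cast_id] at this
    simp only
    rw [← this]; congr 1; ring
  · intro m hm
    rw [SepW.eval_der]
    intro hd
    rcases hp'.dvd_or_dvd hd with h1 | h1
    · exact hW h1
    · exact hG.supp _ hm h1
  · have hper : Function.Periodic (fun m : ℤ => (G m : ℂ)) (p : ℤ) := by
      intro m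
      have h1 := hG.per m
      simp only at h1 ⊢
      rw [h1]
    rw [← hG.mean, ← av_affine hper W ρ hc]
  · intro a
    rw [key]; exact hG.real a
  · intro a ha
    rw [key]; exact hG.small a ha

theorem SepW.coeff_aff (h : ℤ[X]) (W ρ : ℤ) (l : ℕ) :
    (h.comp (C W * X + C ρ)).coeff l = (taylor ρ h).coeff l * W ^ l := by
  rw [← comp_C_mul_X_coeff, taylor_apply, comp_assoc]
  simp

theorem unif_comp (h A B : ℤ[X]) (R : ℤ) (hR : R ≠ 0) (hAB : A * h + B * h.derivative = C R)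
    (K : ℤ) (hK : K ≠ 0) (ρ : ℤ) (hρ : (R ^ 2 * K) ^ 2 ∣ h.eval ρ) (p : ℕ) (hp : p.Prime)
    (hpW : (p : ℤ) ∣ R ^ 2 * K) : Unif (h.comp (C (R ^ 2 * K) * X + C ρ)) p := by
  have hp' : Prime (p : ℤ) := Nat.prime_iff_prime_int.mp hp
  have hp0 : (p : ℤ) ≠ 0 := hp'.ne_zero
  obtain ⟨W, hWd⟩ : ∃ W, W = R ^ 2 * K := ⟨_, rfl⟩
  rw [← hWd] at hρ hpW ⊢
  have hW0 : W ≠ 0 := by rw [hWd]; exact mul_ne_zero (pow_ne_zero _ hR) hK
  obtain ⟨v, r, hr, hRv⟩ := WfDvdMonoid.max_power_factor hR hp'.irreducible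
  obtain ⟨L, w, hw, hWL⟩ := WfDvdMonoid.max_power_factor hW0 hp'.irreducible
  have hv1 : (p : ℤ) ^ (v + 1) ∣ W := by
    rcases Nat.eq_zero_or_pos v with h0 | h0
    · rw [h0]; simpa using hpW
    · have h1 : (p : ℤ) ^ (v + 1) ∣ (p : ℤ) ^ (v * 2) := pow_dvd_pow _ (by omega)
      refine h1.trans ?_
      rw [hWd, hRv, mul_pow, ← pow_mul, mul_assoc]
      exact dvd_mul_right _ _
  have hvL : v + 1 ≤ L := by
    rw [hWL] at hv1
    have h1 := hp'.pow_dvd_of_dvd_mul_right (v + 1) hw hv1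
    exact (pow_dvd_pow_iff hp0 hp'.not_isUnit).mp h1
  have hev : A.eval ρ * h.eval ρ + B.eval ρ * h.derivative.eval ρ = R := by
    have := congrArg (Polynomial.eval ρ) hAB
    simpa using this
  have hnd : ¬ (p : ℤ) ^ (v + 1) ∣ h.derivative.eval ρ := by
    intro hd
    have h1 : (p : ℤ) ^ (v + 1) ∣ h.eval ρ :=
      hv1.trans ((dvd_pow_self W (by norm_num)).trans hρ)
    have h2 : (p : ℤ) ^ (v + 1) ∣ R := by
      rw [← hev]; exact dvd_add (h1.mul_left _) (hd.mul_left _)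
    rw [hRv, pow_succ] at h2
    exact hr ((mul_dvd_mul_iff_left (pow_ne_zero _ hp0)).mp h2)
  have hc0 : h.derivative.eval ρ ≠ 0 := by
    intro h0; rw [h0] at hnd; exact hnd (dvd_zero _)
  obtain ⟨v', u, hu, hcv⟩ := WfDvdMonoid.max_power_factor hc0 hp'.irreducible
  have hv' : v' ≤ v := by
    by_contra hlt
    apply hnd
    rw [hcv]
    exact (pow_dvd_pow _ (by omega)).mul_right _
  have hW2 : (p : ℤ) ^ (L + v' + 1) ∣ W ^ 2 := by
    rw [hWL, mul_pow, ← pow_mul]
    exact (pow_dvd_pow _ (by omega)).mul_right _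
  have hc1 : (h.comp (C W * X + C ρ)).coeff 1 = (p : ℤ) ^ (L + v') * (u * w) := by
    rw [SepW.coeff_aff, taylor_coeff_one, hcv, pow_one]
    conv_lhs => rw [hWL]
    ring
  have hc2 : ∀ l, l ≠ 1 → (p : ℤ) ^ (L + v' + 1) ∣ (h.comp (C W * X + C ρ)).coeff l := by
    intro l hl
    rw [SepW.coeff_aff]
    rcases Nat.eq_zero_or_pos l with h0 | h0
    · rw [h0, taylor_coeff_zero]
      exact (hW2.trans hρ).mul_right _
    · exact (hW2.trans (pow_dvd_pow _ (by omega))).mul_left _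
  have hdv : C ((p : ℤ) ^ (L + v')) ∣ h.comp (C W * X + C ρ) := by
    rw [C_dvd_iff_dvd_coeff]
    intro l
    by_cases hl : l = 1
    · rw [hl, hc1]; exact dvd_mul_right _ _
    · exact (pow_dvd_pow _ (by omega)).trans (hc2 l hl)
  obtain ⟨F, hF⟩ := hdv
  refine ⟨L + v', F, hF, ?_, ?_⟩
  · rw [hF, coeff_C_mul] at hc1
    rw [mul_left_cancel₀ (pow_ne_zero _ hp0) hc1]
    intro hd
    rcases hp'.dvd_or_dvd hd with h1 | h1
    · exact hu h1
    · exact hw h1
  · intro l hl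
    have h1 := hc2 l (by omega)
    rw [hF, coeff_C_mul, pow_succ] at h1
    exact (mul_dvd_mul_iff_left (pow_ne_zero _ hp0)).mp h1

theorem ps_sep (h : ℤ[X]) (hk : 2 ≤ h.natDegree) (hl : 0 < h.leadingCoeff)
    (hint : ∀ q : ℕ, 1 ≤ q → ∃ t : ℤ, (q : ℤ) ∣ h.eval t)
    (A B : ℤ[X]) (R : ℤ) (hR : R ≠ 0) (hAB : A * h + B * h.derivative = C R)
    (η : ℝ) (hη : 0 < η) (p₁ : ℕ) (hsym : ∀ p : ℕ, p.Prime → p₁ < p → ∃ G, Sym h η p G) :
    PS h := by
  obtain ⟨σ, hσ, p₀, hloc⟩ := sep_loc h.natDegree η hη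
  obtain ⟨K, hK⟩ : ∃ K : ℕ, K = (max p₀ p₁).factorial := ⟨_, rfl⟩
  have hK0 : 0 < K := by rw [hK]; exact Nat.factorial_pos _
  have hKz : (K : ℤ) ≠ 0 := by exact_mod_cast hK0.ne'
  have hWpos : 0 < R ^ 2 * (K : ℤ) := by
    have : (0 : ℤ) < K := by exact_mod_cast hK0
    positivity
  obtain ⟨W, hW⟩ : ∃ W : ℕ, (W : ℤ) = R ^ 2 * (K : ℤ) :=
    ⟨(R ^ 2 * (K : ℤ)).toNat, Int.toNat_of_nonneg hWpos.le⟩
  have hW1 : 1 ≤ W := by
    have : (0 : ℤ) < W := by rw [hW]; exact hWpos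
    exact_mod_cast this
  obtain ⟨ρ, hρ⟩ := hint (W ^ 2) (Nat.one_le_pow _ _ hW1)
  have hρ' : (R ^ 2 * (K : ℤ)) ^ 2 ∣ h.eval ρ := by
    rw [← hW]; exact_mod_cast hρ
  have hall : ∀ p : ℕ, ∃ γ : ℕ → ℤ → ℝ, p.Prime →
      LocAt (h.comp (C (W : ℤ) * X + C ρ)) σ p γ := by
    intro p
    by_cases hp : p.Prime
    swap
    · exact ⟨fun _ _ => 0, fun h' => absurd h' hp⟩
    have hp' : Prime (p : ℤ) := Nat.prime_iff_prime_int.mp hp
    by_cases hpW : (p : ℤ) ∣ (W : ℤ)
    · refine ⟨_, fun _ => unif_loc hp ?_ σ⟩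
      rw [hW] at hpW ⊢
      exact unif_comp h A B R hR hAB K hKz ρ hρ' p hp hpW
    · have hpK : max p₀ p₁ < p := by
        by_contra hle
        push Not at hle
        apply hpW
        rw [hW]
        refine Dvd.dvd.mul_left ?_ _
        rw [hK]
        exact_mod_cast (hp.dvd_factorial).mpr hle
      obtain ⟨G, hG⟩ := hsym p hp (lt_of_le_of_lt (le_max_right _ _) hpK)
      obtain ⟨r, hr⟩ := hint p hp.one_lt.le
      have hr' : ¬ (p : ℤ) ∣ h.derivative.eval r := by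
        intro hd
        have hev : A.eval r * h.eval r + B.eval r * h.derivative.eval r = R := by
          have := congrArg (Polynomial.eval r) hAB
          simpa using this
        have h2 : (p : ℤ) ∣ R := by
          rw [← hev]; exact dvd_add (hr.mul_left _) (hd.mul_left _)
        apply hpW
        rw [hW, pow_two, mul_assoc]
        exact h2.mul_right _
      obtain ⟨s, t, hst⟩ := SepW.cop hp hpW
      have hx : (p : ℤ) ∣ (W * (s * (r - ρ)) + ρ) - r :=
        ⟨-(t * (r - ρ)), by linear_combination (r - ρ) * hst⟩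
      have hdeg : (h.comp (C (W : ℤ) * X + C ρ)).natDegree ≤ h.natDegree := by
        refine natDegree_comp_le.trans ?_
        have : (C (W : ℤ) * X + C ρ).natDegree ≤ 1 := natDegree_linear_le
        calc _ ≤ h.natDegree * 1 := Nat.mul_le_mul_left _ this
          _ = _ := mul_one _
      obtain ⟨γ, hγ⟩ := hloc _ hdeg p hp (lt_of_le_of_lt (le_max_left _ _) hpK) _
        (hG.comp hp W ρ hpW) (s * (r - ρ)) (by
          rw [SepW.eval_aff]
          have h1 := hx.trans (sub_dvd_eval_sub _ _ h)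
          have h2 := dvd_add h1 hr
          simpa using h2) (by
          rw [SepW.eval_der]
          intro hd
          rcases hp'.dvd_or_dvd hd with h1 | h1
          · exact hpW h1
          · apply hr'
            have h2 := hx.trans (sub_dvd_eval_sub _ _ h.derivative)
            have h3 := dvd_sub h1 h2
            simpa using h3)
      exact ⟨γ, fun _ => hγ⟩
  choose γ hγ using hall
  exact glob hk hl W hW1 ρ (good_of_loc hσ hγ)

end Vale.Agent.P042U
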