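import Vale.Agent.P042U.YSum
import Vale.Agent.P042U.SepW

/-! Quadratic polynomials with nonzero discriminant. -/

namespace Vale.Agent.P042U

open Polynomial Finset

theorem Quad.fib (p : ℕ) [Fact p.Prime] (hp : p ≠ 2) (A B D : ZMod p) (hA : A ≠ 0)
    (f : ZMod p → ℂ) :
    ∑ x : ZMod p, (if (2 * A * x + B) ^ 2 - D ∈ YY p D then f ((2 * A * x + B) ^ 2 - D) else 0) =
      2 * ∑ y ∈ YY p D, f y := by
  have h2 := YSum.two p hp
  have h1 : ∑ x : ZMod p,
      (if (2 * A * x + B) ^ 2 - D ∈ YY p D then f ((2 * A * x + B) ^ 2 - D) else 0) =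
      ∑ u : ZMod p, (if u ^ 2 - D ∈ YY p D then f (u ^ 2 - D) else 0) :=
    Fintype.sum_bijective (fun x => 2 * A * x + B)
      ((AddGroup.addRight_bijective B).comp (mulLeft_bijective₀ _ (mul_ne_zero h2 hA))) _ _
      fun _ => rfl
  rw [h1, ← Finset.sum_fiberwise (univ : Finset (ZMod p)) (fun u => u ^ 2 - D)]
  have h3 : ∑ y ∈ YY p D, f y = ∑ y : ZMod p, (if y ∈ YY p D then f y else 0) := by
    rw [Finset.sum_ite_mem, univ_inter]
  rw [h3, Finset.mul_sum]
  refine Finset.sum_congr rfl fun y _ => ?_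
  rw [Finset.sum_congr rfl (g := fun _ => if y ∈ YY p D then f y else 0)]
  · rw [sum_const, nsmul_eq_mul]
    by_cases hy : y ∈ YY p D
    · congr 1
      have h4 := quadraticChar_card_sqrts (YSum.rc p hp) (D + y)
      rw [(quadraticChar_one_iff_isSquare (mem_YY.mp hy).1).mpr (mem_YY.mp hy).2.1] at h4
      have h5 : (univ.filter (fun u : ZMod p => u ^ 2 - D = y)) =
          {x : ZMod p | x ^ 2 = D + y}.toFinset := by
        ext u
        simp only [mem_filter, mem_univ, true_and, Set.mem_toFinset, Set.mem_ofPred_eq]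
        constructor
        · intro h; linear_combination h
        · intro h; linear_combination h
      rw [h5]
      have h6 := congrArg (fun n : ℤ => (n : ℂ)) h4
      simp only [Int.cast_natCast, Int.cast_add, Int.cast_one] at h6
      rw [h6]; norm_num
    · rw [if_neg hy, mul_zero, mul_zero]
  · intro u hu
    simp only [mem_filter, mem_univ, true_and] at hu
    rw [hu]

theorem Quad.rp (p : ℝ) (hp : 16 ^ 8 ≤ p) :
    2 * p ^ (3 / 4 : ℝ) / (p / 8) ≤ p ^ (-(1 / 8 : ℝ)) := by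
  have hp0 : 0 < p := lt_of_lt_of_le (by norm_num) hp
  have h1 : (16 : ℝ) ≤ p ^ (1 / 8 : ℝ) := by
    have h2 : ((16 : ℝ) ^ 8) ^ (1 / 8 : ℝ) ≤ p ^ (1 / 8 : ℝ) :=
      Real.rpow_le_rpow (by norm_num) hp (by norm_num)
    rw [← Real.rpow_natCast, ← Real.rpow_mul (by norm_num)] at h2
    norm_num at h2 ⊢
    exact h2
  have h3 : p ^ (-(1 / 8 : ℝ)) * p = p ^ (1 / 8 : ℝ) * p ^ (3 / 4 : ℝ) := by
    rw [← Real.rpow_add_one hp0.ne', ← Real.rpow_add hp0]
    norm_num
  rw [div_le_iff₀ (by positivity)]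
  have h4 : 0 < p ^ (3 / 4 : ℝ) := Real.rpow_pos_of_pos hp0 _
  nlinarith

theorem quad_sym (a b c : ℤ) (ha : a ≠ 0) (hD : b ^ 2 - 4 * a * c ≠ 0) : ∃ p₁ : ℕ, ∀ p : ℕ,
    p.Prime → p₁ < p → ∃ G, Sym (C a * X ^ 2 + C b * X + C c) (1 / 8) p G := by
  refine ⟨16 ^ 8 + a.natAbs + (b ^ 2 - 4 * a * c).natAbs, fun p hp hp₁ => ?_⟩
  have : Fact p.Prime := ⟨hp⟩
  have hp10 : 10 ≤ p := by omega
  have hp2 : p ≠ 2 := by omega
  have hnz : ∀ n : ℤ, n ≠ 0 → n.natAbs < p → (n : ZMod p) ≠ 0 := by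
    intro n hn hlt h0
    rw [ZMod.intCast_zmod_eq_zero_iff_dvd] at h0
    have := Nat.le_of_dvd (Int.natAbs_pos.mpr hn) (Int.natCast_dvd.mp h0)
    omega
  have hA : (a : ZMod p) ≠ 0 := hnz a ha (by omega)
  obtain ⟨D, hDd⟩ : ∃ D : ZMod p, D = ((b ^ 2 - 4 * a * c : ℤ) : ZMod p) := ⟨_, rfl⟩
  have hD0 : D ≠ 0 := by rw [hDd]; exact hnz _ hD (by omega)
  have h2 := YSum.two p hp2
  have h4 : (4 : ZMod p) ≠ 0 := by
    rw [show (4 : ZMod p) = 2 * 2 by norm_num]; exact mul_ne_zero h2 h2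
  have hcard := YY_card p hp10 D hD0
  have hp0 : (0 : ℝ) < p := by exact_mod_cast hp.pos
  have hY0 : (0 : ℝ) < (YY p D).card := by linarith
  have hY1 : (1 : ℝ) ≤ (YY p D).card := by
    have : 0 < (YY p D).card := by exact_mod_cast hY0
    exact_mod_cast this
  have hYc : ((YY p D).card : ℂ) ≠ 0 := by exact_mod_cast hY0.ne'
  have hpc : (p : ℂ) ≠ 0 := by exact_mod_cast hp.ne_zero
  obtain ⟨g, hg⟩ : ∃ g : ZMod p → ℝ, g = fun x =>
      if (2 * (a : ZMod p) * x + b) ^ 2 - D ∈ YY p D then (p : ℝ) / (2 * (YY p D).card) else 0 :=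
    ⟨_, rfl⟩
  have key : ∀ f : ZMod p → ℂ,
      av p (fun m => (g (m : ZMod p) : ℂ) * f ((2 * (a : ZMod p) * (m : ZMod p) + b) ^ 2 - D)) =
        (∑ y ∈ YY p D, f y) / (YY p D).card := by
    intro f
    rw [av_eq_zmod p (fun x => (g x : ℂ) * f ((2 * (a : ZMod p) * x + b) ^ 2 - D))]
    have h5 : ∑ x : ZMod p, (g x : ℂ) * f ((2 * (a : ZMod p) * x + b) ^ 2 - D) =
        (p : ℂ) / (2 * (YY p D).card) * ∑ x : ZMod p,
          (if (2 * (a : ZMod p) * x + b) ^ 2 - D ∈ YY p D then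
            f ((2 * (a : ZMod p) * x + b) ^ 2 - D) else 0) := by
      rw [Finset.mul_sum]
      refine Finset.sum_congr rfl fun x _ => ?_
      rw [hg]
      simp only
      split_ifs
      · push_cast; ring
      · simp
    rw [h5, Quad.fib p hp2 _ _ D hA f]
    field_simp
  have key2 : ∀ n : ℤ, av p (fun m => (g (m : ZMod p) : ℂ) *
      e ((n * (C a * X ^ 2 + C b * X + C c : ℤ[X]).eval m : ℤ) / (p : ℝ))) =
      (∑ y ∈ YY p D, ZMod.stdAddChar ((n : ZMod p) / (4 * (a : ZMod p)) * y)) / (YY p D).card := by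
    intro n
    rw [← key (fun y => ZMod.stdAddChar ((n : ZMod p) / (4 * (a : ZMod p)) * y))]
    congr 1
    funext m
    rw [e_eq_std]
    congr 2
    rw [hDd]
    simp only [eval_add, eval_mul, eval_C, eval_pow, eval_X]
    push_cast
    field_simp
    ring
  refine ⟨fun m => g (m : ZMod p), ?_, ?_, ?_, ?_, ?_, ?_⟩
  · intro m
    simp
  · intro m
    rw [hg]
    simp only
    split_ifs
    · rw [abs_of_nonneg (by positivity), div_le_iff₀ (by positivity)]
      nlinarith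
    · simp
  · intro m hm hd
    apply hm
    rw [hg]
    simp only
    rw [if_neg]
    intro hy
    apply (mem_YY.mp hy).1
    rw [← ZMod.intCast_zmod_eq_zero_iff_dvd] at hd
    simp only [derivative_add, derivative_mul, derivative_C, derivative_X_pow, derivative_X,
      eval_add, eval_mul, eval_C, eval_pow, eval_X, zero_mul, eval_zero, eval_one] at hd
    push_cast at hd
    have h6 : 2 * (a : ZMod p) * (m : ZMod p) + b = 0 := by linear_combination hd
    rw [h6]; ring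
  · have := key (fun _ => 1)
    simp only [mul_one, sum_const, nsmul_eq_mul] at this
    rw [this, div_self hYc]
  · intro n
    rw [key2, Complex.div_natCast_im, YY_im, zero_div]
  · intro n hn
    have hn0 : (n : ZMod p) ≠ 0 := by
      rw [Ne, ZMod.intCast_zmod_eq_zero_iff_dvd]; exact hn
    have h7 := YY_sum p hp10 D hD0 _ (div_ne_zero hn0 (mul_ne_zero h4 hA))
    rw [key2, norm_div, Complex.norm_natCast]
    have h8 : (16 : ℝ) ^ 8 ≤ p := by exact_mod_cast (by omega : 16 ^ 8 ≤ p)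
    refine le_trans ?_ (Quad.rp p h8)
    exact div_le_div₀ (by positivity) h7 (by positivity) (by linarith)

theorem ps_quad (h : ℤ[X]) (hk : h.natDegree = 2) (hl : 0 < h.leadingCoeff)
    (hint : ∀ q : ℕ, 1 ≤ q → ∃ t : ℤ, (q : ℤ) ∣ h.eval t)
    (hD : h.coeff 1 ^ 2 - 4 * h.coeff 2 * h.coeff 0 ≠ 0) : PS h := by
  have ha : h.coeff 2 ≠ 0 := by
    rw [← hk]; exact hl.ne'
  have hh : h = C (h.coeff 2) * X ^ 2 + C (h.coeff 1) * X + C (h.coeff 0) := by
    conv_lhs => rw [h.as_sum_range_C_mul_X_pow, hk]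
    simp only [Finset.sum_range_succ, Finset.sum_range_zero, pow_zero, pow_one, mul_one, zero_add]
    ring
  obtain ⟨a, hA⟩ : ∃ a, a = h.coeff 2 := ⟨_, rfl⟩
  obtain ⟨b, hB⟩ : ∃ b, b = h.coeff 1 := ⟨_, rfl⟩
  obtain ⟨c, hC⟩ : ∃ c, c = h.coeff 0 := ⟨_, rfl⟩
  rw [← hA, ← hB, ← hC] at hh hD
  rw [← hA] at ha
  obtain ⟨p₁, hp₁⟩ := quad_sym a b c ha hD
  refine ps_sep h hk.ge hl hint (C (-4 * a)) h.derivative _ hD ?_ (1 / 8) (by norm_num) p₁
    (by rw [hh]; exact hp₁)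
  rw [hh]
  simp only [derivative_add, derivative_mul, derivative_C, derivative_X_pow, derivative_X,
    zero_mul]
  simp only [map_sub, map_mul, map_pow, map_neg, eq_intCast, Int.cast_ofNat, Nat.cast_ofNat]
  ring

end Vale.Agent.P042U
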