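import Vale.Agent.P042U.Unif
import Vale.Agent.P042U.Hua

/-! Local weights at a good prime. -/

namespace Vale.Agent.P042U

open Polynomial Finset

theorem sep_one (h : ℤ[X]) (d q : ℕ) (hd : 1 ≤ d) (a : ℤ) :
    Del h (fun _ => 1) d q a = th (C a * h) q := by
  unfold Del th
  rw [mul_comm d q]
  simp only [Complex.ofReal_one, one_mul, eval_mul, eval_C]
  exact av_mul_of_per (per_e' h q a) d hd

theorem sep_sub (h : ℤ[X]) (w : ℤ → ℝ) (d q : ℕ) (a : ℤ) :
    Del h (fun m => w m - 1) d q a = Del h w d q a - Del h (fun _ => 1) d q a := by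
  unfold Del
  rw [← av_sub]
  congr 1
  funext m
  push_cast
  ring

theorem sep_zero (h : ℤ[X]) (d q : ℕ) (a : ℤ) : Del h (fun _ => 0) d q a = 0 := by
  simp [Del, av]

theorem sep_red (h : ℤ[X]) (p : ℕ) (hp : p.Prime) : ∀ (s : ℕ) (a : ℤ), ∃ (s' : ℕ) (a' : ℤ),
    (s' = 0 ∨ ¬ (p : ℤ) ∣ a') ∧ ∀ g : ℤ → ℝ, Function.Periodic g (p : ℤ) →
      Del h g p (p ^ s) a = Del h g p (p ^ s') a' := by
  intro s
  induction s with
  | zero => exact fun a => ⟨0, a, Or.inl rfl, fun _ _ => rfl⟩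
  | succ s ih =>
    intro a
    by_cases ha : (p : ℤ) ∣ a
    · obtain ⟨b, rfl⟩ := ha
      obtain ⟨s', a', h1, h2⟩ := ih b
      refine ⟨s', a', h1, fun g hg => ?_⟩
      rw [← h2 g hg, pow_succ, mul_comm (p : ℤ) b]
      exact Del_cancel h g p (p ^ s) p hp.pos hg b
    · exact ⟨s + 1, a, Or.inr ha, fun _ _ => rfl⟩

theorem sep_ind (p : ℕ) (hp : 1 ≤ p) (ρ : ℤ) (F : ℤ → ℂ) (hF : Function.Periodic F (p : ℤ)) :
    av p (fun m => (if (p : ℤ) ∣ m - ρ then (p : ℂ) else 0) * F m) = F ρ := by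
  have hper : Function.Periodic (fun m : ℤ => (if (p : ℤ) ∣ m - ρ then (p : ℂ) else 0) * F m)
      (p : ℤ) := by
    intro x
    beta_reduce
    rw [hF x]
    congr 1
    refine if_congr ?_ rfl rfl
    rw [add_sub_right_comm]
    exact dvd_add_self_right
  rw [← av_shift hper ρ]
  unfold av
  rw [sum_eq_single 0]
  · have : (p : ℂ) ≠ 0 := Nat.cast_ne_zero.mpr (by omega)
    simp only [Nat.cast_zero, zero_add, sub_self, dvd_zero, if_true]
    field_simp
  · intro b hb hb0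
    beta_reduce
    rw [add_sub_cancel_right, if_neg, zero_mul]
    intro hd
    have := Nat.le_of_dvd (Nat.pos_of_ne_zero hb0) (Int.natCast_dvd_natCast.mp hd)
    have := mem_range.mp hb
    omega
  · intro h0
    exact absurd (mem_range.mpr (by omega)) h0

theorem sep_q1 (h : ℤ[X]) (g : ℤ → ℝ) (d : ℕ) (a : ℤ) :
    Del h g d 1 a = av d (fun m => (g m : ℂ)) := by
  unfold Del
  rw [mul_one]
  congr 1
  funext m
  rw [Nat.cast_one, div_one, e_int, mul_one]

theorem sep_unit (h : ℤ[X]) (p : ℕ) (ρ : ℤ) (hρ : ¬ (p : ℤ) ∣ h.derivative.eval ρ) :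
    ∃ l, 1 ≤ l ∧ ¬ (p : ℤ) ∣ h.coeff l := by
  by_contra hc
  push Not at hc
  apply hρ
  have : C (p : ℤ) ∣ h.derivative := by
    rw [C_dvd_iff_dvd_coeff]
    intro i
    rw [coeff_derivative]
    exact (hc (i + 1) (by omega)).mul_right _
  have := eval_dvd (x := ρ) this
  rwa [eval_C] at this

theorem sep_w (h : ℤ[X]) (η : ℝ) (hη : 0 < η) (p : ℕ) (hp : p.Prime) (G : ℤ → ℝ)
    (hG : Sym h η p G) (ρ : ℤ) (h0 : (p : ℤ) ∣ h.eval ρ)
    (h1 : ¬ (p : ℤ) ∣ h.derivative.eval ρ) : ∃ w : ℤ → ℝ, Function.Periodic w (p : ℤ) ∧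
    (∀ m, |w m| ≤ p) ∧ av p (fun m => (w m : ℂ)) = 1 ∧
    ∀ (s : ℕ) (a : ℤ), ¬ (p : ℤ) ∣ a → ∃ lam : ℝ, 0 ≤ lam ∧ lam ≤ 2 * (p : ℝ) ^ (-η) ∧
      Del h w p (p ^ (s + 1)) a = lam := by
  obtain ⟨τ, hτ⟩ : ∃ τ : ℝ, τ = (p : ℝ) ^ (-η) := ⟨_, rfl⟩
  have hp1 : (1 : ℝ) ≤ p := by exact_mod_cast hp.one_le
  have hτ0 : 0 ≤ τ := by rw [hτ]; positivity
  have hτ1 : τ ≤ 1 := by rw [hτ]; exact Real.rpow_le_one_of_one_le_of_nonpos hp1 (by linarith)
  obtain ⟨w, hw⟩ : ∃ w : ℤ → ℝ,
      w = fun m => (1 - τ) * G m + τ * (if (p : ℤ) ∣ m - ρ then (p : ℝ) else 0) := ⟨_, rfl⟩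
  have hwp : Function.Periodic w (p : ℤ) := by
    intro x
    rw [hw]
    beta_reduce
    rw [hG.per x]
    congr 2
    refine if_congr ?_ rfl rfl
    rw [add_sub_right_comm]
    exact dvd_add_self_right
  have hav : ∀ F : ℤ → ℂ, Function.Periodic F (p : ℤ) →
      av p (fun m => (w m : ℂ) * F m) = (1 - τ) * av p (fun m => (G m : ℂ) * F m) + τ * F ρ := by
    intro F hF
    rw [← sep_ind p hp.one_le ρ F hF, ← av_smul, ← av_smul, ← av_add]
    congr 1
    funext m
    rw [hw]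
    beta_reduce
    split_ifs <;> push_cast <;> ring
  refine ⟨w, hwp, ?_, ?_, ?_⟩
  · intro m
    rw [hw]
    beta_reduce
    have a1 := abs_le.mp (hG.bd m)
    have a2 := mul_le_mul_of_nonneg_left a1.1 (sub_nonneg.mpr hτ1)
    have a3 := mul_le_mul_of_nonneg_left a1.2 (sub_nonneg.mpr hτ1)
    have a4 : 0 ≤ τ * p := by positivity
    rw [abs_le]
    split_ifs <;> constructor <;> nlinarith
  · have := hav (fun _ => 1) (fun _ => rfl)
    simp only [mul_one] at this
    rw [this, hG.mean]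
    ring
  · intro s a ha
    rw [← hτ]
    rcases s with _ | s
    · have hF := per_e' h p a
      have e1 : Del h w p (p ^ (0 + 1)) a =
          av p (fun m => (w m : ℂ) * e ((a * h.eval m : ℤ) / (p : ℝ))) := by
        unfold Del
        rw [zero_add, pow_one]
        refine av_mul_of_per ?_ p hp.one_le
        intro x
        have b2 := hF x
        beta_reduce at b2 ⊢
        rw [b2, hwp x]
      have e2 : e ((a * h.eval ρ : ℤ) / (p : ℝ)) = 1 := by
        obtain ⟨c, hc⟩ := h0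
        rw [← e_int (a * c)]
        congr 1
        rw [hc]
        push_cast
        field_simp
      have e3 := hav _ hF
      beta_reduce at e3
      rw [e1, e3, e2]
      have b1 := hG.real a
      have b2 := hG.small a ha
      rw [← hτ] at b2
      generalize av p (fun m => (G m : ℂ) * e ((a * h.eval m : ℤ) / (p : ℝ))) = z at b1 b2
      have b3 := abs_le.mp ((Complex.abs_re_le_norm z).trans b2)
      have b4 : z = (z.re : ℂ) := by
        apply Complex.ext <;> simp [b1]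
      refine ⟨(1 - τ) * z.re + τ, by nlinarith, by nlinarith, ?_⟩
      rw [b4]
      simp
    · refine ⟨0, le_rfl, by positivity, ?_⟩
      rw [Complex.ofReal_zero]
      refine stat_phase h p hp w hwp ?_ s a ha
      intro m hm
      by_cases hd : (p : ℤ) ∣ m - ρ
      · intro hd2
        apply h1
        have := hd.trans (sub_dvd_eval_sub m ρ h.derivative)
        exact (dvd_iff_dvd_of_dvd_sub this).mp hd2
      · refine hG.supp m fun hz => hm ?_
        rw [hw]
        beta_reduce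
        rw [hz, if_neg hd]
        ring

theorem sep_loc (k : ℕ) (η : ℝ) (hη : 0 < η) : ∃ σ : ℝ, 0 < σ ∧ ∃ p₀ : ℕ, ∀ h : ℤ[X],
    h.natDegree ≤ k → ∀ p : ℕ, p.Prime → p₀ < p → ∀ G : ℤ → ℝ, Sym h η p G → ∀ ρ : ℤ,
    (p : ℤ) ∣ h.eval ρ → ¬ (p : ℤ) ∣ h.derivative.eval ρ → ∃ γ : ℕ → ℤ → ℝ, LocAt h σ p γ := by
  obtain ⟨η', hη', hH⟩ := hua_pp k
  obtain ⟨σ, hσ⟩ : ∃ σ : ℝ, σ = min η η' / 2 := ⟨_, rfl⟩
  have hσ0 : 0 < σ := by rw [hσ]; have := lt_min hη hη'; linarith
  have hσ1 : 2 * σ ≤ η := by rw [hσ]; have := min_le_left η η'; linarith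
  have hσ2 : 2 * σ ≤ η' := by rw [hσ]; have := min_le_right η η'; linarith
  refine ⟨σ, hσ0, ⌈(2 : ℝ) ^ (1 / σ)⌉₊, ?_⟩
  intro h hk p hp hp0 G hG ρ h0 h1
  have hp1 : (1 : ℝ) ≤ p := by exact_mod_cast hp.one_le
  have hp2 : (2 : ℝ) ≤ p := by exact_mod_cast hp.two_le
  have hpz : Prime (p : ℤ) := Nat.prime_iff_prime_int.mp hp
  have hx : (p : ℝ) ^ (-σ) ≤ 1 / 2 := by
    have a1 : (2 : ℝ) ^ (1 / σ) ≤ p := (Nat.le_ceil _).trans (by exact_mod_cast hp0.le)
    have a2 : ((2 : ℝ) ^ (1 / σ)) ^ σ ≤ (p : ℝ) ^ σ :=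
      Real.rpow_le_rpow (by positivity) a1 hσ0.le
    rw [← Real.rpow_mul (by norm_num), one_div_mul_cancel hσ0.ne', Real.rpow_one] at a2
    rw [Real.rpow_neg (by linarith), one_div]
    exact inv_anti₀ (by norm_num) a2
  have hx0 : 0 ≤ (p : ℝ) ^ (-σ) := by positivity
  have hy : ∀ t : ℝ, 2 * σ ≤ t → 2 * (p : ℝ) ^ (-t) ≤ (p : ℝ) ^ (-σ) := by
    intro t ht
    have a1 : (p : ℝ) ^ (-t) ≤ (p : ℝ) ^ (-σ + -σ) :=
      Real.rpow_le_rpow_of_exponent_le hp1 (by linarith)
    rw [Real.rpow_add (by linarith)] at a1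
    nlinarith
  obtain ⟨w, hwp, hwb, hw1, hw⟩ := sep_w h η hη p hp G hG ρ h0 h1
  obtain ⟨l, hl, hl'⟩ := sep_unit h p ρ h1
  have key : ∀ (s : ℕ) (a : ℤ), ∃ lam : ℝ, 0 ≤ lam ∧ Del h w p (p ^ s) a = lam ∧
      ‖Del h w p (p ^ s) a - Del h (fun _ => 1) p (p ^ s) a‖ ≤ 2 * (p : ℝ) ^ (-σ) := by
    intro s a
    obtain ⟨s', a', hs, hr⟩ := sep_red h p hp s a
    rw [hr w hwp, hr (fun _ => 1) (fun _ => rfl)]
    rcases s' with _ | s'
    · rw [pow_zero, sep_q1, sep_q1, hw1, Complex.ofReal_one, av_const p hp.one_le, sub_self,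
        norm_zero]
      exact ⟨1, zero_le_one, by simp, by positivity⟩
    · have ha : ¬ (p : ℤ) ∣ a' := hs.resolve_left (Nat.succ_ne_zero _)
      obtain ⟨lam, b1, b2, b3⟩ := hw s' a' ha
      refine ⟨lam, b1, b3, ?_⟩
      rw [b3, sep_one h p _ hp.one_le]
      have c1 := hH (C a' * h) ((natDegree_C_mul_le _ _).trans hk) p hp (s' + 1) 0 l hl (by
        rw [pow_zero, one_mul, coeff_C_mul]
        intro hd
        rcases hpz.dvd_or_dvd ((dvd_pow_self _ (Nat.succ_ne_zero s')).trans hd) with h3 | h3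
        · exact ha h3
        · exact hl' h3)
      rw [zero_add, pow_one] at c1
      refine (norm_sub_le _ _).trans ?_
      rw [Complex.norm_real, Real.norm_eq_abs, abs_of_nonneg b1]
      have := hy η hσ1
      have := hy η' hσ2
      linarith
  refine ⟨fun j => if j = 0 then fun _ => 1 else if j = 1 then fun m => w m - 1 else fun _ => 0,
    fun m => by simp, ?_, ?_, ?_, ?_, ?_⟩
  · intro j x
    rcases j with _ | _ | j
    · rfl
    · simp only [zero_add, one_ne_zero, if_false, if_true, pow_one]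
      rw [hwp x]
    · rw [if_neg (by omega), if_neg (by omega)]
  · intro j m
    rcases j with _ | _ | j
    · simp
    · simp only [zero_add, one_ne_zero, if_false, if_true, pow_one]
      have := abs_le.mp (hwb m)
      rw [abs_le]
      constructor <;> nlinarith
    · rw [if_neg (by omega), if_neg (by omega), abs_zero]
      positivity
  · intro s j a hj
    rcases j with _ | _ | j
    · omega
    · obtain rfl : s = 0 := by omega
      simp only [zero_add, one_ne_zero, if_false, if_true, pow_one, pow_zero]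
      rw [sep_sub, sep_q1, sep_q1, hw1, Complex.ofReal_one, av_const p hp.one_le, sub_self]
    · rw [if_neg (by omega), if_neg (by omega)]
      exact sep_zero _ _ _ _
  · intro s j a hj
    rcases j with _ | _ | j
    · omega
    · simp only [zero_add, one_ne_zero, if_false, if_true, pow_one]
      obtain ⟨lam, -, -, b3⟩ := key s a
      rw [sep_sub]
      exact b3
    · rw [if_neg (by omega), if_neg (by omega), sep_zero, norm_zero]
      positivity
  · intro s a
    rcases s with _ | s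
    · refine ⟨1, zero_le_one, ?_⟩
      rw [zero_add, sum_range_one, if_pos rfl, pow_zero, sep_q1, Complex.ofReal_one,
        av_const 1 le_rfl]
    · obtain ⟨lam, b1, b2, -⟩ := key (s + 1) a
      refine ⟨lam, b1, ?_⟩
      rw [sum_range_succ', sum_range_succ', sum_eq_zero (fun j _ => by
        rw [if_neg (by omega), if_neg (by omega)]
        exact sep_zero _ _ _ _)]
      simp only [zero_add, one_ne_zero, if_false, if_true, pow_one, pow_zero]
      rw [sep_sub, sep_one h p _ hp.one_le, sep_one h 1 _ le_rfl, b2]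
      ring

end Vale.Agent.P042U
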