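import Vale.Agent.P042U.Av

/-! Primes at which the polynomial is uniform, and stationary phase. -/

namespace Vale.Agent.P042U

open Polynomial Finset

theorem inj_of_lin (F : ℤ[X]) (p : ℕ) (hp : p.Prime) (h1 : ¬ (p : ℤ) ∣ F.coeff 1)
    (h2 : ∀ l, 2 ≤ l → (p : ℤ) ∣ F.coeff l) (s : ℕ) (x y : ℤ) :
    ((p ^ s : ℕ) : ℤ) ∣ F.eval x - F.eval y ↔ ((p ^ s : ℕ) : ℤ) ∣ x - y := by
  have hd : C (p : ℤ) ∣ F - C (F.coeff 0) - C (F.coeff 1) * X := by
    rw [C_dvd_iff_dvd_coeff]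
    intro l
    rw [coeff_sub, coeff_sub, coeff_C_mul, coeff_C, coeff_X]
    rcases l with _ | _ | l
    · simp
    · simp
    · have := h2 (l + 2) (by omega)
      rw [if_neg (by omega), if_neg (by omega), mul_zero, sub_zero, sub_zero]
      exact this
  obtain ⟨G, hG⟩ := hd
  obtain ⟨k, hk⟩ := sub_dvd_eval_sub x y G
  have hx := congrArg (eval x) hG
  have hy := congrArg (eval y) hG
  simp only [eval_sub, eval_mul, eval_C, eval_X] at hx hy
  have e1 : F.eval x - F.eval y = (x - y) * (F.coeff 1 + p * k) := by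
    linear_combination hx - hy + (p : ℤ) * hk
  have hpz : Prime (p : ℤ) := Nat.prime_iff_prime_int.mp hp
  have hc : IsCoprime ((p ^ s : ℕ) : ℤ) (F.coeff 1 + p * k) := by
    push_cast
    refine IsCoprime.pow_left ?_
    rw [hpz.coprime_iff_not_dvd]
    intro h
    exact h1 ((dvd_add_left (dvd_mul_right _ _)).mp h)
  rw [e1]
  exact ⟨fun h => hc.dvd_of_dvd_mul_right h, fun h => h.mul_right _⟩

theorem av_unif (F : ℤ[X]) (p : ℕ) (hp : p.Prime) (h1 : ¬ (p : ℤ) ∣ F.coeff 1)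
    (h2 : ∀ l, 2 ≤ l → (p : ℤ) ∣ F.coeff l) (s : ℕ) (a : ℤ) :
    av (p ^ s) (fun m => e ((a * F.eval m : ℤ) / ((p ^ s : ℕ) : ℝ))) =
      if ((p ^ s : ℕ) : ℤ) ∣ a then 1 else 0 := by
  have hper : Function.Periodic (fun m : ℤ => e ((a * m : ℤ) / ((p ^ s : ℕ) : ℝ)))
      ((p ^ s : ℕ) : ℤ) := by
    simpa only [eval_X] using per_e' X (p ^ s) a
  rw [← av_lin (p ^ s) (Nat.one_le_pow _ _ hp.pos) a]
  exact av_comp hper (fun m => F.eval m) (inj_of_lin F p hp h1 h2 s)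

theorem unif_loc {h : ℤ[X]} {p : ℕ} (hp : p.Prime) (hu : Unif h p) (σ : ℝ) :
    LocAt h σ p (fun j _ => if j = 0 then 1 else 0) := by
  obtain ⟨t, F, hF, h1, h2⟩ := hu
  have hz : ∀ (d q : ℕ) (a : ℤ), Del h (fun _ => 0) d q a = 0 := by
    intro d q a
    simp [Del, av]
  refine ⟨fun m => by simp, fun j x => rfl, ?_, ?_, ?_, ?_⟩
  · intro j m
    rcases Nat.eq_zero_or_pos j with rfl | hj
    · simp
    · rw [if_neg hj.ne', abs_zero]
      positivity
  · intro s j a hj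
    simp only [if_neg (show j ≠ 0 by omega)]
    exact hz _ _ _
  · intro s j a hj
    simp only [if_neg (show j ≠ 0 by omega)]
    rw [hz, norm_zero]
    positivity
  · intro s a
    refine ⟨if ((p ^ s : ℕ) : ℤ) ∣ a * (p : ℤ) ^ t then 1 else 0, by split_ifs <;> norm_num, ?_⟩
    rw [sum_range_succ', sum_eq_zero (fun j _ => by
      simp only [if_neg (Nat.succ_ne_zero j)]
      exact hz _ _ _), zero_add]
    have := av_unif F p hp h1 h2 s (a * (p : ℤ) ^ t)
    unfold Del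
    rw [pow_zero, one_mul]
    have e1 : (fun m : ℤ => (((if (0 : ℕ) = 0 then 1 else 0 : ℝ)) : ℂ) *
        e ((a * h.eval m : ℤ) / ((p ^ s : ℕ) : ℝ))) =
        fun m : ℤ => e ((a * (p : ℤ) ^ t * F.eval m : ℤ) / ((p ^ s : ℕ) : ℝ)) := by
      funext m
      rw [if_pos rfl, hF, eval_mul, eval_C, mul_assoc]
      simp
    rw [e1, this]
    split_ifs <;> simp

theorem unif_taylor (h : ℤ[X]) (p : ℕ) (r : ℤ) : ∃ F : ℤ[X],
    (∀ y : ℤ, h.eval (p * y + r) = h.eval r + p * F.eval y) ∧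
    ((p : ℤ) ∣ F.coeff 1 → (p : ℤ) ∣ h.derivative.eval r) ∧ ∀ l, 2 ≤ l → (p : ℤ) ∣ F.coeff l := by
  obtain ⟨T, hT⟩ : ∃ T, T = taylor r h := ⟨_, rfl⟩
  have a0 : T.coeff 0 = h.eval r := by rw [hT, taylor_coeff_zero]
  have a1 : T.coeff 1 = h.derivative.eval r := by rw [hT, taylor_coeff_one]
  have b1 := divX_mul_X_add T
  have b2 := divX_mul_X_add (divX T)
  rw [coeff_divX, zero_add, a1] at b2
  rw [a0] at b1
  obtain ⟨U, hU⟩ : ∃ U, U = divX (divX T) := ⟨_, rfl⟩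
  rw [← hU] at b2
  refine ⟨C (h.derivative.eval r) * X + C (p : ℤ) * (X ^ 2 * U.comp (C (p : ℤ) * X)), ?_, ?_, ?_⟩
  · intro y
    have c0 : h.eval (p * y + r) = T.eval (p * y) := by rw [hT, taylor_eval]
    have c1 := congrArg (eval ((p : ℤ) * y)) b1
    have c2 := congrArg (eval ((p : ℤ) * y)) b2
    simp only [eval_add, eval_mul, eval_C, eval_X, eval_pow, eval_comp] at c1 c2 ⊢
    rw [c0, ← c1, ← c2]
    ring
  · intro hd
    rw [coeff_add, coeff_C_mul, coeff_C_mul, coeff_X_one, mul_one] at hd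
    exact (dvd_add_left (dvd_mul_right _ _)).mp hd
  · intro l hl
    rw [coeff_add, coeff_C_mul, coeff_C_mul, coeff_X, if_neg (by omega), mul_zero, zero_add]
    exact dvd_mul_right _ _

/-- stationary phase -/
theorem stat_phase (h : ℤ[X]) (p : ℕ) (hp : p.Prime) (G : ℤ → ℝ)
    (hper : Function.Periodic G (p : ℤ)) (hs : ∀ m, G m ≠ 0 → ¬ (p : ℤ) ∣ h.derivative.eval m)
    (s : ℕ) (a : ℤ) (ha : ¬ (p : ℤ) ∣ a) :
    Del h G p (p ^ (s + 2)) a = 0 := by
  unfold Del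
  rw [av_split]
  have key : ∀ r : ℤ, av (p ^ (s + 2)) (fun y => (G (p * y + r) : ℂ) *
      e ((a * h.eval (p * y + r) : ℤ) / ((p ^ (s + 2) : ℕ) : ℝ))) = 0 := by
    intro r
    have hG : ∀ y : ℤ, G (p * y + r) = G r := by
      intro y
      have := hper.int_mul y r
      rw [← this]
      congr 1
      push_cast
      ring
    simp only [hG]
    rw [av_smul]
    by_cases h0 : G r = 0
    · rw [h0]; simp
    obtain ⟨F, hF, h1, h2⟩ := unif_taylor h p r
    have hp0 : (p : ℝ) ≠ 0 := Nat.cast_ne_zero.mpr hp.ne_zero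
    have e1 : (fun y : ℤ => e ((a * h.eval (p * y + r) : ℤ) / ((p ^ (s + 2) : ℕ) : ℝ))) =
        fun y : ℤ => e ((a * h.eval r : ℤ) / ((p ^ (s + 2) : ℕ) : ℝ)) *
          e ((a * F.eval y : ℤ) / ((p ^ (s + 1) : ℕ) : ℝ)) := by
      funext y
      rw [← e_add, hF y]
      congr 1
      push_cast
      field_simp
      ring
    have hn : ¬ ((p ^ (s + 1) : ℕ) : ℤ) ∣ a := by
      intro hd
      apply ha
      refine dvd_trans ?_ hd
      push_cast
      exact dvd_pow_self _ (Nat.succ_ne_zero s)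
    rw [e1, av_smul, pow_succ p (s + 1), av_mul_of_per (per_e' F (p ^ (s + 1)) a) p hp.pos,
      av_unif F p hp (fun hd => hs r h0 (h1 hd)) h2 (s + 1) a, if_neg hn]
    simp
  simp only [key]
  simp [av]

/-- cancelling a common factor of `a` and `q` -/
theorem Del_cancel (h : ℤ[X]) (g : ℤ → ℝ) (d q n : ℕ) (hn : 1 ≤ n)
    (hper : Function.Periodic g (d : ℤ)) (a : ℤ) :
    Del h g d (q * n) (a * n) = Del h g d q a := by
  unfold Del
  have hn0 : (n : ℝ) ≠ 0 := Nat.cast_ne_zero.mpr (by omega)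
  have e1 : (fun m : ℤ => (g m : ℂ) * e ((a * n * h.eval m : ℤ) / ((q * n : ℕ) : ℝ))) =
      fun m : ℤ => (g m : ℂ) * e ((a * h.eval m : ℤ) / (q : ℝ)) := by
    funext m
    congr 2
    push_cast
    rw [mul_right_comm, mul_div_mul_right _ _ hn0]
  rw [e1, ← mul_assoc]
  refine av_mul_of_per ?_ n hn
  intro x
  have a1 := hper.nat_mul q x
  have a2 := (per_e' h q a).nat_mul d x
  beta_reduce at a2 ⊢
  rw [Nat.cast_mul, a2, mul_comm (d : ℤ) q, a1]

end Vale.Agent.P042U
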