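import Vale.Agent.P042U.Basic

/-! A lemma of Vinogradov type. -/

namespace Vale.Agent.P042U

open Polynomial Finset

theorem vino_cnt (F : Finset ℤ) (c w : ℝ) (hw : 0 ≤ w) (h : ∀ j ∈ F, |(j : ℝ) - c| ≤ w) :
    (F.card : ℝ) ≤ 2 * w + 1 := by
  have h1 : F ⊆ Icc ⌈c - w⌉ ⌊c + w⌋ := fun j hj => by
    have := abs_le.1 (h j hj)
    exact mem_Icc.2 ⟨Int.ceil_le.2 (by linarith [this.1]), Int.le_floor.2 (by linarith [this.2])⟩
  have h2 := card_le_card h1
  rw [Int.card_Icc] at h2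
  rcases le_total 0 (⌊c + w⌋ + 1 - ⌈c - w⌉) with h3 | h3
  · have h4 : (F.card : ℤ) ≤ ⌊c + w⌋ + 1 - ⌈c - w⌉ := by omega
    have h5 : (F.card : ℝ) ≤ (⌊c + w⌋ : ℝ) + 1 - ⌈c - w⌉ := by exact_mod_cast h4
    linarith [Int.floor_le (c + w), Int.le_ceil (c - w)]
  · have h4 : F.card = 0 := by omega
    rw [h4]
    push_cast
    linarith

theorem vino_pair (Y : ℝ) (H : ℕ) (S : Finset ℕ) (hS : S ⊆ Icc 1 H) (hY : 1 ≤ Y)
    (hH : 2 * Y < H) (hc : (H : ℝ) ≤ Y * S.card) :
    ∃ h ∈ S, ∃ q : ℕ, 1 ≤ q ∧ (q : ℝ) ≤ 2 * Y ∧ h + q ∈ S := by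
  by_contra hcon
  push Not at hcon
  set m := ⌊2 * Y⌋₊ + 1 with hm
  have hm0 : 0 < m := Nat.succ_pos _
  have hm1 : 2 * Y < m := by
    rw [hm]; push_cast; exact Nat.lt_floor_add_one _
  have key : ∀ a ∈ S, ∀ b ∈ S, a / m = b / m → a < b → False := by
    intro a ha b hb hab hlt
    have e1 := Nat.div_add_mod a m
    have e2 := Nat.div_add_mod b m
    have e3 := Nat.mod_lt b hm0
    rw [hab] at e1
    refine hcon a ha (b - a) (by omega) ?_ (by rwa [Nat.add_sub_cancel' hlt.le])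
    have : b - a ≤ ⌊2 * Y⌋₊ := by omega
    exact (Nat.le_floor_iff (by linarith)).1 this
  have h1 : S.card ≤ (range (H / m + 1)).card := by
    refine card_le_card_of_injOn (fun a => a / m) (fun a ha => ?_) fun a ha b hb hab => ?_
    · have := Nat.div_le_div_right (c := m) (mem_Icc.1 (hS ha)).2
      simp only [coe_range, Set.mem_Iio]
      omega
    · rcases lt_trichotomy a b with c | c | c
      · exact (key a ha b hb hab c).elim
      · exact c
      · exact (key b hb a ha hab.symm c).elim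
  rw [card_range] at h1
  have h2 : (S.card : ℝ) ≤ ((H / m : ℕ) : ℝ) + 1 := by exact_mod_cast h1
  have h3 : ((H / m : ℕ) : ℝ) * m ≤ H := by exact_mod_cast Nat.div_mul_le_self H m
  have h4 : (0 : ℝ) ≤ ((H / m : ℕ) : ℝ) := Nat.cast_nonneg _
  nlinarith

theorem vino (α ε Y : ℝ) (H : ℕ) (S : Finset ℕ) (hS : S ⊆ Icc 1 H) (hY : 1 ≤ Y) (hε : 0 ≤ ε)
    (hH : 2 * Y < H) (hεY : 8 * Y * ε ≤ 1) (hc : (H : ℝ) ≤ Y * S.card)
    (hα : ∀ h ∈ S, ∃ a : ℤ, |h * α - a| ≤ ε) :
    ∃ q : ℕ, 1 ≤ q ∧ (q : ℝ) ≤ 2 * Y ∧ ∃ a : ℤ, |q * α - a| * H ≤ 64 * Y ^ 2 * ε := by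
  classical
  obtain ⟨h, hh, q, hq1, hq2, hq3⟩ := vino_pair Y H S hS hY hH hc
  choose! A hA using hα
  refine ⟨q, hq1, hq2, A (h + q) - A h, ?_⟩
  set a : ℤ := A (h + q) - A h with ha
  set β : ℝ := q * α - a with hβ
  have hβ2 : |β| ≤ 2 * ε := by
    have h1 := abs_le.1 (hA h hh)
    have h2 := abs_le.1 (hA _ hq3)
    rw [hβ, ha, abs_le]
    push_cast at h2 ⊢
    constructor <;> linarith [h1.1, h1.2, h2.1, h2.2]
  rcases eq_or_lt_of_le (abs_nonneg β) with hb | hb
  · rw [← hb, zero_mul]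
    positivity
  have hβ0 : β ≠ 0 := abs_pos.1 hb
  have hqp : (0 : ℝ) < q := by exact_mod_cast hq1
  have hε1 : ε ≤ 1 / 8 := by nlinarith
  set b : ℕ → ℤ := fun x => A x - a * (x / q : ℕ) with hbd
  have hb1 : ∀ x ∈ S, |(b x : ℝ) - ((x % q : ℕ) * α + (x / q : ℕ) * β)| ≤ ε := by
    intro x hx
    have e1 : (x : ℝ) = q * (x / q : ℕ) + (x % q : ℕ) := by exact_mod_cast (Nat.div_add_mod x q).symm
    have := hA x hx
    rw [abs_sub_comm] at this
    convert this using 2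
    simp only [hbd, hβ, Int.cast_sub, Int.cast_mul, Int.cast_natCast]
    rw [e1]
    simp only [← e1]
    generalize ((x / q : ℕ) : ℝ) = j at e1 ⊢
    generalize ((x % q : ℕ) : ℝ) = r at e1 ⊢
    rw [e1]
    ring
  have hcl : ∀ r : ℕ, ((S.filter fun x => x % q = r).card : ℝ) ≤
      (H / q * |β| + 2) * (4 * ε / |β|) := by
    intro r
    set T := S.filter fun x => x % q = r with hT
    have c1 : ((T.image b).card : ℝ) ≤ H / q * |β| + 2 := by
      refine (vino_cnt _ (r * α + H / q * β / 2) (ε + H / q * |β| / 2) (by positivity)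
        fun j hj => ?_).trans (by linarith)
      obtain ⟨x, hx, rfl⟩ := mem_image.1 hj
      obtain ⟨hx1, hx2⟩ := mem_filter.1 hx
      have d1 := hb1 x hx1
      rw [hx2] at d1
      have d2 : ((x / q : ℕ) : ℝ) ≤ H / q := Nat.cast_div_le.trans
        (div_le_div_of_nonneg_right (by exact_mod_cast (mem_Icc.1 (hS hx1)).2) hqp.le)
      have d3 : (0 : ℝ) ≤ ((x / q : ℕ) : ℝ) := Nat.cast_nonneg _
      have d4 : |((x / q : ℕ) : ℝ) - H / q / 2| ≤ H / q / 2 := abs_le.2 ⟨by linarith, by linarith⟩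
      have d5 : (b x : ℝ) - (r * α + H / q * β / 2) =
          ((b x : ℝ) - (r * α + (x / q : ℕ) * β)) + (((x / q : ℕ) : ℝ) - H / q / 2) * β := by ring
      rw [d5]
      refine (abs_add_le _ _).trans (add_le_add d1 ?_)
      rw [abs_mul]
      refine (mul_le_mul_of_nonneg_right d4 hb.le).trans (le_of_eq (by ring))
    have c2 : ∀ j ∈ T.image b, ((T.filter fun x => b x = j).card : ℝ) ≤ 4 * ε / |β| := by
      intro j _
      have d1 : (T.filter fun x => b x = j).card =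
          ((T.filter fun x => b x = j).image fun x => ((x / q : ℕ) : ℤ)).card := by
        refine (card_image_of_injOn fun x hx y hy hxy => ?_).symm
        have e1 := (mem_filter.1 (mem_filter.1 hx).1).2
        have e2 := (mem_filter.1 (mem_filter.1 hy).1).2
        have e3 : x / q = y / q := by exact_mod_cast hxy
        rw [← Nat.div_add_mod x q, ← Nat.div_add_mod y q, e1, e2, e3]
      rw [d1]
      refine (vino_cnt _ ((j - r * α) / β) (ε / |β|) (by positivity) fun i hi => ?_).trans ?_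
      · obtain ⟨x, hx, rfl⟩ := mem_image.1 hi
        obtain ⟨hx1, hx2⟩ := mem_filter.1 hx
        obtain ⟨hx3, hx4⟩ := mem_filter.1 hx1
        have d2 := hb1 x hx3
        rw [hx2, hx4] at d2
        rw [le_div_iff₀ hb, ← abs_mul]
        rw [abs_sub_comm] at d2
        refine le_trans (le_of_eq ?_) d2
        congr 1
        rw [Int.cast_natCast]
        field_simp
        ring
      · have : 1 ≤ 2 * ε / |β| := (one_le_div hb).2 hβ2
        have e : 4 * ε / |β| = 2 * (ε / |β|) + 2 * ε / |β| := by ring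
        linarith
    rw [card_eq_sum_card_image b T]
    push_cast
    refine (sum_le_card_nsmul _ _ _ c2).trans ?_
    rw [nsmul_eq_mul]
    exact mul_le_mul_of_nonneg_right c1 (by positivity)
  have h1 : (S.card : ℝ) ≤ q * ((H / q * |β| + 2) * (4 * ε / |β|)) := by
    rw [card_eq_sum_card_fiberwise (f := fun x => x % q) (t := range q)
      fun x _ => mem_coe.2 (mem_range.2 (Nat.mod_lt x hq1))]
    push_cast
    refine (sum_le_card_nsmul _ _ _ fun r _ => hcl r).trans ?_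
    rw [nsmul_eq_mul, card_range]
  have h2 : q * ((H / q * |β| + 2) * (4 * ε / |β|)) * |β| = 4 * ε * H * |β| + 8 * ε * q := by
    field_simp
    ring
  have h3 : (S.card : ℝ) * |β| ≤ 4 * ε * H * |β| + 8 * ε * q :=
    h2 ▸ mul_le_mul_of_nonneg_right h1 hb.le
  have h4 : (H : ℝ) * |β| ≤ Y * (4 * ε * H * |β| + 8 * ε * q) :=
    (mul_le_mul_of_nonneg_right hc hb.le).trans
      (by rw [mul_assoc]; exact mul_le_mul_of_nonneg_left h3 (by linarith))
  have h5 : 0 ≤ (H : ℝ) * |β| := by positivity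
  have h6 : 8 * Y * ε * (H * |β|) ≤ H * |β| := mul_le_of_le_one_left h5 hεY
  have h7 : Y * ε * q ≤ Y * ε * (2 * Y) := mul_le_mul_of_nonneg_left hq2 (by positivity)
  have h8 : 0 ≤ Y ^ 2 * ε := by positivity
  nlinarith

end Vale.Agent.P042U
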