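import Vale.Agent.P042U.WeylA
import Vale.Agent.P042U.Vino

/-! The inverse form of the Weyl inequality. -/

namespace Vale.Agent.P042U

open Polynomial Finset

theorem weyl_pigeon (S : Finset ℕ) (Q : ℝ) (hQ : 1 ≤ Q) (g : ℕ → ℕ)
    (hg : ∀ h ∈ S, 1 ≤ g h ∧ (g h : ℝ) ≤ Q) :
    ∃ q : ℕ, 1 ≤ q ∧ (q : ℝ) ≤ Q ∧ (S.card : ℝ) ≤ Q * (S.filter fun h => g h = q).card := by
  have h1 : 1 ≤ ⌊Q⌋₊ := Nat.le_floor (by simpa using hQ)
  have h2 : (0 : ℝ) < ⌊Q⌋₊ := by exact_mod_cast h1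
  have h3 : (⌊Q⌋₊ : ℝ) ≤ Q := Nat.floor_le (by linarith)
  obtain ⟨q, hq, hb⟩ := Finset.exists_le_card_fiber_of_nsmul_le_card_of_maps_to (s := S)
    (t := Icc 1 ⌊Q⌋₊) (f := g) (b := (S.card : ℝ) / ⌊Q⌋₊)
    (fun h hh => Finset.mem_Icc.2 ⟨(hg h hh).1, Nat.le_floor (hg h hh).2⟩)
    ⟨1, Finset.mem_Icc.2 ⟨le_rfl, h1⟩⟩ (by
      rw [Nat.card_Icc, nsmul_eq_mul, Nat.add_sub_cancel]
      exact le_of_eq (by field_simp))
  have h4 := Finset.mem_Icc.1 hq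
  refine ⟨q, h4.1, le_trans (by exact_mod_cast h4.2) h3, ?_⟩
  rw [div_le_iff₀ h2] at hb
  refine hb.trans ?_
  rw [mul_comm]
  exact mul_le_mul_of_nonneg_right h3 (Nat.cast_nonneg _)

theorem weyl_diff {k K : ℕ} (hk : 1 ≤ k)
    (ih : ∀ f : ℝ[X], f.natDegree ≤ k → ∀ H : ℕ, ∀ Y : ℝ,
      2 ≤ Y → (H : ℝ) ≤ Y * ‖∑ n ∈ range H, e (f.eval (n : ℝ))‖ →
      ∃ q : ℕ, 1 ≤ q ∧ (q : ℝ) ≤ Y ^ K ∧ ∃ a : ℤ, |q * f.coeff k - a| * (H : ℝ) ^ k ≤ Y ^ K)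
    {f : ℝ[X]} (hf : f.natDegree ≤ k + 1) {H h : ℕ} {Y : ℝ} (hY : 2 ≤ Y)
    (hT : (H : ℝ) ≤ 4 * Y ^ 2 * ‖∑ n ∈ range (H - h),
      e (f.eval ((n + h : ℕ) : ℝ)) * (starRingEnd ℂ) (e (f.eval (n : ℝ)))‖) :
    ∃ q : ℕ, (1 ≤ q ∧ (q : ℝ) ≤ Y ^ (4 * K)) ∧ ∃ a : ℤ,
      |h * (q * (k + 1) * f.coeff (k + 1)) - a| * (H : ℝ) ^ k ≤ Y ^ (4 * K + 4 * k) := by
  have hY0 : 0 ≤ Y := by linarith
  have h4 : 4 * Y ^ 2 ≤ Y ^ 4 := by nlinarith [mul_le_mul hY hY (by norm_num) hY0, sq_nonneg Y]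
  have h2 : 2 ≤ Y ^ 4 := by nlinarith [mul_le_mul hY hY (by norm_num) hY0]
  obtain ⟨hd, hc⟩ := taylor_diff f k hf h
  set g : ℝ[X] := taylor (h : ℝ) f - f with hg
  have e1 : ∑ n ∈ range (H - h), e (f.eval ((n + h : ℕ) : ℝ)) * (starRingEnd ℂ) (e (f.eval (n : ℝ))) =
      ∑ n ∈ range (H - h), e (g.eval (n : ℝ)) := by
    refine Finset.sum_congr rfl fun n _ => ?_
    rw [← e_sub, hg, eval_sub, taylor_eval]
    push_cast
    rfl
  rw [e1] at hT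
  set T := ‖∑ n ∈ range (H - h), e (g.eval (n : ℝ))‖ with hTd
  have hT0 : 0 ≤ T := norm_nonneg _
  have hT1 : T ≤ ((H - h : ℕ) : ℝ) := by
    refine (norm_sum_le _ _).trans ?_
    simp [norm_e]
  have hT2 : (H : ℝ) ≤ Y ^ 4 * T := hT.trans (mul_le_mul_of_nonneg_right h4 hT0)
  have hT3 : ((H - h : ℕ) : ℝ) ≤ Y ^ 4 * T := le_trans (by exact_mod_cast Nat.sub_le H h) hT2
  obtain ⟨q, hq1, hq2, a, ha⟩ := ih g hd (H - h) (Y ^ 4) h2 hT3
  rw [← pow_mul] at hq2 ha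
  refine ⟨q, ⟨hq1, hq2⟩, a, ?_⟩
  rw [hc hk] at ha
  have e2 : (h : ℝ) * (q * (k + 1) * f.coeff (k + 1)) = q * ((k + 1) * h * f.coeff (k + 1)) := by
    ring
  rw [e2]
  have h5 : (H : ℝ) ^ k ≤ (Y ^ 4 * ((H - h : ℕ) : ℝ)) ^ k :=
    pow_le_pow_left₀ (Nat.cast_nonneg _)
      (hT2.trans (mul_le_mul_of_nonneg_left hT1 (by positivity))) k
  rw [mul_pow, ← pow_mul] at h5
  calc _ ≤ |(q : ℝ) * ((k + 1) * h * f.coeff (k + 1)) - a| *
        (Y ^ (4 * k) * ((H - h : ℕ) : ℝ) ^ k) := mul_le_mul_of_nonneg_left h5 (abs_nonneg _)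
    _ = Y ^ (4 * k) * (|(q : ℝ) * ((k + 1) * h * f.coeff (k + 1)) - a| *
        ((H - h : ℕ) : ℝ) ^ k) := by ring
    _ ≤ Y ^ (4 * k) * Y ^ (4 * K) := mul_le_mul_of_nonneg_left ha (by positivity)
    _ = Y ^ (4 * K + 4 * k) := by ring

theorem weyl_inv (k : ℕ) (hk : 1 ≤ k) : ∃ K : ℕ, ∀ f : ℝ[X], f.natDegree ≤ k → ∀ H : ℕ, ∀ Y : ℝ,
    2 ≤ Y → (H : ℝ) ≤ Y * ‖∑ n ∈ range H, e (f.eval (n : ℝ))‖ →
    ∃ q : ℕ, 1 ≤ q ∧ (q : ℝ) ≤ Y ^ K ∧ ∃ a : ℤ, |q * f.coeff k - a| * (H : ℝ) ^ k ≤ Y ^ K := by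
  induction k, hk using Nat.le_induction with
  | base =>
    refine ⟨1, fun f hf H Y hY hs => ⟨1, le_rfl, by simp; linarith, ?_⟩⟩
    have e1 : ∀ x : ℝ, f.eval x = f.coeff 1 * x + f.coeff 0 := fun x => by
      conv_lhs => rw [eq_X_add_C_of_natDegree_le_one hf]
      simp
    simp only [e1] at hs
    simpa using weyl_one _ _ H Y (by linarith) hs
  | succ k hk ih =>
    obtain ⟨K, ih⟩ := ih
    refine ⟨(8 * K + 4 * k + 8) * (k + 1) + (12 * K + 4 * k + 16), fun f hf H Y hY hs => ?_⟩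
    have hY1 : 1 ≤ Y := by linarith
    have hY0 : 0 < Y := by linarith
    have hp : ∀ {a b : ℕ}, a ≤ b → Y ^ a ≤ Y ^ b := fun h => pow_le_pow_right₀ hY1 h
    have h2p : ∀ a : ℕ, (2 : ℝ) ^ a ≤ Y ^ a := fun a => pow_le_pow_left₀ (by norm_num) hY a
    by_cases hH : (H : ℝ) ≤ Y ^ (8 * K + 4 * k + 8)
    · refine ⟨1, le_rfl, by simpa using one_le_pow₀ hY1, round (f.coeff (k + 1)), ?_⟩
      have a1 := abs_sub_round (f.coeff (k + 1))
      have a2 : (H : ℝ) ^ (k + 1) ≤ (Y ^ (8 * K + 4 * k + 8)) ^ (k + 1) :=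
        pow_le_pow_left₀ (Nat.cast_nonneg _) hH _
      rw [← pow_mul] at a2
      rw [Nat.cast_one, one_mul]
      calc _ ≤ 1 * (H : ℝ) ^ (k + 1) :=
            mul_le_mul_of_nonneg_right (by linarith) (by positivity)
        _ ≤ _ := by rw [one_mul]; exact a2.trans (hp (Nat.le_add_right _ _))
    · push Not at hH
      have hH1 : (1 : ℝ) ≤ H := (one_le_pow₀ hY1).trans hH.le
      have b4 : 4 * Y ^ 2 ≤ H := by
        have a1 := h2p 2
        have a2 : Y ^ 4 ≤ Y ^ (8 * K + 4 * k + 8) := hp (by omega)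
        have a3 : Y ^ 4 = Y ^ 2 * Y ^ 2 := by ring
        nlinarith [pow_pos hY0 2]
      obtain ⟨S, hS, hc, hT⟩ := vdc_step (fun n => e (f.eval (n : ℝ))) (fun n => (norm_e _).le)
        H Y hY1 b4 hs
      have hex : ∀ h : ℕ, ∃ q : ℕ, h ∈ S → (1 ≤ q ∧ (q : ℝ) ≤ Y ^ (4 * K)) ∧ ∃ a : ℤ,
          |h * (q * (k + 1) * f.coeff (k + 1)) - a| * (H : ℝ) ^ k ≤ Y ^ (4 * K + 4 * k) := by
        intro h
        by_cases hh : h ∈ S
        · obtain ⟨q, hq⟩ := weyl_diff hk ih hf hY (hT h hh)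
          exact ⟨q, fun _ => hq⟩
        · exact ⟨0, fun h' => absurd h' hh⟩
      choose g hg using hex
      obtain ⟨q, hq1, hq2, hcard⟩ := weyl_pigeon S (Y ^ (4 * K)) (one_le_pow₀ hY1) g
        fun h hh => (hg h hh).1
      have hHk : (0 : ℝ) < (H : ℝ) ^ k := by positivity
      have hHk1 : (H : ℝ) ≤ (H : ℝ) ^ k := le_self_pow₀ hH1 (by omega)
      obtain ⟨q', hq'1, hq'2, a, ha⟩ := vino (q * (k + 1) * f.coeff (k + 1))
        (Y ^ (4 * K + 4 * k) / (H : ℝ) ^ k) (Y ^ (4 * K + 5)) H (S.filter fun h => g h = q)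
        (fun h hh => by
          have := Finset.mem_Ico.1 (hS (Finset.mem_filter.1 hh).1)
          exact Finset.mem_Icc.2 ⟨this.1, this.2.le⟩)
        (one_le_pow₀ hY1) (by positivity)
        (by
          have a1 : Y ^ (4 * K + 6) ≤ Y ^ (8 * K + 4 * k + 8) := hp (by omega)
          have a2 : Y ^ (4 * K + 6) = Y * Y ^ (4 * K + 5) := by ring
          nlinarith [pow_pos hY0 (4 * K + 5)])
        (by
          rw [← mul_div_assoc, div_le_one hHk]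
          have a1 := h2p 3
          have a2 : Y ^ (8 * K + 4 * k + 8) =
              Y ^ 3 * (Y ^ (4 * K + 5) * Y ^ (4 * K + 4 * k)) := by ring
          have a3 : 0 < Y ^ (4 * K + 5) * Y ^ (4 * K + 4 * k) := by positivity
          nlinarith)
        (by
          have a1 := h2p 3
          have a2 : (0 : ℝ) ≤ (S.filter fun h => g h = q).card := Nat.cast_nonneg _
          calc (H : ℝ) ≤ 8 * Y ^ 2 * S.card := hc
            _ ≤ 8 * Y ^ 2 * (Y ^ (4 * K) * (S.filter fun h => g h = q).card) :=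
              mul_le_mul_of_nonneg_left hcard (by positivity)
            _ = 8 * (Y ^ (4 * K + 2) * (S.filter fun h => g h = q).card) := by ring
            _ ≤ Y ^ 3 * (Y ^ (4 * K + 2) * (S.filter fun h => g h = q).card) :=
              mul_le_mul_of_nonneg_right (by linarith) (by positivity)
            _ = _ := by ring)
        (fun h hh => by
          obtain ⟨h1, h2⟩ := Finset.mem_filter.1 hh
          obtain ⟨a, ha⟩ := (hg h h1).2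
          rw [h2] at ha
          exact ⟨a, by rwa [le_div_iff₀ hHk]⟩)
      refine ⟨q' * q * (k + 1), Nat.mul_pos (Nat.mul_pos hq'1 hq1) (by omega), ?_, a, ?_⟩
      · have a1 : ((k + 1 : ℕ) : ℝ) ≤ Y ^ (k + 1) :=
          le_trans (by exact_mod_cast Nat.lt_two_pow_self.le) (h2p (k + 1))
        have a2 : (q' : ℝ) ≤ Y ^ (4 * K + 6) := by
          have : Y ^ (4 * K + 6) = Y * Y ^ (4 * K + 5) := by ring
          nlinarith [pow_pos hY0 (4 * K + 5)]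
        rw [Nat.cast_mul, Nat.cast_mul]
        calc _ ≤ Y ^ (4 * K + 6) * Y ^ (4 * K) * Y ^ (k + 1) := by gcongr
          _ = Y ^ (8 * K + k + 7) := by ring
          _ ≤ _ := hp (by omega)
      · have e1 : ((q' * q * (k + 1) : ℕ) : ℝ) * f.coeff (k + 1) =
            q' * (q * (k + 1) * f.coeff (k + 1)) := by push_cast; ring
        rw [e1, pow_succ', ← mul_assoc]
        have a1 := h2p 6
        calc _ ≤ 64 * (Y ^ (4 * K + 5)) ^ 2 * (Y ^ (4 * K + 4 * k) / (H : ℝ) ^ k) * (H : ℝ) ^ k :=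
              mul_le_mul_of_nonneg_right ha hHk.le
          _ = 64 * Y ^ (12 * K + 4 * k + 10) := by field_simp; ring
          _ ≤ Y ^ 6 * Y ^ (12 * K + 4 * k + 10) :=
              mul_le_mul_of_nonneg_right (by linarith) (by positivity)
          _ = Y ^ (12 * K + 4 * k + 16) := by ring
          _ ≤ _ := hp (Nat.le_add_left _ _)

end Vale.Agent.P042U
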