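import Vale.Agent.P042U.Basic

/-! The van der Corput step and the linear case. -/

namespace Vale.Agent.P042U

open Polynomial Finset

namespace WeylAx

theorem sq_eq (z : ℕ → ℂ) (H : ℕ) : ‖∑ n ∈ range H, z n‖ ^ 2 = ∑ n ∈ range H, ‖z n‖ ^ 2 +
    2 * ∑ h ∈ Ico 1 H, (∑ n ∈ range (H - h), z (n + h) * (starRingEnd ℂ) (z n)).re := by
  induction H with
  | zero => simp
  | succ H ih =>
    have e1 : ∑ h ∈ Ico 1 (H + 1), (∑ n ∈ range (H + 1 - h), z (n + h) * (starRingEnd ℂ) (z n)).re =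
        ∑ h ∈ Ico 1 (H + 1), ((∑ n ∈ range (H - h), z (n + h) * (starRingEnd ℂ) (z n)).re +
          (z H * (starRingEnd ℂ) (z (H - h))).re) := by
      refine sum_congr rfl fun h hh => ?_
      have := mem_Ico.1 hh
      rw [show H + 1 - h = H - h + 1 by omega, sum_range_succ, Complex.add_re,
        show H - h + h = H by omega]
    have e2 : ∑ h ∈ Ico 1 (H + 1), (∑ n ∈ range (H - h), z (n + h) * (starRingEnd ℂ) (z n)).re =
        ∑ h ∈ Ico 1 H, (∑ n ∈ range (H - h), z (n + h) * (starRingEnd ℂ) (z n)).re := by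
      rcases Nat.eq_zero_or_pos H with rfl | c
      · simp
      · rw [sum_Ico_succ_top c]
        simp
    have e3 : ∑ h ∈ Ico 1 (H + 1), (z H * (starRingEnd ℂ) (z (H - h))).re =
        (z H * (starRingEnd ℂ) (∑ n ∈ range H, z n)).re := by
      rw [map_sum, mul_sum, Complex.re_sum, sum_Ico_eq_sum_range, Nat.add_sub_cancel,
        ← sum_range_reflect]
      refine sum_congr rfl fun n hn => ?_
      have := mem_range.1 hn
      rw [show H - (1 + (H - 1 - n)) = n by omega]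
    rw [e1, sum_add_distrib, e2, e3, sum_range_succ, sum_range_succ, add_comm _ (z H),
      Complex.sq_norm, Complex.normSq_add, ← Complex.sq_norm, ← Complex.sq_norm, ih]
    ring

theorem sq_le (z : ℕ → ℂ) (hz : ∀ n, ‖z n‖ ≤ 1) (H : ℕ) : ‖∑ n ∈ range H, z n‖ ^ 2 ≤ H +
    2 * ∑ h ∈ Ico 1 H, ‖∑ n ∈ range (H - h), z (n + h) * (starRingEnd ℂ) (z n)‖ := by
  rw [sq_eq]
  refine add_le_add ((sum_le_card_nsmul _ _ 1 fun n _ => pow_le_one₀ (norm_nonneg _) (hz n)).trans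
    (by simp)) (mul_le_mul_of_nonneg_left (sum_le_sum fun h _ => Complex.re_le_norm _) zero_le_two)

end WeylAx

theorem vdc_step (z : ℕ → ℂ) (hz : ∀ n, ‖z n‖ ≤ 1) (H : ℕ) (Y : ℝ) (hY : 1 ≤ Y)
    (hH : 4 * Y ^ 2 ≤ H) (hs : (H : ℝ) ≤ Y * ‖∑ n ∈ range H, z n‖) :
    ∃ S : Finset ℕ, S ⊆ Ico 1 H ∧ (H : ℝ) ≤ 8 * Y ^ 2 * S.card ∧ ∀ h ∈ S,
      (H : ℝ) ≤ 4 * Y ^ 2 * ‖∑ n ∈ range (H - h), z (n + h) * (starRingEnd ℂ) (z n)‖ := by
  classical
  have hY2 : 0 < 4 * Y ^ 2 := by positivity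
  have hH0 : (0 : ℝ) < H := by linarith
  set T : ℕ → ℝ := fun h => ‖∑ n ∈ range (H - h), z (n + h) * (starRingEnd ℂ) (z n)‖ with hT
  refine ⟨(Ico 1 H).filter fun h => (H : ℝ) ≤ 4 * Y ^ 2 * T h, filter_subset _ _, ?_,
    fun h hh => (mem_filter.1 hh).2⟩
  set S := (Ico 1 H).filter fun h => (H : ℝ) ≤ 4 * Y ^ 2 * T h with hS
  have h1 := WeylAx.sq_le z hz H
  have hTH : ∀ h, T h ≤ H := fun h => by
    refine (norm_sum_le _ _).trans ((sum_le_card_nsmul _ _ 1 fun n _ => ?_).trans ?_)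
    · rw [norm_mul, RCLike.norm_conj]
      exact mul_le_one₀ (hz _) (norm_nonneg _) (hz _)
    · rw [card_range, nsmul_eq_mul, mul_one]
      exact_mod_cast Nat.sub_le H h
  have h2 : ∑ h ∈ Ico 1 H, T h ≤ S.card * H + H * (H / (4 * Y ^ 2)) := by
    rw [← sum_filter_add_sum_filter_not (Ico 1 H) fun h => (H : ℝ) ≤ 4 * Y ^ 2 * T h]
    refine add_le_add ((sum_le_card_nsmul _ _ _ fun h _ => hTH h).trans (by rw [nsmul_eq_mul])) ?_
    refine (sum_le_card_nsmul _ _ (H / (4 * Y ^ 2)) fun h hh => ?_).trans ?_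
    · rw [le_div_iff₀ hY2, mul_comm]
      exact (not_le.1 (mem_filter.1 hh).2).le
    · rw [nsmul_eq_mul]
      refine mul_le_mul_of_nonneg_right ?_ (by positivity)
      have := (card_filter_le (Ico 1 H) fun h => ¬ (H : ℝ) ≤ 4 * Y ^ 2 * T h).trans
        (Nat.card_Ico 1 H).le
      exact_mod_cast this.trans (Nat.sub_le _ _)
  have h3 : (H : ℝ) ^ 2 ≤ Y ^ 2 * ‖∑ n ∈ range H, z n‖ ^ 2 := by
    rw [← mul_pow]
    exact pow_le_pow_left₀ hH0.le hs 2
  have h4 := mul_le_mul_of_nonneg_left (h1.trans (by linarith :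
    H + 2 * ∑ h ∈ Ico 1 H, T h ≤ H + 2 * (S.card * H + H * (H / (4 * Y ^ 2))))) (sq_nonneg Y)
  have h5 : Y ^ 2 * (H + 2 * (S.card * H + H * (H / (4 * Y ^ 2)))) =
      H * (Y ^ 2 + 2 * Y ^ 2 * S.card + H / 2) := by
    field_simp
    ring
  have h6 : H * H ≤ H * (Y ^ 2 + 2 * Y ^ 2 * S.card + H / 2) := by linarith
  have h7 := le_of_mul_le_mul_left h6 hH0
  linarith

theorem weyl_one (γ c : ℝ) (H : ℕ) (Y : ℝ) (hY : 0 ≤ Y)
    (hs : (H : ℝ) ≤ Y * ‖∑ n ∈ range H, e (γ * n + c)‖) :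
    ∃ a : ℤ, |γ - a| * H ≤ Y := by
  refine ⟨round γ, ?_⟩
  set θ := γ - round γ with hθ
  have h1 : |θ| ≤ 1 / 2 := abs_sub_round γ
  have h2 : ∀ n ∈ range H, e (γ * n + c) = e c * e θ ^ n := fun n _ => by
    rw [← e_nat_mul, ← e_add, ← e_add_int (c + n * θ) (round γ * n)]
    congr 1
    rw [hθ]
    push_cast
    ring
  rw [sum_congr rfl h2, ← mul_sum, norm_mul, norm_e, one_mul] at hs
  have h3 : ‖∑ n ∈ range H, e θ ^ n‖ * ‖e θ - 1‖ ≤ 2 := by
    rw [← norm_mul, geom_sum_mul]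
    refine (norm_sub_le _ _).trans ?_
    rw [norm_pow, norm_e, one_pow, norm_one]
    norm_num
  have h4 : 4 * |θ| ≤ ‖e θ - 1‖ := by
    unfold e
    rw [mul_comm _ Complex.I, Complex.norm_exp_I_mul_ofReal_sub_one, Real.norm_eq_abs, abs_mul,
      abs_two]
    have hp := Real.pi_pos
    have e1 : 2 * Real.pi * θ / 2 = Real.pi * θ := by ring
    have h5 : |Real.pi * θ| ≤ Real.pi / 2 := by
      rw [abs_mul, abs_of_pos hp]
      nlinarith
    have h6 := Real.mul_abs_le_abs_sin h5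
    rw [abs_mul, abs_of_pos hp, ← mul_assoc, div_mul_cancel₀ _ hp.ne'] at h6
    rw [e1]
    linarith
  have h7 := mul_le_mul_of_nonneg_left hs (abs_nonneg θ)
  have h8 := mul_le_mul_of_nonneg_left h4 (norm_nonneg (∑ n ∈ range H, e θ ^ n))
  have h9 : ‖∑ n ∈ range H, e θ ^ n‖ * |θ| ≤ 1 := by linarith
  have := mul_le_mul_of_nonneg_left h9 hY
  linarith

theorem taylor_diff (f : ℝ[X]) (k : ℕ) (hf : f.natDegree ≤ k + 1) (h : ℝ) :
    (taylor h f - f).natDegree ≤ k ∧ (1 ≤ k → (taylor h f - f).coeff k = (k + 1) * h * f.coeff (k + 1)) := by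
  have hc : ∀ n, k ≤ n → (taylor h f).coeff n = f.coeff n + (n + 1) * f.coeff (n + 1) * h := by
    intro n hn
    have hd : (hasseDeriv n f).natDegree < 2 := by
      have := natDegree_hasseDeriv_le f n
      omega
    rw [taylor_coeff, eval_eq_sum_range' hd, sum_range_succ, sum_range_one, hasseDeriv_coeff,
      hasseDeriv_coeff, zero_add, Nat.choose_self, add_comm 1 n, Nat.choose_succ_self_right]
    push_cast
    ring
  constructor
  · rw [natDegree_le_iff_coeff_eq_zero]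
    intro n hn
    rw [coeff_sub, hc n hn.le, coeff_eq_zero_of_natDegree_lt (by omega : f.natDegree < n + 1)]
    ring
  · intro _
    rw [coeff_sub, hc k le_rfl]
    ring

end Vale.Agent.P042U
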