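import Vale.Agent.P042U.Kloo

/-! The set of `y` with `D + y` and `D - y` both nonzero squares. -/

namespace Vale.Agent.P042U

open Polynomial Finset

open Classical in
/-- the set of `y` with `D + y` and `D - y` both nonzero squares -/
noncomputable def YY (p : ℕ) [Fact p.Prime] (D : ZMod p) : Finset (ZMod p) :=
  univ.filter (fun y => D + y ≠ 0 ∧ IsSquare (D + y) ∧ D - y ≠ 0 ∧ IsSquare (D - y))

theorem mem_YY {p : ℕ} [Fact p.Prime] {D y : ZMod p} :
    y ∈ YY p D ↔ D + y ≠ 0 ∧ IsSquare (D + y) ∧ D - y ≠ 0 ∧ IsSquare (D - y) := by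
  unfold YY; simp

theorem YSum.rc (p : ℕ) [Fact p.Prime] (hp : p ≠ 2) : ringChar (ZMod p) ≠ 2 := by
  rw [ZMod.ringChar_zmod_n]; exact hp

theorem YSum.two (p : ℕ) [Fact p.Prime] (hp : p ≠ 2) : (2 : ZMod p) ≠ 0 :=
  Ring.two_ne_zero (YSum.rc p hp)

theorem YSum.card_fib (p : ℕ) [Fact p.Prime] (hp : p ≠ 2) (z : ZMod p) :
    (((univ : Finset (ZMod p)ˣ).filter
      (fun t : (ZMod p)ˣ => (t : ZMod p) + ((t⁻¹ : (ZMod p)ˣ) : ZMod p) = z)).card : ℤ) =
      quadraticChar (ZMod p) (z ^ 2 - 4) + 1 := by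
  have h2 := YSum.two p hp
  rw [← quadraticChar_card_sqrts (YSum.rc p hp)]
  congr 1
  refine Finset.card_bij (fun (t : (ZMod p)ˣ) _ => 2 * (t : ZMod p) - z) ?_ ?_ ?_
  · intro t ht
    simp only [mem_filter, mem_univ, true_and] at ht
    simp only [Set.mem_toFinset, Set.mem_ofPred_eq]
    have h1 : (t : ZMod p) * ((t⁻¹ : (ZMod p)ˣ) : ZMod p) = 1 := t.mul_inv
    rw [← ht]
    linear_combination (-4 : ZMod p) * h1
  · intro s _ t _ hst
    have : (2 : ZMod p) * ((s : ZMod p) - t) = 0 := by linear_combination hst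
    rcases mul_eq_zero.mp this with h | h
    · exact absurd h h2
    · exact Units.ext (sub_eq_zero.mp h)
  · intro x hx
    simp only [Set.mem_toFinset, Set.mem_ofPred_eq] at hx
    have h1 : ((x + z) / 2) * ((z - x) / 2) = 1 := by
      field_simp
      linear_combination (-1 : ZMod p) * hx
    refine ⟨⟨(x + z) / 2, (z - x) / 2, h1, by rw [mul_comm]; exact h1⟩, ?_, ?_⟩
    · simp only [mem_filter, mem_univ, true_and, Units.inv_mk]
      field_simp
      ring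
    · simp only
      field_simp
      ring

theorem chi_sum_eq (p : ℕ) [Fact p.Prime] (hp : p ≠ 2) (ξ : ZMod p) :
    ∑ z : ZMod p, (1 + (quadraticChar (ZMod p) (z ^ 2 - 4) : ℂ)) * ZMod.stdAddChar (ξ * z) =
      ∑ t : (ZMod p)ˣ, ZMod.stdAddChar (ξ * (t : ZMod p) + ξ * ((t⁻¹ : (ZMod p)ˣ) : ZMod p)) := by
  rw [← Finset.sum_fiberwise (univ : Finset (ZMod p)ˣ)
    (fun t : (ZMod p)ˣ => (t : ZMod p) + ((t⁻¹ : (ZMod p)ˣ) : ZMod p))]
  refine Finset.sum_congr rfl fun z _ => ?_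
  rw [Finset.sum_congr rfl (g := fun _ => ZMod.stdAddChar (ξ * z))]
  · rw [sum_const, nsmul_eq_mul]
    congr 1
    have := congrArg (fun n : ℤ => (n : ℂ)) (YSum.card_fib p hp z)
    simp only [Int.cast_natCast, Int.cast_add, Int.cast_one] at this
    rw [this]; ring
  · intro t ht
    simp only [mem_filter, mem_univ, true_and] at ht
    rw [← ht, mul_add]

theorem YSum.norm_psi (p : ℕ) [Fact p.Prime] (x : ZMod p) : ‖ZMod.stdAddChar x‖ = 1 := by
  rw [ZMod.stdAddChar_apply]; exact Circle.norm_coe _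

theorem YSum.norm_chi (p : ℕ) [Fact p.Prime] (x : ZMod p) :
    ‖((quadraticChar (ZMod p) x : ℤ) : ℂ)‖ ≤ 1 := by
  rcases quadraticChar_isQuadratic (ZMod p) x with h | h | h <;> rw [h] <;> simp

theorem YSum.gauss (p : ℕ) [Fact p.Prime] (hp : p ≠ 2) (ξ : ZMod p) (hξ : ξ ≠ 0) :
    ‖∑ x : ZMod p, ((quadraticChar (ZMod p) x : ℤ) : ℂ) * ZMod.stdAddChar (ξ * x)‖ ^ 2 ≤ p := by
  have hχ : (quadraticChar (ZMod p)).ringHomComp (Int.castRingHom ℂ) ≠ 1 :=
    (MulChar.ringHomComp_ne_one_iff (RingHom.injective_int _)).mpr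
      (quadraticChar_ne_one (YSum.rc p hp))
  have hq : ((quadraticChar (ZMod p)).ringHomComp (Int.castRingHom ℂ)).IsQuadratic :=
    (quadraticChar_isQuadratic _).comp _
  have hψ : (AddChar.mulShift (ZMod.stdAddChar (N := p)) ξ).IsPrimitive :=
    AddChar.IsPrimitive.of_ne_one (ZMod.isPrimitive_stdAddChar p hξ)
  have h1 := gaussSum_sq hχ hq hψ
  have h2 : gaussSum ((quadraticChar (ZMod p)).ringHomComp (Int.castRingHom ℂ))
      (AddChar.mulShift (ZMod.stdAddChar (N := p)) ξ) =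
      ∑ x : ZMod p, ((quadraticChar (ZMod p) x : ℤ) : ℂ) * ZMod.stdAddChar (ξ * x) := by
    unfold gaussSum
    refine Finset.sum_congr rfl fun x _ => ?_
    rw [AddChar.mulShift_apply, MulChar.ringHomComp_apply, eq_intCast]
  rw [← h2, ← norm_pow, h1, norm_mul, MulChar.ringHomComp_apply, eq_intCast, ZMod.card]
  have h3 := YSum.norm_chi p (-1)
  have h4 : ‖(p : ℂ)‖ = p := by simp
  rw [h4]
  have h5 : (0 : ℝ) ≤ p := Nat.cast_nonneg _
  nlinarith

theorem YSum.ind (p : ℕ) [Fact p.Prime] (hp : p ≠ 2) (D : ZMod p) (hD : D ≠ 0) (y : ZMod p) :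
    (4 : ℤ) * (if y ∈ YY p D then 1 else 0) =
      (1 + quadraticChar (ZMod p) (D + y)) * (1 + quadraticChar (ZMod p) (D - y)) -
      (if y = D then 1 + quadraticChar (ZMod p) (2 * D) else 0) -
      (if y = -D then 1 + quadraticChar (ZMod p) (2 * D) else 0) := by
  have h2 := YSum.two p hp
  have hDD : D ≠ -D := by
    intro h
    have : (2 : ZMod p) * D = 0 := by linear_combination h
    exact hD ((mul_eq_zero.mp this).resolve_left h2)
  by_cases h1 : y = D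
  · subst h1
    have : y ∉ YY p y := by rw [mem_YY]; simp
    rw [if_neg this, if_pos rfl, if_neg hDD, sub_self, quadraticChar_zero, two_mul]
    ring
  by_cases h3 : y = -D
  · subst h3
    have : -D ∉ YY p D := by rw [mem_YY]; simp
    rw [if_neg this, if_neg h1, if_pos rfl, add_neg_cancel, quadraticChar_zero, sub_neg_eq_add,
      two_mul]
    ring
  have h4 : D + y ≠ 0 := fun h => h3 (by linear_combination h)
  have h5 : D - y ≠ 0 := fun h => h1 (by linear_combination (-1 : ZMod p) * h)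
  rw [if_neg h1, if_neg h3]
  by_cases h6 : IsSquare (D + y)
  · by_cases h7 : IsSquare (D - y)
    · rw [if_pos (mem_YY.mpr ⟨h4, h6, h5, h7⟩), (quadraticChar_one_iff_isSquare h4).mpr h6,
        (quadraticChar_one_iff_isSquare h5).mpr h7]
      norm_num
    · rw [if_neg (fun h => h7 (mem_YY.mp h).2.2.2), quadraticChar_neg_one_iff_not_isSquare.mpr h7]
      norm_num
  · rw [if_neg (fun h => h6 (mem_YY.mp h).2.1), quadraticChar_neg_one_iff_not_isSquare.mpr h6]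
    norm_num

theorem YSum.prod (p : ℕ) [Fact p.Prime] (hp : p ≠ 2) (D : ZMod p) (hD : D ≠ 0) (ξ : ZMod p) :
    ∑ y : ZMod p, ((quadraticChar (ZMod p) (D + y) : ℤ) : ℂ) *
      ((quadraticChar (ZMod p) (D - y) : ℤ) : ℂ) * ZMod.stdAddChar (ξ * y) =
      ((quadraticChar (ZMod p) (-1) : ℤ) : ℂ) *
      (∑ t : (ZMod p)ˣ, ZMod.stdAddChar ((ξ * (D / 2)) * (t : ZMod p) +
        (ξ * (D / 2)) * ((t⁻¹ : (ZMod p)ˣ) : ZMod p)) -
        ∑ z : ZMod p, ZMod.stdAddChar ((ξ * (D / 2)) * z)) := by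
  have h2 := YSum.two p hp
  have hD2 : D / 2 ≠ 0 := div_ne_zero hD h2
  rw [← chi_sum_eq p hp, ← Finset.sum_sub_distrib, Finset.mul_sum]
  symm
  refine Fintype.sum_bijective (fun z => D / 2 * z) (mulLeft_bijective₀ _ hD2) _ _ fun z => ?_
  have h1 : (D + D / 2 * z) * (D - D / 2 * z) = (-1) * (z ^ 2 - 4) * (D / 2) ^ 2 := by
    field_simp
    ring
  have h3 : quadraticChar (ZMod p) (D + D / 2 * z) * quadraticChar (ZMod p) (D - D / 2 * z) =
      quadraticChar (ZMod p) (-1) * quadraticChar (ZMod p) (z ^ 2 - 4) := by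
    rw [← map_mul, h1, map_mul, map_mul, quadraticChar_sq_one' hD2, mul_one]
  have h4 := congrArg (fun n : ℤ => (n : ℂ)) h3
  simp only [Int.cast_mul] at h4
  rw [h4, mul_assoc ξ]
  ring

theorem YSum.main (p : ℕ) [Fact p.Prime] (hp : p ≠ 2) (D : ZMod p) (hD : D ≠ 0) (ξ : ZMod p) :
    4 * ∑ y ∈ YY p D, ZMod.stdAddChar (ξ * y) =
      ∑ y : ZMod p, ZMod.stdAddChar (ξ * y) +
      ZMod.stdAddChar (-(ξ * D)) *
        ∑ x : ZMod p, ((quadraticChar (ZMod p) x : ℤ) : ℂ) * ZMod.stdAddChar (ξ * x) +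
      ZMod.stdAddChar (ξ * D) *
        ∑ x : ZMod p, ((quadraticChar (ZMod p) x : ℤ) : ℂ) * ZMod.stdAddChar (-ξ * x) +
      ((quadraticChar (ZMod p) (-1) : ℤ) : ℂ) *
      (∑ t : (ZMod p)ˣ, ZMod.stdAddChar ((ξ * (D / 2)) * (t : ZMod p) +
        (ξ * (D / 2)) * ((t⁻¹ : (ZMod p)ˣ) : ZMod p)) -
        ∑ z : ZMod p, ZMod.stdAddChar ((ξ * (D / 2)) * z)) -
      (1 + ((quadraticChar (ZMod p) (2 * D) : ℤ) : ℂ)) *
        (ZMod.stdAddChar (ξ * D) + ZMod.stdAddChar (ξ * -D)) := by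
  have e1 : ZMod.stdAddChar (-(ξ * D)) *
        ∑ x : ZMod p, ((quadraticChar (ZMod p) x : ℤ) : ℂ) * ZMod.stdAddChar (ξ * x) =
      ∑ y : ZMod p, ((quadraticChar (ZMod p) (D + y) : ℤ) : ℂ) * ZMod.stdAddChar (ξ * y) := by
    rw [Finset.mul_sum]
    symm
    refine Fintype.sum_bijective (fun y => D + y) (AddGroup.addLeft_bijective D) _ _ fun y => ?_
    rw [mul_left_comm, ← AddChar.map_add_eq_mul]
    congr 2; ring
  have e2 : ZMod.stdAddChar (ξ * D) *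
        ∑ x : ZMod p, ((quadraticChar (ZMod p) x : ℤ) : ℂ) * ZMod.stdAddChar (-ξ * x) =
      ∑ y : ZMod p, ((quadraticChar (ZMod p) (D - y) : ℤ) : ℂ) * ZMod.stdAddChar (ξ * y) := by
    rw [Finset.mul_sum]
    symm
    refine Fintype.sum_bijective (fun y => D - y) (Equiv.subLeft D).bijective _ _ fun y => ?_
    rw [mul_left_comm, ← AddChar.map_add_eq_mul]
    congr 2; ring
  have e3 : (1 + ((quadraticChar (ZMod p) (2 * D) : ℤ) : ℂ)) *
        (ZMod.stdAddChar (ξ * D) + ZMod.stdAddChar (ξ * -D)) =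
      ∑ y : ZMod p, ((if y = D then 1 + ((quadraticChar (ZMod p) (2 * D) : ℤ) : ℂ) else 0) +
        (if y = -D then 1 + ((quadraticChar (ZMod p) (2 * D) : ℤ) : ℂ) else 0)) *
        ZMod.stdAddChar (ξ * y) := by
    simp only [add_mul (ite _ _ _), Finset.sum_add_distrib, ite_mul, zero_mul, Finset.sum_ite_eq',
      mem_univ, if_true]
    ring
  have e4 : ∑ y ∈ YY p D, ZMod.stdAddChar (ξ * y) =
      ∑ y : ZMod p, (if y ∈ YY p D then (1 : ℂ) else 0) * ZMod.stdAddChar (ξ * y) := by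
    simp only [ite_mul, one_mul, zero_mul]
    rw [Finset.sum_ite_mem, univ_inter]
  rw [e1, e2, ← YSum.prod p hp D hD ξ, e3, e4, Finset.mul_sum, ← Finset.sum_add_distrib,
    ← Finset.sum_add_distrib, ← Finset.sum_add_distrib, ← Finset.sum_sub_distrib]
  refine Finset.sum_congr rfl fun y _ => ?_
  have h1 := congrArg (fun n : ℤ => (n : ℂ)) (YSum.ind p hp D hD y)
  simp only [Int.cast_mul, Int.cast_sub, Int.cast_add, Int.cast_one, Int.cast_ite, Int.cast_zero,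
    Int.cast_ofNat] at h1
  linear_combination ZMod.stdAddChar (ξ * y) * h1

theorem YSum.err (p : ℕ) [Fact p.Prime] (D ξ : ZMod p) :
    ‖(1 + ((quadraticChar (ZMod p) (2 * D) : ℤ) : ℂ)) *
        (ZMod.stdAddChar (ξ * D) + ZMod.stdAddChar (ξ * -D))‖ ≤ 4 := by
  rw [norm_mul]
  have h1 : ‖1 + ((quadraticChar (ZMod p) (2 * D) : ℤ) : ℂ)‖ ≤ 2 := by
    refine (norm_add_le _ _).trans ?_
    have := YSum.norm_chi p (2 * D)
    rw [norm_one]; linarith
  have h2 : ‖ZMod.stdAddChar (ξ * D) + ZMod.stdAddChar (ξ * -D)‖ ≤ 2 := by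
    refine (norm_add_le _ _).trans ?_
    rw [YSum.norm_psi, YSum.norm_psi]; norm_num
  calc _ ≤ (2 : ℝ) * 2 := mul_le_mul h1 h2 (norm_nonneg _) (by norm_num)
    _ = 4 := by norm_num

theorem YY_card (p : ℕ) [Fact p.Prime] (hp : 10 ≤ p) (D : ZMod p) (hD : D ≠ 0) :
    (p : ℝ) ≤ 8 * (YY p D).card := by
  have hp2 : p ≠ 2 := by omega
  have h1 := YSum.main p hp2 D hD 0
  have h2 := YSum.err p D 0
  have h3 : ∑ x : ZMod p, ((quadraticChar (ZMod p) x : ℤ) : ℂ) = 0 := by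
    rw [← Int.cast_sum, quadraticChar_sum_zero (YSum.rc p hp2), Int.cast_zero]
  obtain ⟨E, hE⟩ : ∃ E, E = (1 + ((quadraticChar (ZMod p) (2 * D) : ℤ) : ℂ)) *
        (ZMod.stdAddChar ((0 : ZMod p) * D) + ZMod.stdAddChar ((0 : ZMod p) * -D)) := ⟨_, rfl⟩
  rw [← hE] at h1 h2
  simp only [zero_mul, neg_zero, add_zero, AddChar.map_zero_eq_one, sum_const, card_univ,
    nsmul_eq_mul, mul_one, h3, mul_zero, ZMod.card, ZMod.card_units] at h1
  have h4 : ((p - 1 : ℕ) : ℂ) = p - 1 := by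
    rw [Nat.cast_sub (by omega), Nat.cast_one]
  rw [h4] at h1
  have h5 : (p : ℂ) = 4 * (YY p D).card + ((quadraticChar (ZMod p) (-1) : ℤ) : ℂ) + E := by
    linear_combination (-1 : ℂ) * h1
  have h6 : ‖(p : ℂ)‖ ≤ ‖(4 * (YY p D).card : ℂ)‖ + ‖((quadraticChar (ZMod p) (-1) : ℤ) : ℂ)‖ +
      ‖E‖ := by
    conv_lhs => rw [h5]
    exact norm_add₃_le
  have h7 := YSum.norm_chi p (-1)
  have h8 : ‖(4 * (YY p D).card : ℂ)‖ = 4 * (YY p D).card := by simp
  have h9 : ‖(p : ℂ)‖ = p := by simp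
  have h10 : (10 : ℝ) ≤ p := by exact_mod_cast hp
  rw [h8, h9] at h6
  linarith

theorem YY_sum (p : ℕ) [Fact p.Prime] (hp : 10 ≤ p) (D : ZMod p) (hD : D ≠ 0) (ξ : ZMod p)
    (hξ : ξ ≠ 0) : ‖∑ y ∈ YY p D, ZMod.stdAddChar (ξ * y)‖ ≤ 2 * (p : ℝ) ^ (3 / 4 : ℝ) := by
  have hp2 : p ≠ 2 := by omega
  have h2 := YSum.two p hp2
  have hz : ∀ a : ZMod p, a ≠ 0 → ∑ y : ZMod p, ZMod.stdAddChar (a * y) = 0 := by
    intro a ha
    have := AddChar.sum_mulShift a (ZMod.isPrimitive_stdAddChar p)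
    rw [if_neg ha, Nat.cast_zero] at this
    rw [← this]
    exact Finset.sum_congr rfl fun y _ => by rw [mul_comm]
  have hξ' : ξ * (D / 2) ≠ 0 := mul_ne_zero hξ (div_ne_zero hD h2)
  have h1 := YSum.main p hp2 D hD ξ
  rw [hz ξ hξ, hz _ hξ', zero_add, sub_zero] at h1
  have h3 := YSum.err p D ξ
  have g1 := YSum.gauss p hp2 ξ hξ
  have g2 := YSum.gauss p hp2 (-ξ) (neg_ne_zero.mpr hξ)
  have g3 := kloo p _ _ hξ' hξ'
  have hp1 : (1 : ℝ) ≤ p := by exact_mod_cast (by omega : 1 ≤ p)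
  obtain ⟨u, hu⟩ : ∃ u : ℝ, u = (p : ℝ) ^ (3 / 4 : ℝ) := ⟨_, rfl⟩
  have hu1 : 1 ≤ u := by rw [hu]; exact Real.one_le_rpow hp1 (by norm_num)
  have hu4 : u ^ 4 = (p : ℝ) ^ 3 := by
    rw [hu, ← Real.rpow_natCast, ← Real.rpow_mul (by linarith)]
    norm_num
  have hu2 : (p : ℝ) ≤ u ^ 2 := by
    have : (p : ℝ) ^ 2 ≤ (u ^ 2) ^ 2 := by
      rw [← pow_mul, hu4]; exact pow_le_pow_right₀ hp1 (by norm_num)
    exact (pow_le_pow_iff_left₀ (by linarith) (by positivity) two_ne_zero).mp this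
  rw [← hu]
  have k1 := (pow_le_pow_iff_left₀ (norm_nonneg _) (by linarith : 0 ≤ u) two_ne_zero).mp
    (g1.trans hu2)
  have k2 := (pow_le_pow_iff_left₀ (norm_nonneg _) (by linarith : 0 ≤ u) two_ne_zero).mp
    (g2.trans hu2)
  have k3 := (pow_le_pow_iff_left₀ (norm_nonneg _) (by linarith : 0 ≤ 2 * u) four_ne_zero).mp
    (g3.trans (by rw [mul_pow, hu4]; nlinarith [pow_nonneg (by linarith : (0 : ℝ) ≤ p) 3]))
  have h4 := congrArg norm h1
  rw [norm_mul] at h4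
  have h5 : ‖(4 : ℂ)‖ = 4 := by simp
  rw [h5] at h4
  have h6 := h4.le.trans ((norm_sub_le _ _).trans (add_le_add norm_add₃_le h3))
  rw [norm_mul, norm_mul, norm_mul, YSum.norm_psi, YSum.norm_psi] at h6
  have h7 := mul_le_mul (YSum.norm_chi p (-1)) k3 (norm_nonneg _) zero_le_one
  linarith

theorem YY_im (p : ℕ) [Fact p.Prime] (D : ZMod p) (ξ : ZMod p) :
    (∑ y ∈ YY p D, ZMod.stdAddChar (ξ * y)).im = 0 := by
  rw [← Complex.conj_eq_iff_im, map_sum]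
  refine Finset.sum_bij (fun y _ => -y) ?_ ?_ ?_ ?_
  · intro y hy
    rw [mem_YY] at hy ⊢
    rw [← sub_eq_add_neg, sub_neg_eq_add]
    exact ⟨hy.2.2.1, hy.2.2.2, hy.1, hy.2.1⟩
  · intro a _ b _ hab
    exact neg_injective hab
  · intro y hy
    refine ⟨-y, ?_, neg_neg y⟩
    rw [mem_YY] at hy ⊢
    rw [← sub_eq_add_neg, sub_neg_eq_add]
    exact ⟨hy.2.2.1, hy.2.2.2, hy.1, hy.2.1⟩
  · intro y _
    rw [mul_neg, AddChar.map_neg_eq_conj]

end Vale.Agent.P042U
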